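import Crest.Agent.R63.ASmain

/-! ROW 63, module A (amplification, part A of ideas 456): INTERFACE, proved in ASmain.lean. -/

set_option autoImplicit false
open Finset

namespace Crest.Agent.R63

theorem amplify (h : Good) (C : ℝ) (hC : 0 < C) : Target C := amplify_main h C hC

end Crest.Agent.R63
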