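import Crest.Agent.R63.AM1

/-! ROW 63, module A, piece A_C1: central limit theorem for the finite laws.

`nuB B` = the law of `TT U V B` under `p^B` (for `B ≥ 1`; finitely many Dirac measures).
`∫ g d(nuB) = EE p B (g ∘ TT)`; its characteristic function is `(∑ p a exp(i t U a / √(B V)))^B` (`EE_prod` complex
version by hand: `Finset.prod_univ_sum`), which tends to `exp(-t²/2)` by
`ProbabilityTheory.tendsto_charFun_inv_sqrt_mul_pow` (applied on the space `κ` with the measure `∑ p a • dirac a`,
`X = U / √V`; `P.map X = ` sum of Diracs), so `nuB → N(0,1)` weakly by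
`MeasureTheory.ProbabilityMeasure.tendsto_iff_tendsto_charFun`, and integrals of bounded continuous functions converge. -/

set_option autoImplicit false
open Finset MeasureTheory ProbabilityTheory Filter Topology

namespace Crest.Agent.R63.A

variable {κ : Type} [Fintype κ]

/-- weighted sum of Dirac masses -/
private noncomputable def wD {ι : Type} [Fintype ι] (w T : ι → ℝ) : Measure ℝ :=
  ∑ i : ι, (ENNReal.ofReal (w i)) • Measure.dirac (T i)

private theorem wD_prob {ι : Type} [Fintype ι] {w : ι → ℝ} (hw : ∀ i, 0 ≤ w i)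
    (h1 : ∑ i, w i = 1) (T : ι → ℝ) : IsProbabilityMeasure (wD w T) := by
  constructor
  unfold wD
  rw [Measure.finsetSum_apply]
  simp only [Measure.smul_apply, measure_univ, smul_eq_mul, mul_one]
  rw [← ENNReal.ofReal_sum_of_nonneg fun i _ => hw i, h1, ENNReal.ofReal_one]

private theorem wD_integral {ι : Type} [Fintype ι] {E : Type} [NormedAddCommGroup E]
    [NormedSpace ℝ E] [CompleteSpace E] {w : ι → ℝ} (hw : ∀ i, 0 ≤ w i) (T : ι → ℝ) (g : ℝ → E) :
    ∫ x, g x ∂(wD w T) = ∑ i, w i • g (T i) := by
  unfold wD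
  rw [integral_finsetSum_measure]
  · refine Finset.sum_congr rfl fun i _ => ?_
    rw [integral_smul_measure, integral_dirac, ENNReal.toReal_ofReal (hw i)]
  · intro i _
    exact (integrable_dirac (by simp)).smul_measure (by simp)

theorem clt_bdd {p U : κ → ℝ} (hp : ∀ a, 0 ≤ p a) (h1 : ∑ a, p a = 1)
    (hU : ∑ a, p a * U a = 0) (V : ℝ) (hV : ∑ a, p a * U a ^ 2 = V) (hV0 : 0 < V)
    (g : BoundedContinuousFunction ℝ ℝ) :
    Tendsto (fun B : ℕ => EE p B (fun s => g (TT U V B s))) atTop
      (𝓝 (∫ y, g y ∂(gaussianReal 0 1))) := by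
  classical
  have hw : ∀ (B : ℕ) (s : Fin B → κ), 0 ≤ ∏ b, p (s b) := fun B s =>
    Finset.prod_nonneg fun b _ => hp _
  have hw1 : ∀ B : ℕ, ∑ s : Fin B → κ, ∏ b, p (s b) = 1 := by
    intro B
    have h := Finset.prod_univ_sum (fun _ : Fin B => (Finset.univ : Finset κ)) (fun _ a => p a)
    simp only [h1, Fintype.piFinset_univ, Finset.prod_const_one] at h
    exact h.symm
  let ν : ℕ → ProbabilityMeasure ℝ := fun B =>
    ⟨wD (fun s : Fin B → κ => ∏ b, p (s b)) (TT U V B), wD_prob (hw B) (hw1 B) _⟩
  have hν : Tendsto ν atTop (𝓝 (⟨gaussianReal 0 1, inferInstance⟩ : ProbabilityMeasure ℝ)) := by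
    refine ProbabilityMeasure.tendsto_iff_tendsto_charFun.2 fun t => ?_
    have hP := wD_prob hp h1 (fun a => U a / Real.sqrt V)
    have key := @tendsto_charFun_inv_sqrt_mul_pow ℝ _ (wD p (fun a => U a / Real.sqrt V)) hP
      (fun x => x) aemeasurable_id ?_ ?_ t
    · have hmap : Measure.map (fun x : ℝ => x) (wD p (fun a => U a / Real.sqrt V)) =
          wD p (fun a => U a / Real.sqrt V) := Measure.map_id
      rw [hmap] at key
      have hG : charFun (gaussianReal 0 1) t = Complex.exp (- t ^ 2 / 2) := by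
        rw [charFun_gaussianReal]
        congr 1
        simp
        ring
      change Tendsto (fun n => charFun (wD (fun s : Fin n → κ => ∏ b, p (s b)) (TT U V n)) t) atTop
        (𝓝 (charFun (gaussianReal 0 1) t))
      rw [hG]
      refine key.congr fun B => ?_
      rw [charFun_apply_real, charFun_apply_real, wD_integral hp, wD_integral (hw B)]
      rw [← Fin.prod_const, Finset.prod_univ_sum]
      simp only [Fintype.piFinset_univ]
      refine Finset.sum_congr rfl fun ω _ => ?_
      simp only [Complex.real_smul]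
      rw [Finset.prod_mul_distrib, ← Complex.exp_sum, Complex.ofReal_prod]
      congr 2
      rw [← Finset.sum_mul]
      congr 1
      unfold TT
      rw [Real.sqrt_mul (Nat.cast_nonneg B)]
      push_cast
      rw [← Finset.mul_sum, ← Finset.sum_div]
      rw [div_eq_mul_inv, div_eq_mul_inv, mul_inv]
      ring
    · show ∫ x, x ∂(wD p (fun a => U a / Real.sqrt V)) = 0
      rw [wD_integral hp]
      simp only [smul_eq_mul, ← mul_div_assoc]
      rw [← Finset.sum_div, hU, zero_div]
    · show ∫ x, ((fun x : ℝ => x) ^ 2) x ∂(wD p (fun a => U a / Real.sqrt V)) = 1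
      rw [wD_integral hp]
      simp only [Pi.pow_apply, div_pow, Real.sq_sqrt hV0.le, smul_eq_mul, ← mul_div_assoc]
      rw [← Finset.sum_div, hV, div_self hV0.ne']
  have h2 := (ProbabilityMeasure.tendsto_iff_forall_integral_tendsto.1 hν) g
  refine h2.congr fun B => ?_
  show ∫ y, g y ∂(wD (fun s : Fin B → κ => ∏ b, p (s b)) (TT U V B)) = _
  rw [wD_integral (hw B)]
  unfold EE
  simp only [smul_eq_mul]

end Crest.Agent.R63.A
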