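import Crest.Agent.R63.ADefs

/-! ROW 63, module A, piece A_C2: restriction of a nonnegative continuous function with convergent total integral to a set
with finite frontier.  `E B g` stands for `EE p B (g ∘ TT)`.

`liminf_cell`: `F = insert 0 (interior A)ᶜ` is closed and nonempty, `h_j y = min (g y) j * min 1 (j * infDist y F)` is bounded,
continuous, `h_j ≤ g 1_A`, increases to `g 1_{Fᶜ}`; `∫ h_j dγ → ∫_{Fᶜ} g dγ = ∫_A g dγ` (dominated convergence; the frontier is
finite, so null for `γ`).  So for `ε > 0` some `j` has `∫ h_j ≥ ∫_A g - ε/2`, and `E_B h_j → ∫ h_j`. -/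

set_option autoImplicit false
open Finset MeasureTheory ProbabilityTheory Filter Topology

namespace Crest.Agent.R63.A

theorem liminf_cell {I : Type} (l : Filter I) (E : I → (ℝ → ℝ) → ℝ)
    (hmono : ∀ i (g h : ℝ → ℝ), (∀ y, g y ≤ h y) → E i g ≤ E i h)
    (hlim : ∀ g : BoundedContinuousFunction ℝ ℝ,
      Tendsto (fun i => E i g) l (𝓝 (∫ y, g y ∂(gaussianReal 0 1))))
    (g : ℝ → ℝ) (hg : Continuous g) (hg0 : ∀ y, 0 ≤ g y)
    (hgi : Integrable g (gaussianReal 0 1)) (A : Set ℝ) (hA : MeasurableSet A)
    (hf : (frontier A).Finite) (ε : ℝ) (hε : 0 < ε) :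
    ∀ᶠ i in l, ∫ y in A, g y ∂(gaussianReal 0 1) - ε ≤ E i (A.indicator g) := by
  classical
  set γ := gaussianReal 0 1 with hγ
  set F : Set ℝ := insert 0 (interior A)ᶜ with hF
  have hFc : IsClosed F := by
    rw [hF, Set.insert_eq]
    exact isClosed_singleton.union isOpen_interior.isClosed_compl
  have hFn : F.Nonempty := ⟨0, Set.mem_insert _ _⟩
  set h : ℕ → ℝ → ℝ := fun j y => min (g y) j * min 1 (j * Metric.infDist y F) with hh
  have hcont : ∀ j, Continuous (h j) := by
    intro j
    have := Metric.continuous_infDist_pt F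
    fun_prop
  have hnn : ∀ j y, 0 ≤ h j y := by
    intro j y
    refine mul_nonneg (le_min (hg0 y) (Nat.cast_nonneg j)) (le_min zero_le_one ?_)
    exact mul_nonneg (Nat.cast_nonneg j) Metric.infDist_nonneg
  have hle1 : ∀ j y, h j y ≤ min (g y) j := by
    intro j y
    have h1 : min 1 ((j : ℝ) * Metric.infDist y F) ≤ 1 := min_le_left _ _
    have h0 : 0 ≤ min (g y) (j : ℝ) := le_min (hg0 y) (Nat.cast_nonneg j)
    calc h j y ≤ min (g y) j * 1 := mul_le_mul_of_nonneg_left h1 h0
      _ = min (g y) j := mul_one _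
  have hzero : ∀ j y, y ∈ F → h j y = 0 := by
    intro j y hy
    simp only [hh]
    rw [Metric.infDist_zero_of_mem hy]
    simp
  have hind : ∀ j y, h j y ≤ A.indicator g y := by
    intro j y
    by_cases hy : y ∈ F
    · rw [hzero j y hy]
      exact Set.indicator_nonneg (fun y _ => hg0 y) y
    · have hyA : y ∈ A := by
        have : y ∉ (interior A)ᶜ := fun hc => hy (Set.mem_insert_of_mem _ hc)
        exact interior_subset (not_not.mp this)
      rw [Set.indicator_of_mem hyA]
      exact (hle1 j y).trans (min_le_left _ _)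
  -- pointwise limit
  have hpt : ∀ y, Tendsto (fun j => h j y) atTop (𝓝 (Fᶜ.indicator g y)) := by
    intro y
    by_cases hy : y ∈ F
    · rw [Set.indicator_of_notMem (by simpa using hy)]
      refine tendsto_const_nhds.congr fun j => (hzero j y hy).symm
    · rw [Set.indicator_of_mem (by simpa using hy)]
      have hpos : 0 < Metric.infDist y F := (hFc.notMem_iff_infDist_pos hFn).mp hy
      obtain ⟨n1, hn1⟩ := exists_nat_ge (g y)
      obtain ⟨n2, hn2⟩ := exists_nat_ge (1 / Metric.infDist y F)
      refine tendsto_const_nhds.congr' ?_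
      filter_upwards [eventually_ge_atTop n1, eventually_ge_atTop n2] with j hj1 hj2
      have e1 : min (g y) (j : ℝ) = g y := min_eq_left (hn1.trans (by exact_mod_cast hj1))
      have e2 : min 1 ((j : ℝ) * Metric.infDist y F) = 1 := by
        apply min_eq_left
        have : 1 / Metric.infDist y F ≤ j := hn2.trans (by exact_mod_cast hj2)
        rwa [div_le_iff₀ hpos] at this
      simp only [hh]
      rw [e1, e2, mul_one]
  have hnull : γ (frontier A ∪ {0}) = 0 := by
    refine gaussianReal_absolutelyContinuous 0 one_ne_zero ?_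
    exact Set.Finite.measure_zero (hf.union (Set.finite_singleton 0)) _
  have hset : (A : Set ℝ) =ᵐ[γ] (Fᶜ : Set ℝ) := by
    have hsub : {y | ¬ ((y ∈ A) = (y ∈ Fᶜ))} ⊆ frontier A ∪ {0} := by
      intro y hy
      by_contra hcon
      rw [Set.mem_union, not_or] at hcon
      apply hy
      have h0 : y ≠ 0 := hcon.2
      have hfr : y ∉ frontier A := hcon.1
      apply propext
      constructor
      · intro hyA
        rw [Set.mem_compl_iff, hF, Set.mem_insert_iff, not_or]
        refine ⟨h0, ?_⟩
        rw [Set.mem_compl_iff, not_not]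
        by_contra hni
        exact hfr ⟨subset_closure hyA, hni⟩
      · intro hyF
        rw [Set.mem_compl_iff, hF, Set.mem_insert_iff, not_or] at hyF
        exact interior_subset (not_not.mp hyF.2)
    exact measure_mono_null hsub hnull
  have hint : Tendsto (fun j => ∫ y, h j y ∂γ) atTop (𝓝 (∫ y, Fᶜ.indicator g y ∂γ)) := by
    refine tendsto_integral_of_dominated_convergence g
      (fun j => (hcont j).aestronglyMeasurable) hgi (fun j => ?_) ?_
    · refine Filter.Eventually.of_forall fun y => ?_
      rw [Real.norm_eq_abs, abs_of_nonneg (hnn j y)]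
      exact (hle1 j y).trans (min_le_left _ _)
    · exact Filter.Eventually.of_forall hpt
  have heq : ∫ y, Fᶜ.indicator g y ∂γ = ∫ y in A, g y ∂γ := by
    rw [integral_indicator hFc.isOpen_compl.measurableSet]
    exact (setIntegral_congr_set hset).symm
  rw [heq] at hint
  obtain ⟨j, hj⟩ := ((tendsto_order.mp hint).1 (∫ y in A, g y ∂γ - ε / 2) (by linarith)).exists
  -- bounded continuous function
  let b : BoundedContinuousFunction ℝ ℝ := BoundedContinuousFunction.ofNormedAddCommGroup (h j) (hcont j) j
    (fun y => by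
      rw [Real.norm_eq_abs, abs_of_nonneg (hnn j y)]
      exact (hle1 j y).trans (min_le_right _ _))
  have hb := (tendsto_order.mp (hlim b)).1 (∫ y, h j y ∂γ - ε / 2) (by
    have : ∫ y, b y ∂γ = ∫ y, h j y ∂γ := rfl
    rw [this]; linarith)
  filter_upwards [hb] with i hi
  have h1 : E i b ≤ E i (A.indicator g) := hmono i b _ (fun y => hind j y)
  have h2 : E i b = E i (h j) := rfl
  linarith

end Crest.Agent.R63.A
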