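import Crest.Agent.R63.AC2

/-! ROW 63, module A, piece A_C2B: restriction of a nonnegative continuous function with convergent total integral to a set
with finite frontier: `liminf_cell` for `A` and `Aᶜ` (`frontier_compl`) and the total
(`g = A.indicator g + Aᶜ.indicator g`, `integral_add_compl`). -/

set_option autoImplicit false
open Finset MeasureTheory ProbabilityTheory Filter Topology

namespace Crest.Agent.R63.A

theorem tendsto_cell {I : Type} (l : Filter I) (E : I → (ℝ → ℝ) → ℝ)
    (hmono : ∀ i (g h : ℝ → ℝ), (∀ y, g y ≤ h y) → E i g ≤ E i h)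
    (hadd : ∀ i (g h : ℝ → ℝ), E i (fun y => g y + h y) = E i g + E i h)
    (hlim : ∀ g : BoundedContinuousFunction ℝ ℝ,
      Tendsto (fun i => E i g) l (𝓝 (∫ y, g y ∂(gaussianReal 0 1))))
    (g : ℝ → ℝ) (hg : Continuous g) (hg0 : ∀ y, 0 ≤ g y)
    (hgi : Integrable g (gaussianReal 0 1))
    (htot : Tendsto (fun i => E i g) l (𝓝 (∫ y, g y ∂(gaussianReal 0 1))))
    (A : Set ℝ) (hA : MeasurableSet A) (hf : (frontier A).Finite) :
    Tendsto (fun i => E i (A.indicator g)) l (𝓝 (∫ y in A, g y ∂(gaussianReal 0 1))) := by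
  sorry

end Crest.Agent.R63.A
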