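import Crest.Agent.R63.AC1
import Crest.Agent.R63.AC2b

/-! ROW 63, module A, piece A_C3: the cell moments.

`tendsto_cell` for `g = 1`, `y²`, `(1 + y)²` (totals: `E 1 = 1`, `E T² = 1` for `B ≥ 1`, `E (1+T)² = 2`; the same for the Gaussian:
`integral_id_gaussianReal`, `variance`), and `y = ((1+y)² - 1 - y²)/2`. -/

set_option autoImplicit false
open Finset MeasureTheory ProbabilityTheory Filter Topology

namespace Crest.Agent.R63.A

variable {κ : Type} [Fintype κ]

private theorem int_id : Integrable (fun y : ℝ => y) (gaussianReal 0 1) :=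
  (memLp_id_gaussianReal (μ := 0) (v := 1) 1).integrable le_rfl

private theorem int_sq : Integrable (fun y : ℝ => y ^ 2) (gaussianReal 0 1) :=
  (memLp_id_gaussianReal (μ := 0) (v := 1) 2).integrable_sq

private theorem integral_sq : ∫ y : ℝ, y ^ 2 ∂(gaussianReal 0 1) = 1 := by
  have h := variance_eq_sub (μ := gaussianReal 0 1) (X := id)
    (memLp_id_gaussianReal (μ := 0) (v := 1) 2)
  rw [variance_id_gaussianReal] at h
  have h0 : (∫ x, id x ∂(gaussianReal 0 1) : ℝ) = 0 := by
    simp
  rw [h0] at h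
  simp only [Pi.pow_apply, id_eq] at h
  simp at h
  exact h.symm

private theorem int_sq1 : Integrable (fun y : ℝ => (1 + y) ^ 2) (gaussianReal 0 1) := by
  have : (fun y : ℝ => (1 + y) ^ 2) = fun y => 1 + 2 * y + y ^ 2 := by
    ext y; ring
  rw [this]
  exact ((integrable_const 1).add (int_id.const_mul 2)).add int_sq

private theorem integral_sq1 : ∫ y : ℝ, (1 + y) ^ 2 ∂(gaussianReal 0 1) = 2 := by
  have : (fun y : ℝ => (1 + y) ^ 2) = fun y => (1 + 2 * y) + y ^ 2 := by
    ext y; ring
  have i12 : Integrable (fun y : ℝ => 1 + 2 * y) (gaussianReal 0 1) :=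
    (integrable_const 1).add (int_id.const_mul 2)
  rw [this, integral_add i12 int_sq,
    integral_add (integrable_const 1) (int_id.const_mul 2), integral_const_mul,
    integral_id_gaussianReal, integral_sq]
  simp
  norm_num

private theorem EE_TT_sq {p U : κ → ℝ} (h1 : ∑ a, p a = 1)
    (hU : ∑ a, p a * U a = 0) (V : ℝ) (hV : ∑ a, p a * U a ^ 2 = V) (hV0 : 0 < V)
    (B : ℕ) (hB : 1 ≤ B) : EE p B (fun s => (TT U V B s) ^ 2) = 1 := by
  have hB' : (0 : ℝ) < B := by exact_mod_cast hB
  have e : (fun s : Fin B → κ => (TT U V B s) ^ 2) =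
      fun s => (1 / (B * V)) * (∑ t, U (s t)) ^ 2 := by
    ext s
    unfold TT
    rw [div_pow, Real.sq_sqrt (by positivity)]
    ring
  rw [e, EE_smul, EE_sq h1 hU, hV]
  field_simp

private theorem EE_TT {p U : κ → ℝ} (h1 : ∑ a, p a = 1)
    (hU : ∑ a, p a * U a = 0) (V : ℝ) (B : ℕ) : EE p B (fun s => TT U V B s) = 0 := by
  have e : (fun s : Fin B → κ => TT U V B s) =
      fun s => (1 / √(B * V)) * (∑ t, U (s t)) := by
    ext s
    unfold TT
    ring
  rw [e, EE_smul, EE_one h1 hU, mul_zero]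

theorem clt_cell {p U : κ → ℝ} (hp : ∀ a, 0 ≤ p a) (h1 : ∑ a, p a = 1)
    (hU : ∑ a, p a * U a = 0) (V : ℝ) (hV : ∑ a, p a * U a ^ 2 = V) (hV0 : 0 < V)
    (A : Set ℝ) (hA : MeasurableSet A) (hf : (frontier A).Finite) (k : ℕ) (hk : k ≤ 2) :
    Tendsto (fun B : ℕ => EE p B (fun s => A.indicator (fun y => y ^ k) (TT U V B s))) atTop
      (𝓝 (∫ y in A, y ^ k ∂(gaussianReal 0 1))) := by
  have key : ∀ g : ℝ → ℝ, Continuous g → (∀ y, 0 ≤ g y) → Integrable g (gaussianReal 0 1) →
      Tendsto (fun B : ℕ => EE p B (fun s => g (TT U V B s))) atTop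
        (𝓝 (∫ y, g y ∂(gaussianReal 0 1))) →
      Tendsto (fun B : ℕ => EE p B (fun s => A.indicator g (TT U V B s))) atTop
        (𝓝 (∫ y in A, g y ∂(gaussianReal 0 1))) := by
    intro g hg hg0 hgi htot
    exact tendsto_cell atTop (fun B h => EE p B (fun s => h (TT U V B s)))
      (fun B g h hgh => EE_mono hp B (fun s => hgh _))
      (fun B g h => EE_add p B _ _)
      (fun g => clt_bdd hp h1 hU V hV hV0 g) g hg hg0 hgi htot A hA hf
  have k0 : Tendsto (fun B : ℕ => EE p B (fun s => A.indicator (fun _ => (1 : ℝ)) (TT U V B s)))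
      atTop (𝓝 (∫ y in A, (1 : ℝ) ∂(gaussianReal 0 1))) := by
    refine key (fun _ => 1) continuous_const (fun _ => zero_le_one) (integrable_const 1) ?_
    have : ∀ B : ℕ, EE p B (fun s => (fun _ : ℝ => (1 : ℝ)) (TT U V B s)) = 1 :=
      fun B => EE_const h1 B 1
    simp only [this]
    simp
  have k2 : Tendsto (fun B : ℕ => EE p B (fun s => A.indicator (fun y => y ^ 2) (TT U V B s)))
      atTop (𝓝 (∫ y in A, y ^ 2 ∂(gaussianReal 0 1))) := by
    refine key (fun y => y ^ 2) (by fun_prop) (fun y => sq_nonneg y) int_sq ?_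
    rw [integral_sq]
    refine Tendsto.congr' ?_ (tendsto_const_nhds (x := (1 : ℝ)))
    filter_upwards [eventually_ge_atTop 1] with B hB
    exact (EE_TT_sq h1 hU V hV hV0 B hB).symm
  have k3 : Tendsto (fun B : ℕ => EE p B (fun s => A.indicator (fun y => (1 + y) ^ 2) (TT U V B s)))
      atTop (𝓝 (∫ y in A, (1 + y) ^ 2 ∂(gaussianReal 0 1))) := by
    refine key (fun y => (1 + y) ^ 2) (by fun_prop) (fun y => sq_nonneg _) int_sq1 ?_
    rw [integral_sq1]
    refine Tendsto.congr' ?_ (tendsto_const_nhds (x := (2 : ℝ)))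
    filter_upwards [eventually_ge_atTop 1] with B hB
    have e : (fun s : Fin B → κ => (1 + TT U V B s) ^ 2) =
        fun s => (1 + 2 * TT U V B s) + TT U V B s ^ 2 := by
      ext s; ring
    show (2 : ℝ) = EE p B (fun s => (1 + TT U V B s) ^ 2)
    rw [e, EE_add, EE_add, EE_smul, EE_const h1, EE_TT h1 hU, EE_TT_sq h1 hU V hV hV0 B hB]
    norm_num
  interval_cases k
  · simpa using k0
  · have e1 : ∀ B : ℕ, EE p B (fun s => A.indicator (fun y => y ^ 1) (TT U V B s)) =
        (1 / 2) * (EE p B (fun s => A.indicator (fun y => (1 + y) ^ 2) (TT U V B s)) +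
          ((-1) * EE p B (fun s => A.indicator (fun _ => (1 : ℝ)) (TT U V B s)) +
          (-1) * EE p B (fun s => A.indicator (fun y => y ^ 2) (TT U V B s)))) := by
      intro B
      rw [← EE_smul p B (-1), ← EE_smul p B (-1), ← EE_add, ← EE_add, ← EE_smul]
      congr 1
      ext s
      by_cases hs : TT U V B s ∈ A
      · simp only [Set.indicator_of_mem hs]
        ring
      · simp only [Set.indicator_of_notMem hs]
        ring
    have e2 : ∫ y in A, y ^ 1 ∂(gaussianReal 0 1) =
        (1 / 2) * ((∫ y in A, (1 + y) ^ 2 ∂(gaussianReal 0 1)) +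
          ((-1) * (∫ y in A, (1 : ℝ) ∂(gaussianReal 0 1)) +
          (-1) * ∫ y in A, y ^ 2 ∂(gaussianReal 0 1))) := by
      have i1 : Integrable (fun y : ℝ => (1 + y) ^ 2) ((gaussianReal 0 1).restrict A) :=
        int_sq1.restrict
      have i2 : Integrable (fun _ : ℝ => (1 : ℝ)) ((gaussianReal 0 1).restrict A) :=
        (integrable_const 1)
      have i3 : Integrable (fun y : ℝ => y ^ 2) ((gaussianReal 0 1).restrict A) :=
        int_sq.restrict
      have i23 : Integrable (fun y : ℝ => -1 * (1 : ℝ) + -1 * y ^ 2)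
          ((gaussianReal 0 1).restrict A) := (i2.const_mul (-1)).add (i3.const_mul (-1))
      rw [← integral_const_mul, ← integral_const_mul,
        ← integral_add (i2.const_mul (-1)) (i3.const_mul (-1)),
        ← integral_add i1 i23, ← integral_const_mul]
      congr 1
      ext y
      ring
    simp only [e1, e2]
    exact ((k3.add ((k0.const_mul (-1)).add (k2.const_mul (-1)))).const_mul (1 / 2))
  · exact k2

end Crest.Agent.R63.A
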