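import Crest.Agent.R63.AC3

/-! ROW 63, module A, piece A_C4: joint cell moments.

`joint_lim`: for fixed `x` and exponents `k` the left side is
`∏_i EE p B (indicator (Qz⁻¹ {x i}) (y^(k i)) (TT s))` (`EE_prod` for the law `pw p B`, `EE p B G = ∑ s, pw p B s * G s`), the limit is
`∏_i ∫_{Qz = x i} y^(k i)` (`tendsto_finsetProd`, `clt_cell`) `= ∫ ...` (`MeasureTheory.integral_fintype_prod_eq_prod`;
the indicator of `{Y | ∀ i, Qz (Y i) = x i}` is the product of the indicators). -/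

set_option autoImplicit false
open Finset MeasureTheory ProbabilityTheory Filter Topology

namespace Crest.Agent.R63.A

variable {κ : Type} [Fintype κ]

theorem joint_lim {p U : κ → ℝ} (hp : ∀ a, 0 ≤ p a) (h1 : ∑ a, p a = 1)
    (hU : ∑ a, p a * U a = 0) (V : ℝ) (hV : ∑ a, p a * U a ^ 2 = V) (hV0 : 0 < V)
    {Γ : Type} [Fintype Γ] [DecidableEq Γ] (Qz : ℝ → Γ)
    (hQ : ∀ a, MeasurableSet (Qz ⁻¹' {a}) ∧ (frontier (Qz ⁻¹' {a})).Finite)
    (m : ℕ) (x : Fin m → Γ) (k : Fin m → ℕ) (hk : ∀ i, k i ≤ 2) :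
    Tendsto (fun B : ℕ => EE (pw p B) m (fun a => ∏ i,
      (if Qz (TT U V B (a i)) = x i then TT U V B (a i) ^ k i else 0))) atTop
      (𝓝 (∫ Y in {Y : Fin m → ℝ | ∀ i, Qz (Y i) = x i}, ∏ i, Y i ^ k i
        ∂(Measure.pi fun _ : Fin m => gaussianReal 0 1))) := by
  have hmeas : MeasurableSet {Y : Fin m → ℝ | ∀ i, Qz (Y i) = x i} := by
    have h2 : {Y : Fin m → ℝ | ∀ i, Qz (Y i) = x i} = Set.pi Set.univ (fun i => Qz ⁻¹' {x i}) := by
      ext Y
      simp
    rw [h2]
    exact MeasurableSet.univ_pi (fun i => (hQ (x i)).1)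
  have hR : (∫ Y in {Y : Fin m → ℝ | ∀ i, Qz (Y i) = x i}, ∏ i, Y i ^ k i
        ∂(Measure.pi fun _ : Fin m => gaussianReal 0 1)) =
      ∏ i, ∫ y in Qz ⁻¹' {x i}, y ^ k i ∂(gaussianReal 0 1) := by
    rw [← integral_indicator hmeas]
    have h3 : ∀ i, ∫ y in Qz ⁻¹' {x i}, y ^ k i ∂(gaussianReal 0 1) =
        ∫ y, (Qz ⁻¹' {x i}).indicator (fun y => y ^ k i) y ∂(gaussianReal 0 1) :=
      fun i => (integral_indicator (hQ (x i)).1).symm
    simp only [h3]
    rw [← integral_fintype_prod_eq_prod (μ := fun _ : Fin m => gaussianReal 0 1)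
      (fun (i : Fin m) (y : ℝ) => (Qz ⁻¹' {x i}).indicator (fun y => y ^ k i) y)]
    apply integral_congr_ae
    filter_upwards with Y
    by_cases h : ∀ i, Qz (Y i) = x i
    · rw [Set.indicator_of_mem (by exact h)]
      apply Finset.prod_congr rfl
      intro i _
      rw [Set.indicator_of_mem (by simpa using h i)]
    · rw [Set.indicator_of_notMem (by exact h)]
      obtain ⟨i, hi⟩ := not_forall.mp h
      symm
      apply Finset.prod_eq_zero (Finset.mem_univ i)
      rw [Set.indicator_of_notMem (by simpa using hi)]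
  rw [hR]
  have hL : ∀ B : ℕ, EE (pw p B) m (fun a => ∏ i,
      (if Qz (TT U V B (a i)) = x i then TT U V B (a i) ^ k i else 0)) =
      ∏ i, EE p B (fun s => (Qz ⁻¹' {x i}).indicator (fun y => y ^ k i) (TT U V B s)) := by
    intro B
    rw [EE_prod (pw p B) m (fun i s => (if Qz (TT U V B s) = x i then TT U V B s ^ k i else 0))]
    apply Finset.prod_congr rfl
    intro i _
    unfold EE
    apply Finset.sum_congr rfl
    intro s _
    unfold pw
    congr 1
    simp only [Set.indicator, Set.mem_preimage, Set.mem_singleton_iff]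
  simp only [hL]
  exact tendsto_finsetProd _ fun i _ =>
    clt_cell hp h1 hU V hV hV0 (Qz ⁻¹' {x i}) (hQ (x i)).1 (hQ (x i)).2 (k i) (hk i)

end Crest.Agent.R63.A
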