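import Crest.Agent.R63.AC4

/-! ROW 63, module A, piece A_C5: `phi_lim`.

`c (Qz ∘ T) = ∑_x c x ∏_i 1(Qz T_i = x i)`, `(∑ T_i)² = ∑_i ∑_j ∏_l T_l ^ ([l = i] + [l = j])`, `joint_lim` for
`k = 0` and `k l = [l = i] + [l = j]`; `phi` is the corresponding combination of the limits (integrability of
`∏ Y_i^(k i)` : `MeasureTheory.Integrable.fintype_prod`-type lemma, moments of the Gaussian). -/

set_option autoImplicit false
open Finset MeasureTheory ProbabilityTheory Filter Topology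

namespace Crest.Agent.R63.A

variable {κ : Type} [Fintype κ]

private theorem ac5_EE_sum {κ' X' : Type} [Fintype κ'] (p : κ' → ℝ) (M : ℕ) (s : Finset X')
    (G : X' → (Fin M → κ') → ℝ) :
    EE p M (fun a => ∑ x ∈ s, G x a) = ∑ x ∈ s, EE p M (G x) := by
  unfold EE
  rw [Finset.sum_comm]
  exact Finset.sum_congr rfl fun a _ => Finset.mul_sum _ _ _

private theorem ac5_EE_smul {κ' : Type} [Fintype κ'] (p : κ' → ℝ) (M : ℕ) (r : ℝ)
    (G : (Fin M → κ') → ℝ) : EE p M (fun a => r * G a) = r * EE p M G := by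
  unfold EE
  rw [Finset.mul_sum]
  exact Finset.sum_congr rfl fun a _ => by ring

private theorem ac5_EE_sub {κ' : Type} [Fintype κ'] (p : κ' → ℝ) (M : ℕ)
    (G H : (Fin M → κ') → ℝ) : EE p M (fun a => G a - H a) = EE p M G - EE p M H := by
  unfold EE
  rw [← Finset.sum_sub_distrib]
  exact Finset.sum_congr rfl fun a _ => by ring

/-- exponents -/
private def ac5k {m : ℕ} (i j : Fin m) (l : Fin m) : ℕ :=
  (if l = i then 1 else 0) + (if l = j then 1 else 0)

private theorem ac5k_le {m : ℕ} (i j l : Fin m) : ac5k i j l ≤ 2 := by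
  unfold ac5k
  split_ifs <;> omega

private theorem ac5k_prod {m : ℕ} (i j : Fin m) (Y : Fin m → ℝ) :
    ∏ l, Y l ^ ac5k i j l = Y i * Y j := by
  unfold ac5k
  simp only [pow_add, Finset.prod_mul_distrib]
  congr 1
  · rw [Finset.prod_eq_single i] <;> simp +contextual
  · rw [Finset.prod_eq_single j] <;> simp +contextual

private theorem ac5_expand {Γ : Type} [Fintype Γ] [DecidableEq Γ] (Qz : ℝ → Γ) (m : ℕ) (f : ℝ)
    (c : (Fin m → Γ) → ℝ) (Y : Fin m → ℝ) :
    (f - (∑ i, Y i) ^ 2) * c (fun i => Qz (Y i)) =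
      ∑ x : Fin m → Γ, c x * (f * (∏ l, (if Qz (Y l) = x l then Y l ^ 0 else 0)) -
        ∑ i, ∑ j, ∏ l, (if Qz (Y l) = x l then Y l ^ ac5k i j l else 0)) := by
  classical
  rw [Finset.sum_eq_single (fun i => Qz (Y i))]
  · simp only [if_true, ac5k_prod, pow_zero, Finset.prod_const_one]
    have h : (∑ i, Y i) ^ 2 = ∑ i, ∑ j, Y i * Y j := by
      rw [sq, Finset.sum_mul_sum]
    rw [h]
    ring
  · intro x _ hx
    obtain ⟨l, hl⟩ : ∃ l, Qz (Y l) ≠ x l := by
      by_contra hcon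
      push Not at hcon
      exact hx (funext fun l => (hcon l).symm)
    have h0 : ∀ k : Fin m → ℕ, ∏ l, (if Qz (Y l) = x l then Y l ^ k l else 0) = 0 := fun k =>
      Finset.prod_eq_zero (Finset.mem_univ l) (if_neg hl)
    have h1 := h0 (fun _ => 0)
    rw [h1]
    have h2 : ∀ i j : Fin m, ∏ l, (if Qz (Y l) = x l then Y l ^ ac5k i j l else 0) = 0 :=
      fun i j => h0 (ac5k i j)
    simp only [h2, Finset.sum_const_zero]
    ring
  · intro h
    exact absurd (Finset.mem_univ _) h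

private theorem ac5_memLp (m : ℕ) (i : Fin m) :
    MemLp (fun Y : Fin m → ℝ => Y i) 2 (Measure.pi fun _ : Fin m => gaussianReal 0 1) := by
  have h := memLp_id_gaussianReal (μ := 0) (v := 1) 2
  exact h.comp_measurePreserving (measurePreserving_eval (fun _ : Fin m => gaussianReal 0 1) i)

private theorem ac5_phi {Γ : Type} [Fintype Γ] [DecidableEq Γ] (Qz : ℝ → Γ) (m f : ℕ)
    (x : Fin m → Γ) :
    phi m f Qz x =
      (f : ℝ) * (∫ Y in {Y : Fin m → ℝ | ∀ i, Qz (Y i) = x i}, ∏ i, Y i ^ 0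
        ∂(Measure.pi fun _ : Fin m => gaussianReal 0 1)) -
      ∑ i, ∑ j, (∫ Y in {Y : Fin m → ℝ | ∀ i, Qz (Y i) = x i}, ∏ l, Y l ^ ac5k i j l
        ∂(Measure.pi fun _ : Fin m => gaussianReal 0 1)) := by
  unfold phi
  have hint : ∀ i j : Fin m, Integrable (fun Y : Fin m → ℝ => Y i * Y j)
      ((Measure.pi fun _ : Fin m => gaussianReal 0 1).restrict
        {Y : Fin m → ℝ | ∀ i, Qz (Y i) = x i}) := fun i j =>
    ((ac5_memLp m i).integrable_mul (ac5_memLp m j)).restrict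
  simp only [ac5k_prod, pow_zero, Finset.prod_const_one]
  have h1 : ∀ Y : Fin m → ℝ, (f : ℝ) - (∑ i, Y i) ^ 2 =
      (f : ℝ) * 1 - ∑ i, ∑ j, Y i * Y j := by
    intro Y
    rw [sq, Finset.sum_mul_sum, mul_one]
  simp only [h1]
  rw [integral_sub, integral_const_mul, integral_finsetSum]
  · congr 1
    refine Finset.sum_congr rfl fun i _ => ?_
    rw [integral_finsetSum]
    exact fun j _ => hint i j
  · intro i _
    exact integrable_finsetSum _ fun j _ => hint i j
  · exact (integrable_const _)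
  · exact integrable_finsetSum _ fun i _ => integrable_finsetSum _ fun j _ => hint i j

theorem phi_lim {p U : κ → ℝ} (hp : ∀ a, 0 ≤ p a) (h1 : ∑ a, p a = 1)
    (hU : ∑ a, p a * U a = 0) (V : ℝ) (hV : ∑ a, p a * U a ^ 2 = V) (hV0 : 0 < V)
    {Γ : Type} [Fintype Γ] [DecidableEq Γ] (Qz : ℝ → Γ)
    (hQ : ∀ a, MeasurableSet (Qz ⁻¹' {a}) ∧ (frontier (Qz ⁻¹' {a})).Finite)
    (m f : ℕ) (c : (Fin m → Γ) → ℝ) :
    Tendsto (fun B : ℕ => EE (pw p B) m (fun a => ((f : ℝ) - (∑ i, TT U V B (a i)) ^ 2) *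
      c (fun i => Qz (TT U V B (a i))))) atTop (𝓝 (∑ x, phi m f Qz x * c x)) := by
  classical
  have hexp : ∀ B : ℕ, EE (pw p B) m (fun a => ((f : ℝ) - (∑ i, TT U V B (a i)) ^ 2) *
      c (fun i => Qz (TT U V B (a i)))) =
      ∑ x : Fin m → Γ, c x * ((f : ℝ) * EE (pw p B) m (fun a => ∏ l,
          (if Qz (TT U V B (a l)) = x l then TT U V B (a l) ^ 0 else 0)) -
        ∑ i, ∑ j, EE (pw p B) m (fun a => ∏ l,
          (if Qz (TT U V B (a l)) = x l then TT U V B (a l) ^ ac5k i j l else 0))) := by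
    intro B
    have h2 : (fun a : Fin m → (Fin B → κ) => ((f : ℝ) - (∑ i, TT U V B (a i)) ^ 2) *
      c (fun i => Qz (TT U V B (a i)))) = fun a => ∑ x : Fin m → Γ, c x *
        ((f : ℝ) * (∏ l, (if Qz (TT U V B (a l)) = x l then TT U V B (a l) ^ 0 else 0)) -
        ∑ i, ∑ j, ∏ l, (if Qz (TT U V B (a l)) = x l then TT U V B (a l) ^ ac5k i j l else 0)) :=
      funext fun a => ac5_expand Qz m f c (fun i => TT U V B (a i))
    rw [h2, ac5_EE_sum]
    refine Finset.sum_congr rfl fun x _ => ?_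
    rw [ac5_EE_smul, ac5_EE_sub, ac5_EE_smul, ac5_EE_sum]
    simp only [ac5_EE_sum]
  simp only [hexp]
  refine tendsto_finsetSum _ fun x _ => ?_
  rw [mul_comm (phi m f Qz x), ac5_phi]
  refine Tendsto.const_mul _ (Tendsto.sub (Tendsto.const_mul _ ?_) ?_)
  · exact joint_lim hp h1 hU V hV hV0 Qz hQ m x (fun _ => 0) (fun _ => by omega)
  · refine tendsto_finsetSum _ fun i _ => tendsto_finsetSum _ fun j _ => ?_
    exact joint_lim hp h1 hU V hV hV0 Qz hQ m x (ac5k i j) (ac5k_le i j)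

end Crest.Agent.R63.A
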