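import Crest.Agent.R63.Defs

/-! ROW 63, pieces R63_AK2a, AK2b: convergence of truncated moments. -/

set_option autoImplicit false
open Finset MeasureTheory ProbabilityTheory Filter Topology

namespace Crest.Agent.R63

/-- weak convergence and a set with null frontier: integrals of bounded continuous functions over
the set converge.  Hint: add a constant to make `g ≥ 0`; then either sandwich `1_A` between
thickened indicators (`thickenedIndicator`) of the closure and of the interior, or apply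
`tendsto_measure_of_null_frontier` to the finite measures `g·ν`. -/
theorem tendsto_setIntegral_bdd (ν : ℕ → ProbabilityMeasure ℝ) (γ : ProbabilityMeasure ℝ)
    (h : Tendsto ν atTop (𝓝 γ)) (A : Set ℝ) (hA : MeasurableSet A)
    (hfr : (γ : Measure ℝ) (frontier A) = 0) (g : ℝ → ℝ) (hg : Continuous g) (K : ℝ)
    (hK : ∀ x, |g x| ≤ K) :
    Tendsto (fun B => ∫ x in A, g x ∂(ν B : Measure ℝ)) atTop (𝓝 (∫ x in A, g x ∂(γ : Measure ℝ))) := by
  classical
  have hK0 : 0 ≤ K := (abs_nonneg _).trans (hK 0)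
  set δ : ℕ → ℝ := fun n => 1 / ((n : ℝ) + 1) with hδdef
  have hδ : ∀ n, 0 < δ n := fun n => by rw [hδdef]; positivity
  have hδl : Tendsto δ atTop (𝓝 0) := tendsto_one_div_add_atTop_nhds_zero_nat
  set φ : ℕ → ℝ → ℝ := fun n x => ((thickenedIndicator (hδ n) A x : NNReal) : ℝ) with hφdef
  set ψ : ℕ → ℝ → ℝ := fun n x => ((thickenedIndicator (hδ n) Aᶜ x : NNReal) : ℝ) with hψdef
  have hφc : ∀ n, Continuous (φ n) := fun n =>
    NNReal.continuous_coe.comp (thickenedIndicator (hδ n) A).continuous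
  have hψc : ∀ n, Continuous (ψ n) := fun n =>
    NNReal.continuous_coe.comp (thickenedIndicator (hδ n) Aᶜ).continuous
  have hφ0 : ∀ n x, 0 ≤ φ n x := fun n x => NNReal.coe_nonneg _
  have hψ0 : ∀ n x, 0 ≤ ψ n x := fun n x => NNReal.coe_nonneg _
  have hφ1 : ∀ n x, φ n x ≤ 1 := fun n x => by
    have := thickenedIndicator_le_one (hδ n) A x
    exact_mod_cast this
  have hψ1 : ∀ n x, ψ n x ≤ 1 := fun n x => by
    have := thickenedIndicator_le_one (hδ n) Aᶜ x
    exact_mod_cast this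
  have hφA : ∀ n x, x ∈ A → φ n x = 1 := fun n x hx => by
    have := thickenedIndicator_one (hδ n) A hx
    simp only [hφdef]; rw [this]; simp
  have hψA : ∀ n x, x ∉ A → ψ n x = 1 := fun n x hx => by
    have := thickenedIndicator_one (hδ n) Aᶜ (x := x) hx
    simp only [hψdef]; rw [this]; simp
  -- the error function
  have hη : ∀ n x, |A.indicator (fun _ => (1:ℝ)) x - φ n x| ≤ φ n x + ψ n x - 1 := by
    intro n x
    by_cases hx : x ∈ A
    · rw [Set.indicator_of_mem hx, hφA n x hx]; simp [hψ0 n x]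
    · rw [Set.indicator_of_notMem hx, hψA n x hx]
      rw [zero_sub, abs_neg, abs_of_nonneg (hφ0 n x)]; linarith
  have hη0 : ∀ n x, 0 ≤ φ n x + ψ n x - 1 := fun n x => (abs_nonneg _).trans (hη n x)
  -- bounded continuous functions
  have hbc : ∀ (f : ℝ → ℝ) (hf : Continuous f) (C : ℝ) (hC : ∀ x, |f x| ≤ C),
      Tendsto (fun B => ∫ x, f x ∂(ν B : Measure ℝ)) atTop (𝓝 (∫ x, f x ∂(γ : Measure ℝ))) := by
    intro f hf C hC
    have := (ProbabilityMeasure.tendsto_iff_forall_integral_tendsto.1 h)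
      (BoundedContinuousFunction.ofNormedAddCommGroup f hf C hC)
    simpa using this
  have hint : ∀ (m : Measure ℝ) [IsProbabilityMeasure m] (f : ℝ → ℝ) (hf : Measurable f) (C : ℝ)
      (hC : ∀ x, |f x| ≤ C), Integrable f m := by
    intro m _ f hf C hC
    exact Integrable.of_bound hf.aestronglyMeasurable C (ae_of_all _ hC)
  -- comparison for one probability measure
  have hcmp : ∀ (m : Measure ℝ) [IsProbabilityMeasure m] (n : ℕ),
      |∫ x in A, g x ∂m - ∫ x, g x * φ n x ∂m| ≤ K * ∫ x, (φ n x + ψ n x - 1) ∂m := by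
    intro m _ n
    have hi1 : Integrable (A.indicator g) m := by
      refine hint m _ (hg.measurable.indicator hA) K fun x => ?_
      by_cases hx : x ∈ A
      · rw [Set.indicator_of_mem hx]; exact hK x
      · rw [Set.indicator_of_notMem hx]; simpa using hK0
    have hi2 : Integrable (fun x => g x * φ n x) m := by
      refine hint m _ ((hg.mul (hφc n)).measurable) K fun x => ?_
      rw [abs_mul, abs_of_nonneg (hφ0 n x)]
      calc |g x| * φ n x ≤ K * 1 := mul_le_mul (hK x) (hφ1 n x) (hφ0 n x) hK0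
        _ = K := mul_one _
    have hi3 : Integrable (fun x => φ n x + ψ n x - 1) m := by
      refine hint m _ (((hφc n).add (hψc n)).sub continuous_const).measurable 1 fun x => ?_
      rw [abs_of_nonneg (hη0 n x)]
      have := hφ1 n x; have := hψ1 n x; linarith
    rw [← integral_indicator hA, ← integral_sub hi1 hi2, ← integral_const_mul]
    refine (abs_integral_le_integral_abs).trans (integral_mono (hi1.sub hi2).abs (hi3.const_mul K) ?_)
    intro x
    have h1 : A.indicator g x - g x * φ n x = g x * (A.indicator (fun _ => (1:ℝ)) x - φ n x) := by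
      by_cases hx : x ∈ A
      · rw [Set.indicator_of_mem hx, Set.indicator_of_mem hx]; ring
      · rw [Set.indicator_of_notMem hx, Set.indicator_of_notMem hx]; ring
    show |A.indicator g x - g x * φ n x| ≤ K * (φ n x + ψ n x - 1)
    rw [h1, abs_mul]
    exact mul_le_mul (hK x) (hη n x) (abs_nonneg _) hK0
  -- the error tends to zero under γ
  have hηγ : Tendsto (fun n => ∫ x, (φ n x + ψ n x - 1) ∂(γ : Measure ℝ)) atTop (𝓝 0) := by
    have h0 : (0:ℝ) = ∫ x, (0:ℝ) ∂(γ : Measure ℝ) := by simp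
    rw [h0]
    refine tendsto_integral_of_dominated_convergence (fun _ => (1:ℝ)) ?_ (integrable_const _) ?_ ?_
    · intro n
      exact (((hφc n).add (hψc n)).sub continuous_const).aestronglyMeasurable
    · intro n
      refine ae_of_all _ fun x => ?_
      rw [Real.norm_eq_abs, abs_of_nonneg (hη0 n x)]
      have := hφ1 n x; have := hψ1 n x; linarith
    · have hae : ∀ᵐ x ∂(γ : Measure ℝ), x ∉ frontier A := by
        rw [ae_iff]; simpa using hfr
      filter_upwards [hae] with x hx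
      have h1 := (tendsto_pi_nhds.1 (thickenedIndicator_tendsto_indicator_closure hδ hδl A)) x
      have h2 := (tendsto_pi_nhds.1 (thickenedIndicator_tendsto_indicator_closure hδ hδl Aᶜ)) x
      have h1' : Tendsto (fun n => φ n x) atTop
          (𝓝 (((closure A).indicator (fun _ => (1 : NNReal)) x : NNReal) : ℝ)) :=
        (NNReal.continuous_coe.tendsto _).comp h1
      have h2' : Tendsto (fun n => ψ n x) atTop
          (𝓝 (((closure Aᶜ).indicator (fun _ => (1 : NNReal)) x : NNReal) : ℝ)) :=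
        (NNReal.continuous_coe.tendsto _).comp h2
      have h3 := (h1'.add h2').sub_const 1
      have h4 : (((closure A).indicator (fun _ => (1 : NNReal)) x : NNReal) : ℝ)
          + (((closure Aᶜ).indicator (fun _ => (1 : NNReal)) x : NNReal) : ℝ) - 1 = 0 := by
        rw [frontier_eq_closure_inter_closure] at hx
        by_cases ha : x ∈ closure A
        · have hb : x ∉ closure Aᶜ := fun hb => hx ⟨ha, hb⟩
          rw [Set.indicator_of_mem ha, Set.indicator_of_notMem hb]; norm_num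
        · have hb : x ∈ closure Aᶜ := by
            by_contra hb
            have : x ∉ A := fun h => ha (subset_closure h)
            exact hb (subset_closure this)
          rw [Set.indicator_of_notMem ha, Set.indicator_of_mem hb]; norm_num
      rw [h4] at h3
      exact h3
  rw [Metric.tendsto_atTop]
  intro ε hε
  have hε' : 0 < ε / (4 * (K + 1)) := by positivity
  obtain ⟨n, hn⟩ : ∃ n, ∫ x, (φ n x + ψ n x - 1) ∂(γ : Measure ℝ) < ε / (4 * (K + 1)) :=
    ((tendsto_order.1 hηγ).2 _ hε').exists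
  have hb1 := hbc (fun x => g x * φ n x) (hg.mul (hφc n)) K (fun x => by
    rw [abs_mul, abs_of_nonneg (hφ0 n x)]
    calc |g x| * φ n x ≤ K * 1 := mul_le_mul (hK x) (hφ1 n x) (hφ0 n x) hK0
      _ = K := mul_one _)
  have hb2 := hbc (fun x => φ n x + ψ n x - 1) (((hφc n).add (hψc n)).sub continuous_const) 1
    (fun x => by
      rw [abs_of_nonneg (hη0 n x)]
      have := hφ1 n x; have := hψ1 n x; linarith)
  have hb2' := (tendsto_order.1 hb2).2 _ hn
  have hb1' := (Metric.tendsto_atTop.1 hb1) (ε / 4) (by positivity)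
  obtain ⟨N1, hN1⟩ := hb1'
  obtain ⟨N2, hN2⟩ := eventually_atTop.1 hb2'
  refine ⟨max N1 N2, fun B hB => ?_⟩
  have e1 := hN1 B (le_trans (le_max_left _ _) hB)
  have e2 := hN2 B (le_trans (le_max_right _ _) hB)
  have c1 := hcmp (ν B : Measure ℝ) n
  have c2 := hcmp (γ : Measure ℝ) n
  rw [Real.dist_eq] at e1 ⊢
  have hKe : K * (ε / (4 * (K + 1))) ≤ ε / 4 := by
    have : K * (ε / (4 * (K + 1))) = (K / (K + 1)) * (ε / 4) := by
      field_simp
    rw [this]
    have h1 : K / (K + 1) ≤ 1 := by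
      rw [div_le_one (by linarith)]; linarith
    nlinarith
  have d1 : K * ∫ x, (φ n x + ψ n x - 1) ∂(ν B : Measure ℝ) ≤ ε / 4 :=
    (mul_le_mul_of_nonneg_left e2.le hK0).trans hKe
  have d2 : K * ∫ x, (φ n x + ψ n x - 1) ∂(γ : Measure ℝ) ≤ ε / 4 :=
    (mul_le_mul_of_nonneg_left hn.le hK0).trans hKe
  have f1 := abs_le.1 (c1.trans d1)
  have f2 := abs_le.1 (c2.trans d2)
  have f3 := abs_lt.1 e1
  rw [abs_lt]
  constructor <;> linarith [f1.1, f1.2, f2.1, f2.2, f3.1, f3.2]

theorem AK2b_trunc (e : ℕ) (he : e ≤ 2) (K : ℝ) (hK : 1 ≤ K) (x : ℝ) :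
    |x ^ e - (max (-K) (min x K)) ^ e| ≤ x ^ 4 / K ^ 2 := by
  have hK0 : 0 < K := by linarith
  have hK2 : 0 < K ^ 2 := by positivity
  rw [le_div_iff₀ hK2]
  by_cases h1 : x ≤ K
  · by_cases h2 : -K ≤ x
    · rw [min_eq_left h1, max_eq_right h2]
      simp
      positivity
    · push Not at h2
      rw [min_eq_left h1, max_eq_left h2.le]
      have hx2 : K ^ 2 ≤ x ^ 2 := by nlinarith
      have hx4 : x ^ 2 * K ^ 2 ≤ x ^ 4 := by nlinarith [sq_nonneg x]
      interval_cases e
      · simp; positivity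
      · have : |x ^ 1 - (-K) ^ 1| ≤ x ^ 2 := by
          rw [abs_le]; constructor <;> nlinarith
        calc |x ^ 1 - (-K) ^ 1| * K ^ 2 ≤ x ^ 2 * K ^ 2 := by gcongr
          _ ≤ x ^ 4 := hx4
      · have : |x ^ 2 - (-K) ^ 2| ≤ x ^ 2 := by
          rw [abs_le]; constructor <;> nlinarith
        calc |x ^ 2 - (-K) ^ 2| * K ^ 2 ≤ x ^ 2 * K ^ 2 := by gcongr
          _ ≤ x ^ 4 := hx4
  · push Not at h1
    rw [min_eq_right h1.le, max_eq_right (by linarith)]
    have hx2 : K ^ 2 ≤ x ^ 2 := by nlinarith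
    have hx4 : x ^ 2 * K ^ 2 ≤ x ^ 4 := by nlinarith [sq_nonneg x]
    interval_cases e
    · simp; positivity
    · have : |x ^ 1 - K ^ 1| ≤ x ^ 2 := by
        rw [abs_le]; constructor <;> nlinarith
      calc |x ^ 1 - K ^ 1| * K ^ 2 ≤ x ^ 2 * K ^ 2 := by gcongr
        _ ≤ x ^ 4 := hx4
    · have : |x ^ 2 - K ^ 2| ≤ x ^ 2 := by
        rw [abs_le]; constructor <;> nlinarith
      calc |x ^ 2 - K ^ 2| * K ^ 2 ≤ x ^ 2 * K ^ 2 := by gcongr
        _ ≤ x ^ 4 := hx4

theorem AK2b_intble (e : ℕ) (he : e ≤ 2) (μ : Measure ℝ) [IsProbabilityMeasure μ]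
    (hi : Integrable (fun x : ℝ => x ^ 4) μ) : Integrable (fun x : ℝ => x ^ e) μ := by
  have h1 : Integrable (fun x : ℝ => 1 + x ^ 4) μ := (integrable_const _).add hi
  refine h1.mono' ((continuous_pow e).aestronglyMeasurable) (Eventually.of_forall fun x => ?_)
  rw [Real.norm_eq_abs, abs_le]
  interval_cases e
  · constructor <;> nlinarith [sq_nonneg (x ^ 2)]
  · constructor <;> nlinarith [sq_nonneg (x ^ 2 - 1), sq_nonneg (x - 1), sq_nonneg (x + 1), sq_nonneg x]
  · constructor <;> nlinarith [sq_nonneg (x ^ 2 - 1), sq_nonneg x]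

/-- truncation error of the integral -/
theorem AK2b_err (e : ℕ) (he : e ≤ 2) (μ : Measure ℝ) [IsProbabilityMeasure μ] (A : Set ℝ)
    (_hA : MeasurableSet A)
    (hi : Integrable (fun x : ℝ => x ^ 4) μ) (K K4 : ℝ) (hK : 1 ≤ K) (h4 : ∫ x, x ^ 4 ∂μ ≤ K4) :
    |∫ x in A, x ^ e ∂μ - ∫ x in A, (max (-K) (min x K)) ^ e ∂μ| ≤ K4 / K ^ 2 := by
  have hK2 : 0 < K ^ 2 := by positivity
  have hc : Continuous (fun x : ℝ => (max (-K) (min x K)) ^ e) := by fun_prop
  have hgi : Integrable (fun x : ℝ => (max (-K) (min x K)) ^ e) μ := by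
    refine (integrable_const (K ^ e)).mono' hc.aestronglyMeasurable (Eventually.of_forall fun x => ?_)
    rw [Real.norm_eq_abs, abs_pow]
    refine pow_le_pow_left₀ (abs_nonneg _) ?_ e
    rw [abs_le]
    refine ⟨le_max_left _ _, max_le (by linarith) (min_le_right _ _)⟩
  have hxi := AK2b_intble e he μ hi
  have h1 : ∫ x in A, x ^ e ∂μ - ∫ x in A, (max (-K) (min x K)) ^ e ∂μ
      = ∫ x in A, (x ^ e - (max (-K) (min x K)) ^ e) ∂μ := by
    rw [integral_sub hxi.integrableOn hgi.integrableOn]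
  rw [h1]
  calc |∫ x in A, (x ^ e - (max (-K) (min x K)) ^ e) ∂μ|
      ≤ ∫ x in A, |x ^ e - (max (-K) (min x K)) ^ e| ∂μ := by
        have := norm_integral_le_integral_norm (μ := μ.restrict A)
          (fun x : ℝ => x ^ e - (max (-K) (min x K)) ^ e)
        simpa [Real.norm_eq_abs] using this
    _ ≤ ∫ x in A, x ^ 4 / K ^ 2 ∂μ := by
        refine integral_mono ((hxi.sub hgi).abs.integrableOn) ((hi.div_const _).integrableOn) ?_
        intro x
        exact AK2b_trunc e he K hK x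
    _ ≤ ∫ x, x ^ 4 / K ^ 2 ∂μ := by
        refine setIntegral_le_integral (hi.div_const _) (Eventually.of_forall fun x => ?_)
        simp only [Pi.zero_apply]
        positivity
    _ = (∫ x, x ^ 4 ∂μ) / K ^ 2 := by rw [integral_div]
    _ ≤ K4 / K ^ 2 := by gcongr

/-- the same for `x^e`, `e ≤ 2`, with uniformly bounded fourth moments.  Hint: compare `x^e` with
`(max (-K) (min x K))^e`; the difference is at most `x^4/K^2` for `K ≥ 1`. -/
theorem tendsto_setIntegral_pow (ν : ℕ → ProbabilityMeasure ℝ) (γ : ProbabilityMeasure ℝ)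
    (h : Tendsto ν atTop (𝓝 γ)) (A : Set ℝ) (hA : MeasurableSet A)
    (hfr : (γ : Measure ℝ) (frontier A) = 0) (e : ℕ) (he : e ≤ 2) (K4 : ℝ)
    (hi : ∀ B, Integrable (fun x : ℝ => x ^ 4) (ν B : Measure ℝ))
    (hi' : Integrable (fun x : ℝ => x ^ 4) (γ : Measure ℝ))
    (h4 : ∀ B, 1 ≤ B → ∫ x, x ^ 4 ∂(ν B : Measure ℝ) ≤ K4)
    (h4' : ∫ x, x ^ 4 ∂(γ : Measure ℝ) ≤ K4) :
    Tendsto (fun B => ∫ x in A, x ^ e ∂(ν B : Measure ℝ)) atTop
      (𝓝 (∫ x in A, x ^ e ∂(γ : Measure ℝ))) := by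
  have hK40 : 0 ≤ K4 := le_trans (integral_nonneg fun x => by positivity) h4'
  rw [Metric.tendsto_atTop]
  intro ε hε
  set K : ℝ := 1 + 3 * (K4 + 1) / ε with hKdef
  have hK1 : 1 ≤ K := by
    have : 0 ≤ 3 * (K4 + 1) / ε := by positivity
    linarith
  have hKε : K4 / K ^ 2 < ε / 3 := by
    have hK0 : 0 < K := by linarith
    have h1 : 3 * (K4 + 1) ≤ ε * K := by
      rw [hKdef]
      have : ε * (3 * (K4 + 1) / ε) = 3 * (K4 + 1) := by field_simp
      nlinarith
    rw [div_lt_iff₀ (by positivity)]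
    nlinarith
  have hc : Continuous (fun x : ℝ => (max (-K) (min x K)) ^ e) := by fun_prop
  have hb : ∀ x : ℝ, |(max (-K) (min x K)) ^ e| ≤ K ^ e := by
    intro x
    rw [abs_pow]
    refine pow_le_pow_left₀ (abs_nonneg _) ?_ e
    rw [abs_le]
    refine ⟨le_max_left _ _, max_le (by linarith) (min_le_right _ _)⟩
  have ht := tendsto_setIntegral_bdd ν γ h A hA hfr _ hc (K ^ e) hb
  rw [Metric.tendsto_atTop] at ht
  obtain ⟨N, hN⟩ := ht (ε / 3) (by positivity)
  refine ⟨max N 1, fun B hB => ?_⟩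
  have hB1 : 1 ≤ B := le_trans (le_max_right _ _) hB
  have hBN : N ≤ B := le_trans (le_max_left _ _) hB
  have e1 := AK2b_err e he (ν B : Measure ℝ) A hA (hi B) K K4 hK1 (h4 B hB1)
  have e2 := AK2b_err e he (γ : Measure ℝ) A hA hi' K K4 hK1 h4'
  have e3 := hN B hBN
  rw [Real.dist_eq] at e3 ⊢
  rw [abs_le] at e1 e2
  rw [abs_lt] at e3 ⊢
  constructor <;> linarith [e1.1, e1.2, e2.1, e2.2, e3.1, e3.2]

end Crest.Agent.R63
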