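import Crest.Agent.R63.AKDefs

/-! ROW 63, piece R63_AK3: moments of sums of `B` independent copies. -/

set_option autoImplicit false
open Finset MeasureTheory ProbabilityTheory

namespace Crest.Agent.R63

private theorem ak3_cons {Ω : Type} [Fintype Ω] (B : ℕ) (f : (Fin (B + 1) → Ω) → ℝ) :
    ∑ ω : Fin (B + 1) → Ω, f ω = ∑ a : Ω, ∑ ω : Fin B → Ω, f (Fin.cons a ω) := by
  rw [← Fintype.sum_prod_type (fun q : Ω × (Fin B → Ω) => f (Fin.cons q.1 q.2))]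
  exact (Equiv.sum_comp (Fin.consEquiv (fun _ : Fin (B + 1) => Ω)) f).symm

private theorem ak3_card {Ω : Type} [Fintype Ω] (B : ℕ) :
    (Fintype.card (Fin B → Ω) : ℝ) = (Fintype.card Ω : ℝ) ^ B := by
  rw [Fintype.card_fun, Fintype.card_fin]
  push_cast
  rfl

private theorem ak3_S {Ω : Type} [Fintype Ω] (U : Ω → ℝ) (B : ℕ) (a : Ω) (ω : Fin B → Ω) :
    ∑ b, U ((Fin.cons a ω : Fin (B + 1) → Ω) b) = U a + ∑ b, U (ω b) := by
  rw [Fin.sum_univ_succ]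
  rfl

private theorem ak3_one {Ω : Type} [Fintype Ω] (U : Ω → ℝ) (h0 : ∑ ω, U ω = 0) (B : ℕ) :
    ∑ ω : Fin B → Ω, ∑ b, U (ω b) = 0 := by
  induction B with
  | zero => simp
  | succ B ih =>
    rw [ak3_cons]
    simp only [ak3_S, Finset.sum_add_distrib, ih, Finset.sum_const_zero, add_zero,
      Finset.sum_const, Finset.card_univ, nsmul_eq_mul]
    rw [← Finset.mul_sum, h0, mul_zero]

private theorem ak3_two {Ω : Type} [Fintype Ω] (U : Ω → ℝ) (h0 : ∑ ω, U ω = 0) (B : ℕ) :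
    ∑ ω : Fin (B + 1) → Ω, (∑ b, U (ω b)) ^ 2 = (Fintype.card Ω : ℝ) ^ B * ∑ ω, U ω ^ 2 +
      (Fintype.card Ω : ℝ) * ∑ ω : Fin B → Ω, (∑ b, U (ω b)) ^ 2 := by
  rw [ak3_cons]
  have h1 : ∀ a : Ω, ∑ ω : Fin B → Ω, (∑ b, U ((Fin.cons a ω : Fin (B + 1) → Ω) b)) ^ 2 =
      (Fintype.card Ω : ℝ) ^ B * U a ^ 2 + ∑ ω : Fin B → Ω, (∑ b, U (ω b)) ^ 2 := by
    intro a
    have h2 : ∀ ω : Fin B → Ω, (∑ b, U ((Fin.cons a ω : Fin (B + 1) → Ω) b)) ^ 2 =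
        U a ^ 2 + 2 * U a * (∑ b, U (ω b)) + (∑ b, U (ω b)) ^ 2 := by
      intro ω
      rw [ak3_S]
      ring
    simp only [h2]
    rw [Finset.sum_add_distrib, Finset.sum_add_distrib, ← Finset.mul_sum, ak3_one U h0 B,
      Finset.sum_const, Finset.card_univ, nsmul_eq_mul, ak3_card]
    ring
  simp only [h1]
  rw [Finset.sum_add_distrib, ← Finset.mul_sum, Finset.sum_const, Finset.card_univ, nsmul_eq_mul]

/-- second moment -/
theorem sum_sq_copies {Ω : Type} [Fintype Ω] (U : Ω → ℝ) (h0 : ∑ ω, U ω = 0) (B : ℕ) :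
    ∑ ω : Fin B → Ω, (∑ b, U (ω b)) ^ 2 * (Fintype.card Ω : ℝ) =
      B * (∑ ω, U ω ^ 2) * (Fintype.card Ω : ℝ) ^ B := by
  rw [← Finset.sum_mul]
  induction B with
  | zero => simp
  | succ B ih =>
    rw [ak3_two U h0 B]
    push_cast
    have e1 : ((Fintype.card Ω : ℝ) ^ B * ∑ ω, U ω ^ 2 +
        (Fintype.card Ω : ℝ) * ∑ ω : Fin B → Ω, (∑ b, U (ω b)) ^ 2) * (Fintype.card Ω : ℝ) =
        (Fintype.card Ω : ℝ) ^ (B + 1) * ∑ ω, U ω ^ 2 + (Fintype.card Ω : ℝ) *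
        ((∑ ω : Fin B → Ω, (∑ b, U (ω b)) ^ 2) * (Fintype.card Ω : ℝ)) := by ring
    rw [e1, ih]
    ring

private theorem ak3_two_le {Ω : Type} [Fintype Ω] (U : Ω → ℝ) (h0 : ∑ ω, U ω = 0) (A : ℝ)
    (hA : ∀ ω, |U ω| ≤ A) (B : ℕ) :
    ∑ ω : Fin B → Ω, (∑ b, U (ω b)) ^ 2 ≤ (B : ℝ) * A ^ 2 * (Fintype.card Ω : ℝ) ^ B := by
  induction B with
  | zero => simp
  | succ B ih =>
    rw [ak3_two U h0 B]
    have h2 : ∑ ω, U ω ^ 2 ≤ (Fintype.card Ω : ℝ) * A ^ 2 := by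
      calc ∑ ω, U ω ^ 2 ≤ ∑ _ω : Ω, A ^ 2 := by
            refine Finset.sum_le_sum fun ω _ => ?_
            rw [← sq_abs]
            exact pow_le_pow_left₀ (abs_nonneg _) (hA ω) 2
        _ = _ := by rw [Finset.sum_const, Finset.card_univ, nsmul_eq_mul]
    have h3 := mul_le_mul_of_nonneg_left h2
      (pow_nonneg (Nat.cast_nonneg (Fintype.card Ω)) B : (0 : ℝ) ≤ (Fintype.card Ω : ℝ) ^ B)
    have h4 := mul_le_mul_of_nonneg_left ih (Nat.cast_nonneg (Fintype.card Ω) : (0 : ℝ) ≤ _)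
    push_cast
    rw [pow_succ (Fintype.card Ω : ℝ) B]
    linarith

/-- fourth moment: `E (ΣU)^4 ≤ 3 B² A⁴` -/
theorem sum_four_copies {Ω : Type} [Fintype Ω] (U : Ω → ℝ) (h0 : ∑ ω, U ω = 0) (A : ℝ)
    (hA : ∀ ω, |U ω| ≤ A) (B : ℕ) :
    ∑ ω : Fin B → Ω, (∑ b, U (ω b)) ^ 4 ≤
      3 * (B : ℝ) ^ 2 * A ^ 4 * (Fintype.card Ω : ℝ) ^ B := by
  induction B with
  | zero => simp
  | succ B ih =>
    rw [ak3_cons]
    have h1 : ∀ a : Ω, ∑ ω : Fin B → Ω, (∑ b, U ((Fin.cons a ω : Fin (B + 1) → Ω) b)) ^ 4 =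
        (Fintype.card Ω : ℝ) ^ B * U a ^ 4 + 6 * (∑ ω : Fin B → Ω, (∑ b, U (ω b)) ^ 2) * U a ^ 2 +
          4 * (∑ ω : Fin B → Ω, (∑ b, U (ω b)) ^ 3) * U a +
          ∑ ω : Fin B → Ω, (∑ b, U (ω b)) ^ 4 := by
      intro a
      have h2 : ∀ ω : Fin B → Ω, (∑ b, U ((Fin.cons a ω : Fin (B + 1) → Ω) b)) ^ 4 =
          U a ^ 4 + 4 * U a ^ 3 * (∑ b, U (ω b)) + 6 * U a ^ 2 * (∑ b, U (ω b)) ^ 2 +
            4 * U a * (∑ b, U (ω b)) ^ 3 + (∑ b, U (ω b)) ^ 4 := by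
        intro ω
        rw [ak3_S]
        ring
      simp only [h2]
      rw [Finset.sum_add_distrib, Finset.sum_add_distrib, Finset.sum_add_distrib,
        Finset.sum_add_distrib, ← Finset.mul_sum, ← Finset.mul_sum, ← Finset.mul_sum,
        ak3_one U h0 B, Finset.sum_const, Finset.card_univ, nsmul_eq_mul, ak3_card]
      ring
    simp only [h1]
    rw [Finset.sum_add_distrib, Finset.sum_add_distrib, Finset.sum_add_distrib, ← Finset.mul_sum,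
      ← Finset.mul_sum, ← Finset.mul_sum, h0, Finset.sum_const, Finset.card_univ, nsmul_eq_mul]
    have hn0 : (0 : ℝ) ≤ (Fintype.card Ω : ℝ) := Nat.cast_nonneg _
    have h2 : ∑ ω, U ω ^ 2 ≤ (Fintype.card Ω : ℝ) * A ^ 2 := by
      calc ∑ ω, U ω ^ 2 ≤ ∑ _ω : Ω, A ^ 2 := by
            refine Finset.sum_le_sum fun ω _ => ?_
            rw [← sq_abs]
            exact pow_le_pow_left₀ (abs_nonneg _) (hA ω) 2
        _ = _ := by rw [Finset.sum_const, Finset.card_univ, nsmul_eq_mul]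
    have h4 : ∑ ω, U ω ^ 4 ≤ (Fintype.card Ω : ℝ) * A ^ 4 := by
      calc ∑ ω, U ω ^ 4 ≤ ∑ _ω : Ω, A ^ 4 := by
            refine Finset.sum_le_sum fun ω _ => ?_
            have : U ω ^ 4 = |U ω| ^ 4 := by
              rw [show (4 : ℕ) = 2 * 2 by norm_num, pow_mul, pow_mul, sq_abs]
            rw [this]
            exact pow_le_pow_left₀ (abs_nonneg _) (hA ω) 4
        _ = _ := by rw [Finset.sum_const, Finset.card_univ, nsmul_eq_mul]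
    have hS2 := ak3_two_le U h0 A hA B
    have hS20 : 0 ≤ ∑ ω : Fin B → Ω, (∑ b, U (ω b)) ^ 2 := Finset.sum_nonneg fun ω _ => sq_nonneg _
    have hU20 : 0 ≤ ∑ ω, U ω ^ 2 := Finset.sum_nonneg fun ω _ => sq_nonneg _
    have hprod : (∑ ω : Fin B → Ω, (∑ b, U (ω b)) ^ 2) * ∑ ω, U ω ^ 2 ≤
        ((B : ℝ) * A ^ 2 * (Fintype.card Ω : ℝ) ^ B) * ((Fintype.card Ω : ℝ) * A ^ 2) :=
      mul_le_mul hS2 h2 hU20 (by positivity)
    have h5 := mul_le_mul_of_nonneg_left h4 (pow_nonneg hn0 B)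
    have h6 := mul_le_mul_of_nonneg_left ih hn0
    have h7 : 0 ≤ A ^ 4 * ((Fintype.card Ω : ℝ) * (Fintype.card Ω : ℝ) ^ B) := by positivity
    push_cast
    rw [pow_succ (Fintype.card Ω : ℝ) B]
    nlinarith [hprod, h5, h6, h7]

/-- the normalised fourth moment is bounded -/
theorem EB_four {Ω : Type} [Fintype Ω] [Nonempty Ω] (U : Ω → ℝ) (V : ℝ) (hV : 0 < V)
    (h0 : ∑ ω, U ω = 0) : ∃ K4 : ℝ, ∀ B, 1 ≤ B → EB U V B (fun t => t ^ 4) ≤ K4 := by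
  obtain ⟨A, hA⟩ : ∃ A : ℝ, ∀ ω, |U ω| ≤ A :=
    ⟨∑ ω, |U ω|, fun ω => Finset.single_le_sum (f := fun ω => |U ω|)
      (fun i _ => abs_nonneg _) (Finset.mem_univ ω)⟩
  refine ⟨3 * A ^ 4 / V ^ 2, fun B hB => ?_⟩
  have hn : (0 : ℝ) < (Fintype.card Ω : ℝ) ^ B := by
    have : (0 : ℝ) < Fintype.card Ω := by exact_mod_cast Fintype.card_pos
    positivity
  have hBpos : (0 : ℝ) < B := by exact_mod_cast hB
  have hBV : 0 < (B : ℝ) * V := mul_pos hBpos hV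
  unfold EB Tn
  have h1 : ∀ ω : Fin B → Ω, ((∑ b, U (ω b)) / Real.sqrt (B * V)) ^ 4 =
      (∑ b, U (ω b)) ^ 4 * (((B : ℝ) * V) ^ 2)⁻¹ := by
    intro ω
    rw [div_pow, div_eq_mul_inv]
    congr 2
    rw [show (4 : ℕ) = 2 * 2 by norm_num, pow_mul, Real.sq_sqrt hBV.le]
  simp only [h1]
  rw [← Finset.sum_mul, div_le_iff₀ hn, ← div_eq_mul_inv, div_le_iff₀ (by positivity)]
  refine (sum_four_copies U h0 A hA B).trans (le_of_eq ?_)
  field_simp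

end Crest.Agent.R63
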