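import Crest.Agent.R63.AKDefs

/-! ROW 63, pieces R63_AK4a, AK4b: product expansions. -/

set_option autoImplicit false
open Finset MeasureTheory ProbabilityTheory

namespace Crest.Agent.R63

private theorem ak4_prod_MB {Γ : Type} [DecidableEq Γ] (Qz : ℝ → Γ) (m : ℕ)
    {Ω : Type} [Fintype Ω] (U : Ω → ℝ) (V : ℝ) (B : ℕ) (e : Fin m → ℕ) (x : Fin m → Γ) :
    ∏ k, MB U V Qz B (e k) (x k) =
      (∑ ω : Fin m → Fin B → Ω, if (fun k => Qz (Tn U V B (ω k))) = x then
        ∏ k, Tn U V B (ω k) ^ e k else 0) / (Fintype.card Ω : ℝ) ^ (m * B) := by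
  unfold MB EB
  rw [Finset.prod_div_distrib, Finset.prod_const, Finset.card_univ, Fintype.card_fin, ← pow_mul,
    mul_comm B m, Finset.prod_univ_sum, Fintype.piFinset_univ]
  congr 1
  refine Finset.sum_congr rfl fun ω _ => ?_
  split_ifs with h
  · refine Finset.prod_congr rfl fun k _ => ?_
    exact if_pos (congrFun h k)
  · obtain ⟨k, hk⟩ : ∃ k, Qz (Tn U V B (ω k)) ≠ x k := by
      by_contra hcon
      push Not at hcon
      exact h (funext hcon)
    exact Finset.prod_eq_zero (Finset.mem_univ k) (if_neg hk)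

/-- finite expansion: `E[(f - (ΣT_i)²) c(Qz T)] = Σ_x PhiOf(x) c(x)` -/
theorem finite_expand {Γ : Type} [Fintype Γ] [DecidableEq Γ] (Qz : ℝ → Γ) (m f : ℕ)
    (c : (Fin m → Γ) → ℝ) {Ω : Type} [Fintype Ω] [Nonempty Ω] (U : Ω → ℝ) (V : ℝ) (B : ℕ) :
    (∑ ω : Fin m → Fin B → Ω,
      ((f : ℝ) - (∑ i, (∑ b, U (ω i b)) / Real.sqrt (B * V)) ^ 2) *
        c (fun i => Qz ((∑ b, U (ω i b)) / Real.sqrt (B * V)))) /
      (Fintype.card Ω : ℝ) ^ (m * B) =
    ∑ x, PhiOf m f (MB U V Qz B) x * c x := by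
  classical
  have hexp : ∀ (i j : Fin m) (T : Fin m → ℝ), T i * T j =
      ∏ k, T k ^ ((if k = i then 1 else 0) + (if k = j then 1 else 0)) := by
    intro i j T
    simp only [pow_add, Finset.prod_mul_distrib, pow_ite, pow_one, pow_zero,
      Finset.prod_ite_eq', Finset.mem_univ, if_true]
  have hphi : ∀ x, PhiOf m f (MB U V Qz B) x =
      (∑ ω : Fin m → Fin B → Ω, if (fun k => Qz (Tn U V B (ω k))) = x then
        ((f : ℝ) - (∑ i, Tn U V B (ω i)) ^ 2) else 0) / (Fintype.card Ω : ℝ) ^ (m * B) := by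
    intro x
    unfold PhiOf
    rw [ak4_prod_MB Qz m U V B (fun _ => 0) x]
    have h1 : ∀ i j : Fin m, ∏ k, MB U V Qz B ((if k = i then 1 else 0) +
        (if k = j then 1 else 0)) (x k) =
        (∑ ω : Fin m → Fin B → Ω, if (fun k => Qz (Tn U V B (ω k))) = x then
          Tn U V B (ω i) * Tn U V B (ω j) else 0) / (Fintype.card Ω : ℝ) ^ (m * B) := by
      intro i j
      rw [ak4_prod_MB Qz m U V B (fun k => (if k = i then 1 else 0) + (if k = j then 1 else 0)) x]
      congr 1
      refine Finset.sum_congr rfl fun ω _ => ?_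
      rw [hexp i j (fun k => Tn U V B (ω k))]
    simp only [h1]
    simp only [← Finset.sum_div]
    rw [← mul_div_assoc, ← sub_div]
    congr 1
    rw [Finset.mul_sum]
    have h2 : ∑ i : Fin m, ∑ j : Fin m, ∑ ω : Fin m → Fin B → Ω,
        (if (fun k => Qz (Tn U V B (ω k))) = x then Tn U V B (ω i) * Tn U V B (ω j) else 0) =
        ∑ ω : Fin m → Fin B → Ω, (if (fun k => Qz (Tn U V B (ω k))) = x then
          (∑ i, Tn U V B (ω i)) ^ 2 else 0) := by
      rw [Finset.sum_congr rfl fun i _ => Finset.sum_comm]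
      rw [Finset.sum_comm]
      refine Finset.sum_congr rfl fun ω _ => ?_
      split_ifs
      · rw [sq, Finset.sum_mul_sum]
      · simp
    rw [h2, ← Finset.sum_sub_distrib]
    refine Finset.sum_congr rfl fun ω _ => ?_
    split_ifs
    · simp
    · simp
  simp only [hphi]
  simp only [div_mul_eq_mul_div]
  rw [← Finset.sum_div]
  congr 1
  simp only [Finset.sum_mul]
  rw [Finset.sum_comm]
  refine Finset.sum_congr rfl fun ω _ => ?_
  simp only [ite_mul, zero_mul]
  rw [Finset.sum_ite_eq, if_pos (Finset.mem_univ _)]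
  rfl

/-- Gaussian expansion.  Hint: `Set.indicator`, expand the square,
`integral_fintype_prod_eq_prod`. -/
theorem phi_expand {Γ : Type} (Qz : ℝ → Γ) (hQ : ∀ a, MeasurableSet (Qz ⁻¹' {a})) (m f : ℕ)
    (x : Fin m → Γ) : phi m f Qz x = PhiOf m f (MG Qz) x := by
  classical
  have hpow : ∀ (e : ℕ) (k : Fin m),
      Integrable (fun y : ℝ => y ^ e) ((gaussianReal 0 1).restrict (Qz ⁻¹' {x k})) := by
    intro e k
    have h1 : MemLp (id : ℝ → ℝ) (e : ENNReal) (gaussianReal 0 1) :=
      memLp_id_gaussianReal' _ (ENNReal.natCast_ne_top e)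
    have h2 : Integrable (fun y : ℝ => y ^ e) (gaussianReal 0 1) := by
      have h3 := h1.integrable_norm_pow'
      rw [← integrable_norm_iff (by fun_prop)]
      simpa using h3
    exact h2.restrict
  have hset : {Y : Fin m → ℝ | ∀ i, Qz (Y i) = x i} = Set.univ.pi fun i => Qz ⁻¹' {x i} := by
    ext Y
    simp
  obtain ⟨ex, hex⟩ : ∃ ex : Fin m → Fin m → Fin m → ℕ, ∀ i j k,
      ex i j k = (if k = i then 1 else 0) + (if k = j then 1 else 0) := ⟨_, fun _ _ _ => rfl⟩
  have hprod : ∀ (i j : Fin m) (Y : Fin m → ℝ), Y i * Y j = ∏ k, Y k ^ ex i j k := by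
    intro i j Y
    simp only [hex, pow_add, Finset.prod_mul_distrib, pow_ite, pow_one, pow_zero,
      Finset.prod_ite_eq', Finset.mem_univ, if_true]
  have hint : ∀ i j : Fin m, Integrable (fun Y : Fin m → ℝ => ∏ k, Y k ^ ex i j k)
      (Measure.pi fun i => (gaussianReal 0 1).restrict (Qz ⁻¹' {x i})) := by
    intro i j
    exact Integrable.fintype_prod_dep (f := fun k (y : ℝ) => y ^ ex i j k) fun k => hpow _ k
  unfold phi PhiOf MG
  rw [hset, Measure.restrict_pi_pi]
  have hexp : ∀ Y : Fin m → ℝ, (f : ℝ) - (∑ i, Y i) ^ 2 =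
      (f : ℝ) * ∏ k, Y k ^ 0 - ∑ i, ∑ j, ∏ k, Y k ^ ex i j k := by
    intro Y
    rw [sq, Finset.sum_mul_sum]
    simp only [pow_zero, Finset.prod_const_one, mul_one, hprod]
  simp only [hexp]
  rw [integral_sub, integral_const_mul, integral_finsetSum]
  · congr 1
    · rw [integral_fintype_prod_eq_prod (fun (_ : Fin m) (y : ℝ) => y ^ 0)]
    · refine Finset.sum_congr rfl fun i _ => ?_
      rw [integral_finsetSum _ fun j _ => hint i j]
      refine Finset.sum_congr rfl fun j _ => ?_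
      rw [integral_fintype_prod_eq_prod (fun (k : Fin m) (y : ℝ) => y ^ ex i j k)]
      simp only [hex]
  · intro i _
    exact integrable_finsetSum _ fun j _ => hint i j
  · refine Integrable.const_mul ?_ _
    exact Integrable.fintype_prod_dep (f := fun k (y : ℝ) => y ^ 0) fun k => hpow _ k
  · exact integrable_finsetSum _ fun i _ => integrable_finsetSum _ fun j _ => hint i j

end Crest.Agent.R63
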