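import Crest.Agent.R63.AK1
import Crest.Agent.R63.AK2
import Crest.Agent.R63.AK3
import Crest.Agent.R63.AK4

/-! ROW 63, module A, CLT part (assembly from AK1..AK4). -/

set_option autoImplicit false
open Finset MeasureTheory ProbabilityTheory Filter Topology

namespace Crest.Agent.R63

private theorem integrable_pow_four_gauss :
    Integrable (fun x : ℝ => x ^ 4) (gaussianReal 0 1) := by
  have h : MemLp (id : ℝ → ℝ) 4 (gaussianReal 0 1) := by
    simpa using memLp_id_gaussianReal (μ := 0) (v := 1) 4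
  have h2 := h.integrable_norm_pow (by norm_num)
  refine h2.congr ?_
  filter_upwards with x
  simp only [id, Real.norm_eq_abs]
  have : |x| ^ 4 = x ^ 4 := by
    rw [show (4 : ℕ) = 2 * 2 by norm_num, pow_mul, sq_abs, ← pow_mul]
  exact this

/-- the truncated moments of `T_B` converge to the Gaussian ones -/
theorem tendsto_MB {Γ : Type} [DecidableEq Γ] (Qz : ℝ → Γ)
    (hQ : ∀ a, MeasurableSet (Qz ⁻¹' {a}) ∧ (frontier (Qz ⁻¹' {a})).Finite)
    {Ω : Type} [Fintype Ω] [Nonempty Ω] (U : Ω → ℝ) (V : ℝ) (hV : 0 < V)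
    (h0 : ∑ ω, U ω = 0) (h2 : ∑ ω, U ω ^ 2 = V * Fintype.card Ω) (e : ℕ) (he : e ≤ 2) (a : Γ) :
    Tendsto (fun B => MB U V Qz B e a) atTop (𝓝 (MG Qz e a)) := by
  obtain ⟨ν, hν, hint, hν2⟩ := clt_EB U V hV h0 h2
  obtain ⟨K4, hK4⟩ := EB_four U V hV h0
  have hfr : ((⟨gaussianReal 0 1, inferInstance⟩ : ProbabilityMeasure ℝ) : Measure ℝ)
      (frontier (Qz ⁻¹' {a})) = 0 := by
    have : NullSingletonClass (gaussianReal 0 1) := nullSingletonClass_gaussianReal one_ne_zero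
    change (gaussianReal 0 1) (frontier (Qz ⁻¹' {a})) = 0
    exact (hQ a).2.measure_zero _
  have key := tendsto_setIntegral_pow ν ⟨gaussianReal 0 1, inferInstance⟩ hν (Qz ⁻¹' {a}) (hQ a).1
    hfr e he (max K4 (∫ x, x ^ 4 ∂(gaussianReal 0 1))) (fun B => hint B _)
    integrable_pow_four_gauss
    (fun B hB => by rw [hν2]; exact (hK4 B hB).trans (le_max_left _ _))
    (le_max_right _ _)
  have e1 : ∀ B, ∫ x in Qz ⁻¹' {a}, x ^ e ∂(ν B : Measure ℝ) = MB U V Qz B e a := by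
    intro B
    unfold MB
    rw [← hν2 B, ← integral_indicator (hQ a).1]
    refine integral_congr_ae ?_
    filter_upwards with x
    by_cases hx : Qz x = a
    · rw [Set.indicator_of_mem (by simpa using hx), if_pos hx]
    · rw [Set.indicator_of_notMem (by simpa using hx), if_neg hx]
  simp only [e1] at key
  exact key

theorem exists_B {Γ : Type} [Fintype Γ] [DecidableEq Γ] (Qz : ℝ → Γ)
    (hQ : ∀ a, MeasurableSet (Qz ⁻¹' {a}) ∧ (frontier (Qz ⁻¹' {a})).Finite) (m f : ℕ)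
    (c : (Fin m → Γ) → ℝ) (hpos : 0 < ∑ x, phi m f Qz x * c x)
    {Ω : Type} [Fintype Ω] [Nonempty Ω] (U : Ω → ℝ) (V : ℝ) (hV : 0 < V)
    (h0 : ∑ ω, U ω = 0) (h2 : ∑ ω, U ω ^ 2 = V * Fintype.card Ω) :
    ∃ B : ℕ, 1 ≤ B ∧ (∑ x, phi m f Qz x * c x) / 2 ≤
      (∑ ω : Fin m → Fin B → Ω,
        ((f : ℝ) - (∑ i, (∑ b, U (ω i b)) / Real.sqrt (B * V)) ^ 2) *
          c (fun i => Qz ((∑ b, U (ω i b)) / Real.sqrt (B * V)))) /
        (Fintype.card Ω : ℝ) ^ (m * B) := by
  have hlim : Tendsto (fun B => ∑ x, PhiOf m f (MB U V Qz B) x * c x) atTop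
      (𝓝 (∑ x, phi m f Qz x * c x)) := by
    refine tendsto_finset_sum _ fun x _ => ?_
    refine Tendsto.mul_const _ ?_
    rw [phi_expand Qz (fun a => (hQ a).1) m f x]
    unfold PhiOf
    refine Tendsto.sub ?_ ?_
    · refine Tendsto.const_mul _ ?_
      exact tendsto_finset_prod _ fun k _ => tendsto_MB Qz hQ U V hV h0 h2 0 (by norm_num) (x k)
    · refine tendsto_finset_sum _ fun i _ => tendsto_finset_sum _ fun j _ =>
        tendsto_finset_prod _ fun k _ => tendsto_MB Qz hQ U V hV h0 h2 _ ?_ (x k)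
      split_ifs <;> norm_num
  have hev := (hlim.eventually (lt_mem_nhds (half_lt_self hpos))).and (eventually_ge_atTop 1)
  obtain ⟨B, hB, hB1⟩ := hev.exists
  refine ⟨B, hB1, ?_⟩
  rw [finite_expand]
  exact hB.le

end Crest.Agent.R63
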