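import Crest.Agent.R63.ADefs

/-! ROW 63, module A, piece A_D1: degree calculus on the cube (helper15). -/

set_option autoImplicit false
open Finset

namespace Crest.Agent.R63.A

variable {ι ι' : Type} [Fintype ι] [DecidableEq ι] [Fintype ι'] [DecidableEq ι']

theorem ch_mem {S : Finset ι} {d : ℕ} (h : S.card ≤ d) : ch S ∈ Dg ι d :=
  Submodule.subset_span ⟨S, h, rfl⟩

theorem Dg_mono {d d' : ℕ} (h : d ≤ d') : Dg ι d ≤ Dg ι d' := by
  refine Submodule.span_mono ?_
  rintro g ⟨S, hS, rfl⟩
  exact ⟨S, hS.trans h, rfl⟩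

theorem one_mem_Dg (d : ℕ) : (fun _ => (1 : ℝ)) ∈ Dg ι d := by
  have : (fun _ => (1 : ℝ)) = (ch (∅ : Finset ι)) := by
    funext x; simp [ch]
  rw [this]
  exact ch_mem (by simp)

private theorem ad1_ch_univ (S : Finset ι) (x : ι → Bool) :
    ch S x = ∏ i, (if i ∈ S then sb (x i) else 1) := by
  unfold ch
  rw [Finset.prod_ite_mem, Finset.univ_inter]

private theorem ad1_sb (b : Bool) : sb b * sb b = 1 := by
  cases b <;> simp [sb]

private theorem ad1_ch_mul (S T : Finset ι) (x : ι → Bool) :
    ch S x * ch T x = ch (symmDiff S T) x := by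
  rw [ad1_ch_univ, ad1_ch_univ, ad1_ch_univ, ← Finset.prod_mul_distrib]
  refine Finset.prod_congr rfl fun i _ => ?_
  by_cases hS : i ∈ S <;> by_cases hT : i ∈ T <;>
    simp [Finset.mem_symmDiff, hS, hT, ad1_sb]

private theorem ad1_card (S T : Finset ι) : (symmDiff S T).card ≤ S.card + T.card := by
  have h : symmDiff S T ⊆ S ∪ T := by
    intro i hi
    rw [Finset.mem_symmDiff] at hi
    rw [Finset.mem_union]
    tauto
  exact (Finset.card_le_card h).trans (Finset.card_union_le S T)

theorem Dg_mul {a b : ℕ} {g h : (ι → Bool) → ℝ} (hg : g ∈ Dg ι a) (hh : h ∈ Dg ι b) :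
    (fun x => g x * h x) ∈ Dg ι (a + b) := by
  have key : ∀ g ∈ Dg ι a, ∀ h ∈ Dg ι b, (g * h : (ι → Bool) → ℝ) ∈ Dg ι (a + b) := by
    intro g hg
    induction hg using Submodule.span_induction with
    | mem g hg =>
      obtain ⟨S, hS, rfl⟩ := hg
      intro h hh
      induction hh using Submodule.span_induction with
      | mem h hh =>
        obtain ⟨T, hT, rfl⟩ := hh
        have e : (ch S * ch T : (ι → Bool) → ℝ) = ch (symmDiff S T) := by
          funext x
          exact ad1_ch_mul S T x
        rw [e]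
        exact ch_mem ((ad1_card S T).trans (by omega))
      | zero => simp
      | add x y _ _ hx hy =>
        rw [mul_add]
        exact Submodule.add_mem _ hx hy
      | smul c x _ hx =>
        rw [mul_smul_comm]
        exact Submodule.smul_mem _ _ hx
    | zero => intro h _; simp
    | add x y _ _ hx hy =>
      intro h hh
      rw [add_mul]
      exact Submodule.add_mem _ (hx h hh) (hy h hh)
    | smul c x _ hx =>
      intro h hh
      rw [smul_mul_assoc]
      exact Submodule.smul_mem _ _ (hx h hh)
  exact key g hg h hh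

theorem Dg_prod {J : Type} (s : Finset J) (g : J → (ι → Bool) → ℝ) (d : J → ℕ)
    (h : ∀ j ∈ s, g j ∈ Dg ι (d j)) : (fun x => ∏ j ∈ s, g j x) ∈ Dg ι (∑ j ∈ s, d j) := by
  classical
  induction s using Finset.induction_on with
  | empty =>
    simp only [Finset.prod_empty, Finset.sum_empty]
    exact one_mem_Dg 0
  | insert j s hj ih =>
    have h1 := ih fun i hi => h i (Finset.mem_insert_of_mem hi)
    have h2 := Dg_mul (h j (Finset.mem_insert_self j s)) h1
    simp only [Finset.prod_insert hj, Finset.sum_insert hj]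
    exact h2

theorem Dg_lift (e : ι ↪ ι') {d : ℕ} {g : (ι → Bool) → ℝ} (hg : g ∈ Dg ι d) :
    (fun x : ι' → Bool => g (fun i => x (e i))) ∈ Dg ι' d := by
  induction hg using Submodule.span_induction with
  | mem g hg =>
    obtain ⟨S, hS, rfl⟩ := hg
    have e1 : (fun x : ι' → Bool => ch S (fun i => x (e i))) = ch (S.map e) := by
      funext x
      unfold ch
      rw [Finset.prod_map]
    rw [e1]
    exact ch_mem (by rwa [Finset.card_map])
  | zero => exact Submodule.zero_mem _
  | add x y _ _ hx hy => exact Submodule.add_mem _ hx hy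
  | smul c x _ hx => exact Submodule.smul_mem _ c hx

end Crest.Agent.R63.A
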