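import Crest.Agent.R63.ADefs

/-! ROW 63, module A, piece A_D2: orthogonality of the characters, averages.

`ch_orth`: `∑ x, ch S x * ch T x = 0` for `S ≠ T` (`= ∏ over i of a sum over Bool`, `Finset.prod_univ_sum` /
`Fintype.prod_sum`-type formula; or flip one bit `i ∈ symmDiff S T`).
-/

set_option autoImplicit false
open Finset

namespace Crest.Agent.R63.A

variable {ι : Type} [Fintype ι] [DecidableEq ι]

theorem ch_orth {S T : Finset ι} (h : S ≠ T) : ∑ x : ι → Bool, ch S x * ch T x = 0 := by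
  sorry

theorem Dg_orth {d : ℕ} {g : (ι → Bool) → ℝ} (hg : g ∈ Dg ι d) {S : Finset ι} (hS : d < S.card) :
    ∑ x, g x * ch S x = 0 := by
  sorry

theorem av_one : av (fun _ : ι → Bool => (1 : ℝ)) = 1 := by
  sorry

theorem av_Sb : av (Sb : (ι → Bool) → ℝ) = 0 := by
  sorry

theorem av_add (g h : (ι → Bool) → ℝ) : av (fun x => g x + h x) = av g + av h := by
  sorry

theorem av_smul (r : ℝ) (g : (ι → Bool) → ℝ) : av (fun x => r * g x) = r * av g := by
  sorry

theorem av_sum {J : Type} (s : Finset J) (g : J → (ι → Bool) → ℝ) :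
    av (fun x => ∑ j ∈ s, g j x) = ∑ j ∈ s, av (g j) := by
  sorry

end Crest.Agent.R63.A
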