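import Crest.Agent.R63.Defs

/-! ROW 63, module A (amplification), definitions (helper83).

A label type `κ` with a law `p`, a function `U` (conditional expectation of the sum of the bits given the label)
and a degree function `δ` is REALISED (`Rlz`) if there is a map `C` from some cube to `κ` such that the indicator of
`C = a` has degree `≤ δ a`, `P(C = a) = p a`, `E[S 1_{C=a}] = U a * p a`.
-/

set_option autoImplicit false
open Finset MeasureTheory ProbabilityTheory

namespace Crest.Agent.R63.A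

/-- sign of a bit -/
def sb (b : Bool) : ℝ := if b then 1 else -1

section cube

variable {ι : Type} [Fintype ι] [DecidableEq ι] {κ : Type} [Fintype κ] [DecidableEq κ]

/-- Walsh character -/
def ch (S : Finset ι) (x : ι → Bool) : ℝ := ∏ i ∈ S, sb (x i)

variable (ι) in
/-- functions of degree `≤ d` -/
def Dg (d : ℕ) : Submodule ℝ ((ι → Bool) → ℝ) :=
  Submodule.span ℝ {g | ∃ S : Finset ι, S.card ≤ d ∧ g = ch S}

/-- indicator of `C = a` -/
def ind (C : (ι → Bool) → κ) (a : κ) : (ι → Bool) → ℝ := fun x => if C x = a then 1 else 0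

/-- average over the cube -/
noncomputable def av (g : (ι → Bool) → ℝ) : ℝ := (∑ x, g x) / 2 ^ Fintype.card ι

/-- sum of the bits -/
def Sb (x : ι → Bool) : ℝ := ∑ i, sb (x i)

/-- `C` realises `(p, U, δ)` -/
structure IsR (C : (ι → Bool) → κ) (p U : κ → ℝ) (δ : κ → ℕ) : Prop where
  deg : ∀ a, ind C a ∈ Dg ι (δ a)
  law : ∀ a, av (ind C a) = p a
  fst : ∀ a, av (fun x => ind C a x * Sb x) = U a * p a

end cube

/-- realisable -/
def Rlz (κ : Type) [Fintype κ] [DecidableEq κ] (p U : κ → ℝ) (δ : κ → ℕ) : Prop :=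
  ∃ (ι : Type) (_ : Fintype ι) (_ : DecidableEq ι) (C : (ι → Bool) → κ), IsR C p U δ

/-- some realised scheme has `E U² ≥ ρ * degree` -/
def Rat (ρ : ℝ) : Prop :=
  ∃ (κ : Type) (_ : Fintype κ) (_ : DecidableEq κ) (p U : κ → ℝ) (d : ℕ),
    1 ≤ d ∧ Rlz κ p U (fun _ => d) ∧ ρ * d ≤ ∑ a, p a * U a ^ 2

section EE

variable {κ : Type} [Fintype κ]

/-- expectation of `G` under the product law `p^M` -/
def EE (p : κ → ℝ) (M : ℕ) (G : (Fin M → κ) → ℝ) : ℝ := ∑ a : Fin M → κ, (∏ t, p (a t)) * G a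

/-- normalised sum -/
noncomputable def TT (U : κ → ℝ) (V : ℝ) (B : ℕ) (s : Fin B → κ) : ℝ := (∑ b, U (s b)) / √(B * V)

/-- product law -/
def pw (p : κ → ℝ) (B : ℕ) (s : Fin B → κ) : ℝ := ∏ b, p (s b)

end EE

/-- law, conditional expectation and degrees of a block with star set `c` -/
def bp {κ : Type} [Fintype κ] (p : κ → ℝ) (m : ℕ) (c : (Fin m → κ) → ℝ) : Option (Fin m → κ) → ℝ
  | none => EE p m c
  | some a => (1 - c a) * ∏ i, p (a i)

def bU {κ : Type} (U : κ → ℝ) (m : ℕ) (z0 : ℝ) : Option (Fin m → κ) → ℝ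
  | none => z0
  | some a => ∑ i, U (a i)

def bd {κ : Type} (m f d : ℕ) : Option (Fin m → κ) → ℕ
  | none => (m - f) * d
  | some _ => m * d

/-- `c` is a sum of functions of `k` coordinates -/
def Jun {κ : Type} {m : ℕ} (k : ℕ) (c : (Fin m → κ) → ℝ) : Prop :=
  ∃ h : Finset (Fin m) → (Fin m → κ) → ℝ,
    (∀ I x y, (∀ i ∈ I, x i = y i) → h I x = h I y) ∧
    ∀ x, c x = ∑ I ∈ powersetCard k univ, h I x

end Crest.Agent.R63.A
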