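import Crest.Agent.R63.AKDefs

/-! ROW 63, piece R63_AK1: central limit theorem for `EB`. -/

set_option autoImplicit false
open Finset MeasureTheory ProbabilityTheory Filter Topology

namespace Crest.Agent.R63

/-- normalised sum of Dirac masses -/
noncomputable def unifD {ι : Type} [Fintype ι] (T : ι → ℝ) : Measure ℝ :=
  ∑ i : ι, (ENNReal.ofReal (1 / (Fintype.card ι : ℝ))) • Measure.dirac (T i)

lemma unifD_prob {ι : Type} [Fintype ι] [Nonempty ι] (T : ι → ℝ) :
    IsProbabilityMeasure (unifD T) := by
  constructor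
  unfold unifD
  rw [Measure.finset_sum_apply]
  simp only [Measure.smul_apply, measure_univ, smul_eq_mul, mul_one, sum_const, card_univ,
    nsmul_eq_mul]
  have hc : (0 : ℝ) < Fintype.card ι := by exact_mod_cast Fintype.card_pos
  rw [← ENNReal.ofReal_natCast, ← ENNReal.ofReal_mul hc.le]
  rw [mul_one_div_cancel hc.ne', ENNReal.ofReal_one]

lemma unifD_integrable {ι : Type} [Fintype ι] {E : Type} [NormedAddCommGroup E] (T : ι → ℝ)
    (g : ℝ → E) : Integrable g (unifD T) := by
  unfold unifD
  rw [integrable_finsetSum_measure]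
  intro i _
  exact (integrable_dirac (by simp)).smul_measure (by simp)

lemma unifD_integral {ι : Type} [Fintype ι] {E : Type} [NormedAddCommGroup E] [NormedSpace ℝ E]
    [CompleteSpace E] (T : ι → ℝ) (g : ℝ → E) :
    ∫ x, g x ∂(unifD T) = (1 / (Fintype.card ι : ℝ)) • ∑ i, g (T i) := by
  unfold unifD
  rw [integral_finsetSum_measure]
  · rw [Finset.smul_sum]
    refine Finset.sum_congr rfl fun i _ => ?_
    rw [integral_smul_measure, integral_dirac, ENNReal.toReal_ofReal (by positivity)]
  · intro i _
    exact (integrable_dirac (by simp)).smul_measure (by simp)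

/-- Laws of `T_B` as probability measures on `ℝ` converging weakly to the Gaussian.
Hint: `ν B = (uniform measure on Fin B → Ω).map (Tn U V B)` (for `B ≥ 1`; e.g. a finite sum of
Diracs with weights `1/card^B`);  use `ProbabilityMeasure.tendsto_iff_tendsto_charFun` and
`ProbabilityTheory.tendsto_charFun_inv_sqrt_mul_pow` for `X = U/√V` on `Ω` with uniform measure
(no infinite product needed: `charFun (ν B) t = (charFun (law X) ((√B)⁻¹ t))^B` is a finite product
expansion, `Finset.prod_univ_sum`/`Fintype.piFinset`). -/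
theorem clt_EB {Ω : Type} [Fintype Ω] [Nonempty Ω] (U : Ω → ℝ) (V : ℝ) (hV : 0 < V)
    (h0 : ∑ ω, U ω = 0) (h2 : ∑ ω, U ω ^ 2 = V * Fintype.card Ω) :
    ∃ ν : ℕ → ProbabilityMeasure ℝ,
      Tendsto ν atTop (𝓝 (⟨gaussianReal 0 1, inferInstance⟩ : ProbabilityMeasure ℝ)) ∧
      (∀ B, ∀ g : ℝ → ℝ, Integrable g (ν B : Measure ℝ)) ∧
      ∀ B, ∀ g : ℝ → ℝ, ∫ x, g x ∂(ν B : Measure ℝ) = EB U V B g := by
  classical
  have hc : (0 : ℝ) < Fintype.card Ω := by exact_mod_cast Fintype.card_pos
  refine ⟨fun B => ⟨unifD (Tn U V B), unifD_prob _⟩, ?_, ?_, ?_⟩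
  · rw [ProbabilityMeasure.tendsto_iff_tendsto_charFun]
    intro t
    haveI hP := unifD_prob (fun ω : Ω => U ω / Real.sqrt V)
    have key := @tendsto_charFun_inv_sqrt_mul_pow ℝ _ (unifD (fun ω : Ω => U ω / Real.sqrt V)) hP
      (fun x => x) aemeasurable_id ?_ ?_ t
    · have hmap : Measure.map (fun x : ℝ => x) (unifD (fun ω : Ω => U ω / Real.sqrt V)) =
          unifD (fun ω : Ω => U ω / Real.sqrt V) := Measure.map_id
      rw [hmap] at key
      have hG : charFun (gaussianReal 0 1) t = Complex.exp (- t ^ 2 / 2) := by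
        rw [charFun_gaussianReal]
        congr 1
        simp
        ring
      change Tendsto (fun n => charFun (unifD (Tn U V n)) t) atTop (𝓝 (charFun (gaussianReal 0 1) t))
      rw [hG]
      refine key.congr fun B => ?_
      rw [charFun_apply_real, charFun_apply_real, unifD_integral, unifD_integral]
      simp only [Fintype.card_fun, Fintype.card_fin]
      rw [smul_pow]
      have e1 : ((1 : ℝ) / (Fintype.card Ω : ℝ)) ^ B = 1 / (((Fintype.card Ω) ^ B : ℕ) : ℝ) := by
        push_cast
        rw [one_div_pow]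
      rw [e1]
      congr 1
      rw [← Fin.prod_const, Finset.prod_univ_sum]
      simp only [Fintype.piFinset_univ]
      refine Finset.sum_congr rfl fun ω _ => ?_
      rw [← Complex.exp_sum]
      congr 1
      rw [← Finset.sum_mul]
      congr 1
      unfold Tn
      rw [Real.sqrt_mul (Nat.cast_nonneg B)]
      push_cast
      rw [← Finset.mul_sum, ← Finset.sum_div]
      rw [div_eq_mul_inv, div_eq_mul_inv, mul_inv]
      ring
    · show ∫ x, x ∂(unifD (fun ω : Ω => U ω / Real.sqrt V)) = 0
      rw [unifD_integral]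
      rw [← Finset.sum_div, h0]
      simp
    · show ∫ x, ((fun x : ℝ => x) ^ 2) x ∂(unifD (fun ω : Ω => U ω / Real.sqrt V)) = 1
      rw [unifD_integral]
      simp only [Pi.pow_apply, div_pow, Real.sq_sqrt hV.le]
      rw [← Finset.sum_div, h2, smul_eq_mul]
      field_simp
  · intro B g
    exact unifD_integrable _ _
  · intro B g
    show ∫ x, g x ∂(unifD (Tn U V B)) = EB U V B g
    rw [unifD_integral]
    unfold EB
    simp only [Fintype.card_fun, Fintype.card_fin, smul_eq_mul]
    push_cast
    rw [div_eq_mul_inv _ ((Fintype.card Ω : ℝ) ^ B)]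
    ring

end Crest.Agent.R63
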