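import Crest.Agent.R63.Defs

/-! ROW 63, module A, CLT part: definitions. -/

set_option autoImplicit false
open Finset MeasureTheory ProbabilityTheory

namespace Crest.Agent.R63

/-- the normalised sum `T = (U(ω_1)+..+U(ω_B))/√(BV)` -/
noncomputable def Tn {Ω : Type} (U : Ω → ℝ) (V : ℝ) (B : ℕ) (ω : Fin B → Ω) : ℝ :=
  (∑ b, U (ω b)) / Real.sqrt (B * V)

/-- expectation of `g(T)` over `B` independent uniform points of `Ω` -/
noncomputable def EB {Ω : Type} [Fintype Ω] (U : Ω → ℝ) (V : ℝ) (B : ℕ) (g : ℝ → ℝ) : ℝ :=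
  (∑ ω : Fin B → Ω, g (Tn U V B ω)) / (Fintype.card Ω : ℝ) ^ B

/-- truncated moment `E[T^e 1(Qz T = a)]` -/
noncomputable def MB {Ω Γ : Type} [Fintype Ω] [DecidableEq Γ] (U : Ω → ℝ) (V : ℝ) (Qz : ℝ → Γ)
    (B : ℕ) (e : ℕ) (a : Γ) : ℝ :=
  EB U V B fun t => if Qz t = a then t ^ e else 0

/-- Gaussian truncated moment -/
noncomputable def MG {Γ : Type} (Qz : ℝ → Γ) (e : ℕ) (a : Γ) : ℝ :=
  ∫ y in Qz ⁻¹' {a}, y ^ e ∂(gaussianReal 0 1)

/-- `φ` in terms of one dimensional truncated moments -/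
noncomputable def PhiOf {Γ : Type} (m f : ℕ) (Mo : ℕ → Γ → ℝ) (x : Fin m → Γ) : ℝ :=
  (f : ℝ) * ∏ k, Mo 0 (x k) -
    ∑ i : Fin m, ∑ j : Fin m, ∏ k, Mo ((if k = i then 1 else 0) + (if k = j then 1 else 0)) (x k)

end Crest.Agent.R63
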