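import Crest.Agent.R63.ADefs

/-! ROW 63, module A, piece A_M0: product laws (finite sums).

`EE_succ`: `Fin.consEquiv` (or `Fin.consEquiv (fun _ => κ)`), `Fin.prod_univ_succ`.
`EE_prod`: `Finset.prod_univ_sum` and `Fintype.piFinset_univ`, or induction with `EE_succ`. -/

set_option autoImplicit false
open Finset

namespace Crest.Agent.R63.A

variable {κ : Type} [Fintype κ]

theorem EE_succ (p : κ → ℝ) (M : ℕ) (G : (Fin (M + 1) → κ) → ℝ) :
    EE p (M + 1) G = ∑ a, p a * EE p M (fun b => G (Fin.cons a b)) := by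
  sorry

theorem EE_add (p : κ → ℝ) (M : ℕ) (G H : (Fin M → κ) → ℝ) :
    EE p M (fun a => G a + H a) = EE p M G + EE p M H := by
  sorry

theorem EE_smul (p : κ → ℝ) (M : ℕ) (r : ℝ) (G : (Fin M → κ) → ℝ) :
    EE p M (fun a => r * G a) = r * EE p M G := by
  sorry

theorem EE_mono {p : κ → ℝ} (hp : ∀ a, 0 ≤ p a) (M : ℕ) {G H : (Fin M → κ) → ℝ}
    (h : ∀ a, G a ≤ H a) : EE p M G ≤ EE p M H := by
  sorry

/-- the expectation of a product function -/
theorem EE_prod (p : κ → ℝ) (M : ℕ) (g : Fin M → κ → ℝ) :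
    EE p M (fun a => ∏ t, g t (a t)) = ∏ t, ∑ a, p a * g t a := by
  sorry

theorem EE_const {p : κ → ℝ} (h1 : ∑ a, p a = 1) (M : ℕ) (r : ℝ) : EE p M (fun _ => r) = r := by
  sorry

theorem EE_one {p : κ → ℝ} (h1 : ∑ a, p a = 1) {g : κ → ℝ} (hg : ∑ a, p a * g a = 0) (M : ℕ) :
    EE p M (fun a => ∑ t, g (a t)) = 0 := by
  sorry

end Crest.Agent.R63.A
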