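import Crest.Agent.R63.AM0

/-! ROW 63, module A, piece A_M1: second and fourth moments under product laws (finite sums).

Induction on `M` (`EE_succ`, `EE_add`, `EE_smul`, `EE_const`, `EE_one`): for `EE_four`
`E (g + A)^4 = E A^4 + 6 E A^2 E g^2 + 4 E A E g^3 + E g^4`, `E A = 0`, `E g = 0`. -/

set_option autoImplicit false
open Finset

namespace Crest.Agent.R63.A

variable {κ : Type} [Fintype κ]

theorem EE_sq {p : κ → ℝ} (h1 : ∑ a, p a = 1) {g : κ → ℝ} (hg : ∑ a, p a * g a = 0) (M : ℕ) :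
    EE p M (fun a => (∑ t, g (a t)) ^ 2) = M * ∑ a, p a * g a ^ 2 := by
  sorry

theorem EE_four {p : κ → ℝ} (hp : ∀ a, 0 ≤ p a) (h1 : ∑ a, p a = 1) {g : κ → ℝ}
    (hg : ∑ a, p a * g a = 0) {K : ℝ} (hK : ∀ a, |g a| ≤ K) (M : ℕ) :
    EE p M (fun a => (∑ t, g (a t)) ^ 4) ≤
      3 * (M * ∑ a, p a * g a ^ 2) ^ 2 + M * K ^ 4 := by
  sorry

end Crest.Agent.R63.A
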