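import Crest.Agent.R63.AM1

/-! ROW 63, module A, piece A_M2: first absolute moment.

`y/σ = u`: `|y| ≥ (3/4) y²/σ - (1/16) y⁴/σ³` (`(u-2)²(u+4) ≥ 0`, `σ = √(B V)`); `E Y² = B V`,
`E Y⁴ ≤ 3 (B V)² + B K⁴ ≤ 4 (B V)²` for `B ≥ K⁴/V²` (`EE_sq`, `EE_four`). -/

set_option autoImplicit false
open Finset

namespace Crest.Agent.R63.A

variable {κ : Type} [Fintype κ]

theorem EE_abs {p U : κ → ℝ} (hp : ∀ a, 0 ≤ p a) (h1 : ∑ a, p a = 1)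
    (hU : ∑ a, p a * U a = 0) (hV : 0 < ∑ a, p a * U a ^ 2) :
    ∃ B : ℕ, 1 ≤ B ∧ √(B * ∑ a, p a * U a ^ 2) / 2 ≤ EE p B (fun a => |∑ t, U (a t)|) := by
  sorry

end Crest.Agent.R63.A
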