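import Crest.Agent.R63.AM1

/-! ROW 63, module A, piece A_M3: second moment on the good event.

`s a = (if st a then 1 else 0) - μ`, `∑ p s = 0`.  If `#stars < ⌈(μ - ε) M⌉₊` then `#stars < (μ-ε) M` (`Nat.lt_ceil`),
`∑ s = #stars - μ M < -ε M`, so `1_bad ≤ (∑ s)²/(ε M)²`, and
`E[1_bad (∑ z)²] ≤ E[(∑ s)² (∑ z)²]/(ε M)² ≤ (E (∑ s)⁴ + E (∑ z)⁴)/(2 (ε M)²) ≤ const` by `EE_four` with `K` a common bound
of `|s|`, `|z|` (`E (∑)⁴ ≤ 4 M² K⁴` for `M ≥ 1`).  `EE_sq` for the total. -/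

set_option autoImplicit false
open Finset

namespace Crest.Agent.R63.A

variable {κ : Type} [Fintype κ]

private theorem EE_four' {p : κ → ℝ} (hp : ∀ a, 0 ≤ p a) (h1 : ∑ a, p a = 1) {g : κ → ℝ}
    (hg : ∑ a, p a * g a = 0) {K : ℝ} (hK : ∀ a, |g a| ≤ K) (M : ℕ) (hM : 1 ≤ M) :
    EE p M (fun a => (∑ t, g (a t)) ^ 4) ≤ 4 * M ^ 2 * K ^ 4 := by
  refine (EE_four hp h1 hg hK M).trans ?_
  have h2 : ∑ a, p a * g a ^ 2 ≤ K ^ 2 := by
    calc ∑ a, p a * g a ^ 2 ≤ ∑ a, p a * K ^ 2 := by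
          refine Finset.sum_le_sum fun a _ => mul_le_mul_of_nonneg_left ?_ (hp a)
          exact sq_le_sq' (by have := (abs_le.1 (hK a)).1; linarith) (abs_le.1 (hK a)).2
      _ = K ^ 2 := by rw [← Finset.sum_mul, h1, one_mul]
  have h3 : 0 ≤ ∑ a, p a * g a ^ 2 := Finset.sum_nonneg fun a _ => mul_nonneg (hp a) (sq_nonneg _)
  have hM' : (1 : ℝ) ≤ M := by exact_mod_cast hM
  have h4 : (M * ∑ a, p a * g a ^ 2) ^ 2 ≤ (M * K ^ 2) ^ 2 := by
    refine pow_le_pow_left₀ (by positivity) ?_ 2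
    exact mul_le_mul_of_nonneg_left h2 (by positivity)
  have h5 : (M : ℝ) * K ^ 4 ≤ M ^ 2 * K ^ 4 := by
    refine mul_le_mul_of_nonneg_right ?_ (by positivity)
    nlinarith
  nlinarith

theorem EE_good {p z : κ → ℝ} (hp : ∀ a, 0 ≤ p a) (h1 : ∑ a, p a = 1) (hz : ∑ a, p a * z a = 0)
    (st : κ → Prop) [DecidablePred st] (ε : ℝ) (hε : 0 < ε) :
    ∃ K : ℝ, ∀ M : ℕ, 1 ≤ M →
      M * (∑ a, p a * z a ^ 2) - K ≤ EE p M (fun a =>
        if ⌈((∑ b ∈ univ.filter st, p b) - ε) * M⌉₊ ≤ (univ.filter fun t => st (a t)).card then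
          (∑ t, z (a t)) ^ 2 else 0) := by
  set μ : ℝ := ∑ b ∈ univ.filter st, p b with hμ
  let s : κ → ℝ := fun a => (if st a then 1 else 0) - μ
  have hs : ∑ a, p a * s a = 0 := by
    simp only [s, mul_sub, Finset.sum_sub_distrib, mul_ite, mul_one, mul_zero]
    rw [← Finset.sum_filter, ← Finset.sum_mul, h1, one_mul, sub_self]
  let K0 : ℝ := 1 + |μ| + ∑ a, |z a|
  have hz0 : 0 ≤ ∑ a, |z a| := Finset.sum_nonneg fun a _ => abs_nonneg _
  have hK0 : 0 ≤ K0 := by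
    have := abs_nonneg μ
    simp only [K0]
    linarith
  have hsK : ∀ a, |s a| ≤ K0 := by
    intro a
    simp only [s, K0]
    refine (abs_sub _ _).trans ?_
    have : |(if st a then (1 : ℝ) else 0)| ≤ 1 := by split_ifs <;> simp
    linarith
  have hzK : ∀ a, |z a| ≤ K0 := by
    intro a
    have h := Finset.single_le_sum (f := fun a => |z a|) (fun a _ => abs_nonneg _) (Finset.mem_univ a)
    have := abs_nonneg μ
    simp only [K0]
    linarith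
  refine ⟨4 * K0 ^ 4 / ε ^ 2, fun M hM => ?_⟩
  have hM' : (1 : ℝ) ≤ M := by exact_mod_cast hM
  have hεM : 0 < ε * M := by positivity
  have hD : 0 < 2 * (ε * M) ^ 2 := by positivity
  have hpt : ∀ a : Fin M → κ, (∑ t, z (a t)) ^ 2 +
      (-(1 / (2 * (ε * M) ^ 2))) * ((∑ t, s (a t)) ^ 4 + (∑ t, z (a t)) ^ 4) ≤
      (if ⌈(μ - ε) * M⌉₊ ≤ (univ.filter fun t => st (a t)).card then (∑ t, z (a t)) ^ 2 else 0) := by
    intro a
    split_ifs with hgood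
    · have : 0 ≤ (1 / (2 * (ε * M) ^ 2)) * ((∑ t, s (a t)) ^ 4 + (∑ t, z (a t)) ^ 4) := by positivity
      linarith
    · rw [not_le, Nat.lt_ceil] at hgood
      have hS : ∑ t, s (a t) = ((univ.filter fun t => st (a t)).card : ℝ) - μ * M := by
        simp only [s, Finset.sum_sub_distrib, Finset.sum_const, Finset.card_univ, Fintype.card_fin,
          nsmul_eq_mul, Finset.sum_boole]
        ring
      have hS2 : (ε * M) ^ 2 ≤ (∑ t, s (a t)) ^ 2 := by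
        rw [hS]
        nlinarith
      generalize (∑ t, s (a t)) = S at hS2
      generalize (∑ t, z (a t)) = Z
      have key : Z ^ 2 * (2 * (ε * M) ^ 2) ≤ S ^ 4 + Z ^ 4 := by
        have h1 : Z ^ 2 * (ε * M) ^ 2 ≤ Z ^ 2 * S ^ 2 := mul_le_mul_of_nonneg_left hS2 (sq_nonneg _)
        nlinarith [sq_nonneg (S ^ 2 - Z ^ 2)]
      have h2 : Z ^ 2 ≤ (S ^ 4 + Z ^ 4) / (2 * (ε * M) ^ 2) := (le_div_iff₀ hD).2 key
      rw [neg_mul, one_div, ← div_eq_inv_mul]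
      linarith
  have h3 := EE_mono hp M hpt
  rw [EE_add, EE_smul, EE_add, EE_sq h1 hz M] at h3
  refine le_trans ?_ h3
  have h4 := EE_four' hp h1 hs hsK M hM
  have h5 := EE_four' hp h1 hz hzK M hM
  have h6 : (1 / (2 * (ε * M) ^ 2)) * (EE p M (fun a => (∑ t, s (a t)) ^ 4) + EE p M (fun a => (∑ t, z (a t)) ^ 4)) ≤
      4 * K0 ^ 4 / ε ^ 2 := by
    calc (1 / (2 * (ε * M) ^ 2)) * (EE p M (fun a => (∑ t, s (a t)) ^ 4) + EE p M (fun a => (∑ t, z (a t)) ^ 4))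
        ≤ (1 / (2 * (ε * M) ^ 2)) * (4 * M ^ 2 * K0 ^ 4 + 4 * M ^ 2 * K0 ^ 4) :=
          mul_le_mul_of_nonneg_left (add_le_add h4 h5) (by positivity)
      _ = 4 * K0 ^ 4 / ε ^ 2 := by
          field_simp
          ring
  rw [neg_mul]
  linarith

end Crest.Agent.R63.A
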