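import Crest.Agent.R63.AK3

/-! ROW 63, module A: pure finite probability (sums of independent copies). -/

set_option autoImplicit false
open Finset

namespace Crest.Agent.R63

private theorem ap1_cons {Ω : Type} [Fintype Ω] (B : ℕ) (f : (Fin (B + 1) → Ω) → ℝ) :
    ∑ ω : Fin (B + 1) → Ω, f ω = ∑ a : Ω, ∑ ω : Fin B → Ω, f (Fin.cons a ω) := by
  rw [← Fintype.sum_prod_type (fun q : Ω × (Fin B → Ω) => f (Fin.cons q.1 q.2))]
  exact (Equiv.sum_comp (Fin.consEquiv (fun _ : Fin (B + 1) => Ω)) f).symm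

private theorem ap1_card {Ω : Type} [Fintype Ω] (B : ℕ) :
    (Fintype.card (Fin B → Ω) : ℝ) = (Fintype.card Ω : ℝ) ^ B := by
  rw [Fintype.card_fun, Fintype.card_fin]
  push_cast
  rfl

private theorem ap1_S {Ω : Type} [Fintype Ω] (U : Ω → ℝ) (B : ℕ) (a : Ω) (ω : Fin B → Ω) :
    ∑ b, U ((Fin.cons a ω : Fin (B + 1) → Ω) b) = U a + ∑ b, U (ω b) := by
  rw [Fin.sum_univ_succ]
  rfl

private theorem ap1_one {Ω : Type} [Fintype Ω] (U : Ω → ℝ) (h0 : ∑ ω, U ω = 0) (B : ℕ) :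
    ∑ ω : Fin B → Ω, ∑ b, U (ω b) = 0 := by
  induction B with
  | zero => simp
  | succ B ih =>
    rw [ap1_cons]
    simp only [ap1_S, Finset.sum_add_distrib, ih, Finset.sum_const_zero, add_zero,
      Finset.sum_const, Finset.card_univ, nsmul_eq_mul]
    rw [← Finset.mul_sum, h0, mul_zero]

/-- recursion for the fourth moment -/
private theorem ap1_four {Ω : Type} [Fintype Ω] (U : Ω → ℝ) (h0 : ∑ ω, U ω = 0) (B : ℕ) :
    ∑ ω : Fin (B + 1) → Ω, (∑ b, U (ω b)) ^ 4 = (Fintype.card Ω : ℝ) ^ B * ∑ ω, U ω ^ 4 +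
      6 * (∑ ω : Fin B → Ω, (∑ b, U (ω b)) ^ 2) * ∑ ω, U ω ^ 2 +
      (Fintype.card Ω : ℝ) * ∑ ω : Fin B → Ω, (∑ b, U (ω b)) ^ 4 := by
  rw [ap1_cons]
  have h1 : ∀ a : Ω, ∑ ω : Fin B → Ω, (∑ b, U ((Fin.cons a ω : Fin (B + 1) → Ω) b)) ^ 4 =
      (Fintype.card Ω : ℝ) ^ B * U a ^ 4 + 6 * (∑ ω : Fin B → Ω, (∑ b, U (ω b)) ^ 2) * U a ^ 2 +
        4 * (∑ ω : Fin B → Ω, (∑ b, U (ω b)) ^ 3) * U a +
        ∑ ω : Fin B → Ω, (∑ b, U (ω b)) ^ 4 := by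
    intro a
    have h2 : ∀ ω : Fin B → Ω, (∑ b, U ((Fin.cons a ω : Fin (B + 1) → Ω) b)) ^ 4 =
        U a ^ 4 + 4 * U a ^ 3 * (∑ b, U (ω b)) + 6 * U a ^ 2 * (∑ b, U (ω b)) ^ 2 +
          4 * U a * (∑ b, U (ω b)) ^ 3 + (∑ b, U (ω b)) ^ 4 := by
      intro ω
      rw [ap1_S]
      ring
    simp only [h2]
    rw [Finset.sum_add_distrib, Finset.sum_add_distrib, Finset.sum_add_distrib,
      Finset.sum_add_distrib, ← Finset.mul_sum, ← Finset.mul_sum, ← Finset.mul_sum,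
      ap1_one U h0 B, Finset.sum_const, Finset.card_univ, nsmul_eq_mul, ap1_card]
    ring
  simp only [h1]
  rw [Finset.sum_add_distrib, Finset.sum_add_distrib, Finset.sum_add_distrib, ← Finset.mul_sum,
    ← Finset.mul_sum, ← Finset.mul_sum, h0, Finset.sum_const, Finset.card_univ, nsmul_eq_mul]
  ring

/-- sharp fourth moment: `E (ΣU)^4 ≤ 3 B² V² + B A⁴` -/
theorem sum_four_sharp {Ω : Type} [Fintype Ω] [Nonempty Ω] (U : Ω → ℝ) (V : ℝ)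
    (h0 : ∑ ω, U ω = 0) (h2 : ∑ ω, U ω ^ 2 = V * Fintype.card Ω) (A : ℝ)
    (hA : ∀ ω, |U ω| ≤ A) (B : ℕ) :
    ∑ ω : Fin B → Ω, (∑ b, U (ω b)) ^ 4 ≤
      (3 * (B : ℝ) ^ 2 * V ^ 2 + B * A ^ 4) * (Fintype.card Ω : ℝ) ^ B := by
  have hn : (0 : ℝ) < (Fintype.card Ω : ℝ) := by exact_mod_cast Fintype.card_pos
  have h4 : ∑ ω, U ω ^ 4 ≤ (Fintype.card Ω : ℝ) * A ^ 4 := by
    calc ∑ ω, U ω ^ 4 ≤ ∑ _ω : Ω, A ^ 4 := by
          refine Finset.sum_le_sum fun ω _ => ?_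
          rw [← (show Even 4 by decide).pow_abs (U ω)]
          exact pow_le_pow_left₀ (abs_nonneg _) (hA ω) 4
      _ = _ := by rw [Finset.sum_const, Finset.card_univ, nsmul_eq_mul]
  induction B with
  | zero => simp
  | succ B ih =>
    rw [ap1_four U h0 B, h2]
    have hS2 : ∑ ω : Fin B → Ω, (∑ b, U (ω b)) ^ 2 = B * V * (Fintype.card Ω : ℝ) ^ B := by
      have h := sum_sq_copies U h0 B
      rw [← Finset.sum_mul, h2] at h
      have h' : (∑ ω : Fin B → Ω, (∑ b, U (ω b)) ^ 2) * (Fintype.card Ω : ℝ) =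
          (B * V * (Fintype.card Ω : ℝ) ^ B) * (Fintype.card Ω : ℝ) := by
        rw [h]
        ring
      exact mul_right_cancel₀ hn.ne' h'
    rw [hS2]
    have hp : (0 : ℝ) < (Fintype.card Ω : ℝ) ^ B := pow_pos hn B
    have t1 := mul_le_mul_of_nonneg_left h4 hp.le
    have t2 := mul_le_mul_of_nonneg_left ih hn.le
    have t3 : (0 : ℝ) ≤ V ^ 2 * ((Fintype.card Ω : ℝ) ^ B * (Fintype.card Ω : ℝ)) := by positivity
    rw [pow_succ (Fintype.card Ω : ℝ) B]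
    push_cast
    nlinarith [t1, t2, t3]

private theorem ap2_cubic (u : ℝ) (hu : 0 ≤ u) : 5 / 2 * (u - u ^ 3) ≤ 1 := by
  nlinarith [mul_nonneg (sq_nonneg (u - 289 / 500)) (by linarith : (0 : ℝ) ≤ u + 289 / 250)]

private theorem ap2_abs (y s : ℝ) (hs : 0 < s) :
    5 / 2 * (y ^ 2 / (3 * s) - y ^ 4 / (27 * s ^ 3)) ≤ |y| := by
  have ha : (0 : ℝ) < 3 * s := by positivity
  have h := ap2_cubic (|y| / (3 * s)) (by positivity)
  have h1 : 5 / 2 * (|y| / (3 * s) - (|y| / (3 * s)) ^ 3) * |y| ≤ 1 * |y| :=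
    mul_le_mul_of_nonneg_right h (abs_nonneg y)
  have h2 : 5 / 2 * (|y| / (3 * s) - (|y| / (3 * s)) ^ 3) * |y| =
      5 / 2 * (|y| ^ 2 / (3 * s) - |y| ^ 4 / (27 * s ^ 3)) := by
    field_simp
    ring
  have h3 : |y| ^ 2 = y ^ 2 := sq_abs y
  have h4 : |y| ^ 4 = y ^ 4 := (show Even 4 by decide).pow_abs y
  rw [h2, h3, h4] at h1
  linarith

/-- `E|ΣU| ≥ √(BV)/2` for large `B`.
Hint: `|y| ≥ (3√3/2)(y²/a - y⁴/a³)`, `a = 3√(BV)`. -/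
theorem abs_lower {Ω : Type} [Fintype Ω] [Nonempty Ω] (U : Ω → ℝ) (V : ℝ) (hV : 0 < V)
    (h0 : ∑ ω, U ω = 0) (h2 : ∑ ω, U ω ^ 2 = V * Fintype.card Ω) :
    ∃ B0 : ℕ, 1 ≤ B0 ∧ ∀ B : ℕ, B0 ≤ B → Real.sqrt (B * V) / 2 * (Fintype.card Ω : ℝ) ^ B ≤
      ∑ ω : Fin B → Ω, |∑ b, U (ω b)| := by
  obtain ⟨A, hA⟩ : ∃ A : ℝ, ∀ ω, |U ω| ≤ A := by
    refine ⟨∑ ω, |U ω|, fun ω => ?_⟩
    exact Finset.single_le_sum (f := fun ω => |U ω|) (fun i _ => abs_nonneg _) (Finset.mem_univ ω)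
  have hn : (0 : ℝ) < (Fintype.card Ω : ℝ) := by exact_mod_cast Fintype.card_pos
  obtain ⟨B1, hB1⟩ := exists_nat_ge (2 * A ^ 4 / V ^ 2)
  refine ⟨B1 + 1, by omega, fun B hB => ?_⟩
  have hBpos : (0 : ℝ) < B := by
    have : 0 < B := by omega
    exact_mod_cast this
  have hBB : 2 * A ^ 4 ≤ B * V ^ 2 := by
    have h1 : (B1 : ℝ) ≤ B := by
      have : B1 ≤ B := by omega
      exact_mod_cast this
    have h3 : 2 * A ^ 4 / V ^ 2 ≤ B := le_trans hB1 h1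
    rwa [div_le_iff₀ (by positivity)] at h3
  set s : ℝ := Real.sqrt (B * V) with hs
  have hsq : s ^ 2 = B * V := Real.sq_sqrt (by positivity)
  have hspos : 0 < s := Real.sqrt_pos.mpr (by positivity)
  set N : ℝ := (Fintype.card Ω : ℝ) ^ B with hN
  have hNpos : 0 < N := by positivity
  have hS2 : ∑ ω : Fin B → Ω, (∑ b, U (ω b)) ^ 2 = B * V * N := by
    have h := sum_sq_copies U h0 B
    rw [← Finset.sum_mul, h2] at h
    have h3 : (∑ ω : Fin B → Ω, (∑ b, U (ω b)) ^ 2) * (Fintype.card Ω : ℝ) =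
        (B * V * N) * (Fintype.card Ω : ℝ) := by rw [h]; ring
    exact mul_right_cancel₀ hn.ne' h3
  have hS4 := sum_four_sharp U V h0 h2 A hA B
  have hlow : ∑ ω : Fin B → Ω, 5 / 2 * ((∑ b, U (ω b)) ^ 2 / (3 * s) -
      (∑ b, U (ω b)) ^ 4 / (27 * s ^ 3)) ≤ ∑ ω : Fin B → Ω, |∑ b, U (ω b)| :=
    Finset.sum_le_sum fun ω _ => ap2_abs _ s hspos
  rw [← Finset.mul_sum, Finset.sum_sub_distrib, ← Finset.sum_div, ← Finset.sum_div, hS2] at hlow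
  refine le_trans ?_ hlow
  have h5 : (∑ ω : Fin B → Ω, (∑ b, U (ω b)) ^ 4) / (27 * s ^ 3) ≤
      ((3 * (B : ℝ) ^ 2 * V ^ 2 + B * A ^ 4) * N) / (27 * s ^ 3) := by
    gcongr
  have h6 : ((3 * (B : ℝ) ^ 2 * V ^ 2 + B * A ^ 4) * N) / (27 * s ^ 3) ≤
      (7 / 2 * s ^ 4 * N) / (27 * s ^ 3) := by
    gcongr
    have h7 : s ^ 4 = (B * V) ^ 2 := by rw [← hsq]; ring
    rw [h7]
    nlinarith [mul_le_mul_of_nonneg_left hBB hBpos.le]
  have h8 : (7 / 2 * s ^ 4 * N) / (27 * s ^ 3) = 7 / 54 * s * N := by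
    field_simp
    ring
  have h9 : (B : ℝ) * V * N / (3 * s) = s * N / 3 := by
    rw [← hsq]
    field_simp
  rw [h9]
  rw [h8] at h6
  nlinarith [mul_pos hspos hNpos]

/-- tail bound -/
theorem tail_le {Ω : Type} [Fintype Ω] [Nonempty Ω] (a : Ω → ℝ) (h0 : ∑ ω, a ω = 0) (A : ℝ)
    (hA : ∀ ω, |a ω| ≤ A) (ε : ℝ) (hε : 0 < ε) (M : ℕ) (hM : 1 ≤ M) :
    ((univ.filter fun ω : Fin M → Ω => ε * M < ∑ t, a (ω t)).card : ℝ) ≤
      3 * A ^ 4 / (ε ^ 4 * (M : ℝ) ^ 2) * (Fintype.card Ω : ℝ) ^ M := by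
  have hMp : (0 : ℝ) < M := by exact_mod_cast hM
  have h4 := sum_four_copies a h0 A hA M
  set F := univ.filter fun ω : Fin M → Ω => ε * M < ∑ t, a (ω t) with hF
  have h1 : (F.card : ℝ) * (ε * M) ^ 4 ≤ ∑ ω : Fin M → Ω, (∑ t, a (ω t)) ^ 4 := by
    calc (F.card : ℝ) * (ε * M) ^ 4 = ∑ _ω ∈ F, (ε * M) ^ 4 := by
          rw [Finset.sum_const, nsmul_eq_mul]
      _ ≤ ∑ ω ∈ F, (∑ t, a (ω t)) ^ 4 := by
          refine Finset.sum_le_sum fun ω hω => ?_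
          have h2 : ε * M < ∑ t, a (ω t) := (Finset.mem_filter.mp hω).2
          exact pow_le_pow_left₀ (by positivity) h2.le 4
      _ ≤ ∑ ω : Fin M → Ω, (∑ t, a (ω t)) ^ 4 :=
          Finset.sum_le_sum_of_subset_of_nonneg (Finset.subset_univ _)
            (fun ω _ _ => by positivity)
  have h2 : (F.card : ℝ) * (ε * M) ^ 4 ≤ 3 * (M : ℝ) ^ 2 * A ^ 4 * (Fintype.card Ω : ℝ) ^ M :=
    le_trans h1 h4
  rw [div_mul_eq_mul_div, le_div_iff₀ (by positivity)]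
  have h3 : (F.card : ℝ) * (ε ^ 4 * (M : ℝ) ^ 2) * (M : ℝ) ^ 2 ≤
      (3 * A ^ 4 * (Fintype.card Ω : ℝ) ^ M) * (M : ℝ) ^ 2 := by
    calc (F.card : ℝ) * (ε ^ 4 * (M : ℝ) ^ 2) * (M : ℝ) ^ 2 = (F.card : ℝ) * (ε * M) ^ 4 := by ring
      _ ≤ _ := h2
      _ = _ := by ring
  exact le_of_mul_le_mul_right h3 (by positivity)

end Crest.Agent.R63
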