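import Crest.Agent.R63.AD1
import Crest.Agent.R63.AD2

/-! ROW 63, module A, piece A_R0: first facts about realised schemes.

`1 = ∑_a ind C a`, `G (C x) = ∑_a G a * ind C a x`. -/

set_option autoImplicit false
open Finset

namespace Crest.Agent.R63.A

variable {ι : Type} [Fintype ι] [DecidableEq ι] {κ : Type} [Fintype κ] [DecidableEq κ]

theorem comp_eq (C : (ι → Bool) → κ) (G : κ → ℝ) (x : ι → Bool) :
    G (C x) = ∑ a, G a * ind C a x := by
  simp [ind]

/-- expectation of a function of the label -/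
theorem IsR.av_comp {C : (ι → Bool) → κ} {p U : κ → ℝ} {δ : κ → ℕ} (h : IsR C p U δ) (G : κ → ℝ) :
    av (fun x => G (C x)) = ∑ a, p a * G a := by
  have h1 : (fun x => G (C x)) = fun x => ∑ a, G a * ind C a x := by
    funext x
    exact comp_eq C G x
  rw [h1, av_sum]
  refine Finset.sum_congr rfl fun a _ => ?_
  rw [av_smul, h.law, mul_comm]

/-- `U` is the conditional expectation of `Sb` -/
theorem IsR.av_comp_Sb {C : (ι → Bool) → κ} {p U : κ → ℝ} {δ : κ → ℕ} (h : IsR C p U δ)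
    (G : κ → ℝ) : av (fun x => G (C x) * Sb x) = ∑ a, p a * (G a * U a) := by
  have h1 : (fun x => G (C x) * Sb x) = fun x => ∑ a, G a * (ind C a x * Sb x) := by
    funext x
    rw [comp_eq C G x, Finset.sum_mul]
    exact Finset.sum_congr rfl fun a _ => by ring
  rw [h1, av_sum]
  refine Finset.sum_congr rfl fun a _ => ?_
  rw [av_smul, h.fst]
  ring

theorem Rlz.nonneg {p U : κ → ℝ} {δ : κ → ℕ} (h : Rlz κ p U δ) (a : κ) : 0 ≤ p a := by
  obtain ⟨ι, _, _, C, hC⟩ := h
  rw [← hC.law a]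
  refine div_nonneg (Finset.sum_nonneg fun x _ => ?_) (by positivity)
  unfold ind
  split_ifs <;> norm_num

theorem Rlz.sum_one {p U : κ → ℝ} {δ : κ → ℕ} (h : Rlz κ p U δ) : ∑ a, p a = 1 := by
  obtain ⟨ι, _, _, C, hC⟩ := h
  have h1 := hC.av_comp (fun _ => (1 : ℝ))
  rw [av_one] at h1
  rw [h1]
  exact Finset.sum_congr rfl fun a _ => (mul_one _).symm

theorem Rlz.mean {p U : κ → ℝ} {δ : κ → ℕ} (h : Rlz κ p U δ) : ∑ a, p a * U a = 0 := by
  obtain ⟨ι, _, _, C, hC⟩ := h
  have h1 := hC.av_comp_Sb (fun _ => (1 : ℝ))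
  have h2 : av (fun x : ι → Bool => (1 : ℝ) * Sb x) = 0 := by
    rw [av_smul]
    show (1 : ℝ) * av (Sb : (ι → Bool) → ℝ) = 0
    rw [av_Sb, mul_zero]
  rw [h2] at h1
  rw [h1]
  exact Finset.sum_congr rfl fun a _ => by rw [one_mul]

theorem Rlz.congr {p p' U U' : κ → ℝ} {δ δ' : κ → ℕ} (h : Rlz κ p U δ) (hp : ∀ a, p a = p' a)
    (hU : ∀ a, U a = U' a) (hδ : ∀ a, δ a ≤ δ' a) : Rlz κ p' U' δ' := by
  obtain ⟨ι, i1, i2, C, hC⟩ := h
  refine ⟨ι, i1, i2, C, ⟨fun a => Dg_mono (hδ a) (hC.deg a), fun a => ?_, fun a => ?_⟩⟩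
  · rw [hC.law, hp]
  · rw [hC.fst, hp, hU]

private theorem ar0_sum (g : (Unit → Bool) → ℝ) :
    ∑ x : Unit → Bool, g x = g (fun _ => true) + g (fun _ => false) := by
  rw [Fintype.sum_equiv (Equiv.funUnique Unit Bool) g (fun b => g fun _ => b) (fun x => by
    congr 1)]
  simp

/-- the one bit scheme -/
theorem Rlz_base : Rlz Bool (fun _ => 1 / 2) sb (fun _ => 1) := by
  refine ⟨Unit, inferInstance, inferInstance, fun x => x (), ⟨fun a => ?_, fun a => ?_,
    fun a => ?_⟩⟩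
  · have h1 : ind (fun x : Unit → Bool => x ()) a =
        (1 / 2 : ℝ) • (fun _ => (1 : ℝ)) + (sb a / 2) • ch ({()} : Finset Unit) := by
      funext x
      simp only [ind, Pi.add_apply, Pi.smul_apply, smul_eq_mul, ch, Finset.prod_singleton]
      have key : ∀ b c : Bool, (if b = c then (1 : ℝ) else 0) = 1 / 2 * 1 + sb c / 2 * sb b := by
        intro b c
        cases b <;> cases c <;> norm_num [sb]
      exact key (x ()) a
    rw [h1]
    exact Submodule.add_mem _ (Submodule.smul_mem _ _ (one_mem_Dg 1))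
      (Submodule.smul_mem _ _ (ch_mem (by simp)))
  · unfold av
    rw [ar0_sum]
    cases a <;> norm_num [ind]
  · unfold av
    rw [ar0_sum]
    cases a <;> norm_num [ind, Sb, sb]

theorem Rat_one : Rat 1 := by
  refine ⟨Bool, inferInstance, inferInstance, fun _ => 1 / 2, sb, 1, le_rfl, Rlz_base, ?_⟩
  norm_num [sb]

end Crest.Agent.R63.A
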