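import Crest.Agent.R63.AR0

/-! ROW 63, module A, piece A_R1: products of schemes.

Cube `Fin M × ι`, `C' x t = C (fun i => x (t, i))`.  For `g : Fin M → (ι → Bool) → ℝ`:
`av (fun x => ∏ t, g t (fun i => x (t, i))) = ∏ t, av (g t)` (`av_prod`: `Equiv.curry`, `Finset.prod_univ_sum`,
`Fintype.piFinset_univ`, `2 ^ card (Fin M × ι) = (2 ^ card ι) ^ M`).
`ind C' a x = ∏ t, ind C (a t) (fun i => x (t, i))`; `Sb x = ∑ t, Sb (fun i => x (t, i))`
(`Fintype.sum_prod_type`).  `fst`: for each `t0` apply `av_prod` with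
`g t y = ind C (a t) y * (if t = t0 then Sb y else 1)`.  `deg`: `Dg_prod`, `Dg_lift` with `i ↦ (t, i)`.
-/

set_option autoImplicit false
open Finset

namespace Crest.Agent.R63.A

variable {ι : Type} [Fintype ι] [DecidableEq ι] {κ : Type} [Fintype κ] [DecidableEq κ]

theorem av_prod (M : ℕ) (g : Fin M → (ι → Bool) → ℝ) :
    av (fun x : Fin M × ι → Bool => ∏ t, g t (fun i => x (t, i))) = ∏ t, av (g t) := by
  unfold av
  rw [Finset.prod_div_distrib, Finset.prod_const, Finset.card_univ, Fintype.card_fin,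
    Fintype.card_prod, Fintype.card_fin]
  congr 1
  · rw [← (Equiv.curry (Fin M) ι Bool).symm.sum_comp, Finset.prod_univ_sum,
      Fintype.piFinset_univ]
    rfl
  · rw [← pow_mul, mul_comm]

omit [Fintype ι] [DecidableEq ι] [Fintype κ] in
private theorem ar1_ind (C : (ι → Bool) → κ) (M : ℕ) (a : Fin M → κ) (x : Fin M × ι → Bool) :
    ind (fun (x : Fin M × ι → Bool) (t : Fin M) => C (fun i => x (t, i))) a x =
      ∏ t, ind C (a t) (fun i => x (t, i)) := by
  unfold ind
  by_cases h : (fun t : Fin M => C (fun i => x (t, i))) = a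
  · rw [if_pos h]
    symm
    refine Finset.prod_eq_one fun t _ => ?_
    rw [if_pos (congrFun h t)]
  · rw [if_neg h]
    symm
    have h' : ∃ t, C (fun i => x (t, i)) ≠ a t := by
      by_contra hc
      push Not at hc
      exact h (funext hc)
    obtain ⟨t, ht⟩ := h'
    exact Finset.prod_eq_zero (Finset.mem_univ t) (if_neg ht)

/-- the product realisation -/
theorem IsR.pi {C : (ι → Bool) → κ} {p U : κ → ℝ} {δ : κ → ℕ} (h : IsR C p U δ) (M : ℕ) :
    IsR (fun (x : Fin M × ι → Bool) (t : Fin M) => C (fun i => x (t, i)))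
      (fun a => ∏ t, p (a t)) (fun a => ∑ t, U (a t)) (fun a => ∑ t, δ (a t)) := by
  refine ⟨fun a => ?_, fun a => ?_, fun a => ?_⟩
  · have e : ind (fun (x : Fin M × ι → Bool) (t : Fin M) => C (fun i => x (t, i))) a =
        fun x => ∏ t ∈ (Finset.univ : Finset (Fin M)), ind C (a t) (fun i => x (t, i)) := by
      funext x
      exact ar1_ind C M a x
    rw [e]
    refine Dg_prod Finset.univ (fun (t : Fin M) (x : Fin M × ι → Bool) =>
      ind C (a t) (fun i => x (t, i))) (fun t => δ (a t)) fun t _ => ?_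
    exact Dg_lift ⟨fun i => (t, i), fun i j hij => (Prod.mk.inj hij).2⟩ (h.deg (a t))
  · have e : ind (fun (x : Fin M × ι → Bool) (t : Fin M) => C (fun i => x (t, i))) a =
        fun x => ∏ t, ind C (a t) (fun i => x (t, i)) := by
      funext x
      exact ar1_ind C M a x
    rw [e, av_prod M (fun t => ind C (a t))]
    exact Finset.prod_congr rfl fun t _ => h.law (a t)
  · have e : (fun x => ind (fun (x : Fin M × ι → Bool) (t : Fin M) => C (fun i => x (t, i))) a x *
        Sb x) = fun x => ∑ t0 ∈ (Finset.univ : Finset (Fin M)),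
          ∏ t, (ind C (a t) (fun i => x (t, i)) *
            (if t = t0 then Sb (fun i => x (t, i)) else 1)) := by
      funext x
      rw [ar1_ind]
      have e2 : Sb x = ∑ t0 : Fin M, Sb (fun i => x (t0, i)) := by
        unfold Sb
        rw [Fintype.sum_prod_type]
      rw [e2, Finset.mul_sum]
      refine Finset.sum_congr rfl fun t0 _ => ?_
      rw [Finset.prod_mul_distrib, Finset.prod_ite_eq' Finset.univ t0, if_pos (Finset.mem_univ t0)]
    rw [e, av_sum, Finset.sum_mul]
    refine Finset.sum_congr rfl fun t0 _ => ?_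
    rw [av_prod M (fun t y => ind C (a t) y * (if t = t0 then Sb y else 1))]
    have e3 : ∀ t : Fin M, av (fun y => ind C (a t) y * (if t = t0 then Sb y else 1)) =
        p (a t) * (if t = t0 then U (a t) else 1) := by
      intro t
      by_cases ht : t = t0
      · simp only [ht, if_true]
        rw [h.fst, mul_comm]
      · simp only [ht, if_false, mul_one]
        exact h.law (a t)
    simp only [e3]
    rw [Finset.prod_mul_distrib, Finset.prod_ite_eq' Finset.univ t0, if_pos (Finset.mem_univ t0),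
      mul_comm]

theorem Rlz.pi {p U : κ → ℝ} {δ : κ → ℕ} (h : Rlz κ p U δ) (M : ℕ) :
    Rlz (Fin M → κ) (fun a => ∏ t, p (a t)) (fun a => ∑ t, U (a t)) (fun a => ∑ t, δ (a t)) := by
  obtain ⟨ι, _, _, C, hC⟩ := h
  exact ⟨Fin M × ι, inferInstance, inferInstance, _, hC.pi M⟩

end Crest.Agent.R63.A
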