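import Crest.Agent.R63.AR0

/-! ROW 63, module A, piece A_R3A: a function of few product labels has small degree.

For `h` depending only on the coordinates in `I`, with a fixed
`b0 : Fin m → κ` (if there is no `b0`, `m > 0` and `κ` is empty, impossible because of `C`),
`h (fun t => C (x (t, ·))) = ∑_{b : b = b0 off I} h b * ∏_{t ∈ I} ind C (b t) (fun i => x (t, i))`;
`Dg_prod`, `Dg_lift` (embedding `i ↦ (t, i)`), `∑_{t ∈ I} d = I.card * d`.
-/

set_option autoImplicit false
open Finset

namespace Crest.Agent.R63.A

variable {ι : Type} [Fintype ι] [DecidableEq ι] {κ : Type} [Fintype κ] [DecidableEq κ]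

theorem jun_deg {C : (ι → Bool) → κ} {d : ℕ} (hC : ∀ a, ind C a ∈ Dg ι d) (m : ℕ)
    (I : Finset (Fin m)) (h : (Fin m → κ) → ℝ) (hI : ∀ x y, (∀ i ∈ I, x i = y i) → h x = h y) :
    (fun x : Fin m × ι → Bool => h (fun t => C (fun i => x (t, i)))) ∈
      Dg (Fin m × ι) (I.card * d) := by
  classical
  set b0 : Fin m → κ := fun _ => C (fun _ => false) with hb0
  set S : Finset (Fin m → κ) := univ.filter (fun b => ∀ t, t ∉ I → b t = b0 t) with hS
  have key : (fun x : Fin m × ι → Bool => h (fun t => C (fun i => x (t, i)))) =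
      fun x => ∑ b ∈ S, h b * ∏ t ∈ I, ind C (b t) (fun i => x (t, i)) := by
    funext x
    set bs : Fin m → κ := fun t => if t ∈ I then C (fun i => x (t, i)) else b0 t with hbs
    have hbsS : bs ∈ S := by
      simp only [hS, mem_filter, mem_univ, true_and]
      intro t ht
      simp [hbs, ht]
    rw [Finset.sum_eq_single_of_mem bs hbsS]
    · have h1 : ∏ t ∈ I, ind C (bs t) (fun i => x (t, i)) = 1 := by
        apply Finset.prod_eq_one
        intro t ht
        simp [ind, hbs, ht]
      rw [h1, mul_one]
      apply hI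
      intro t ht
      simp [hbs, ht]
    · intro b hb hne
      have : ∃ t ∈ I, C (fun i => x (t, i)) ≠ b t := by
        by_contra hcon
        push Not at hcon
        apply hne
        funext t
        by_cases ht : t ∈ I
        · simp [hbs, ht, hcon t ht]
        · have := (mem_filter.mp hb).2 t ht
          simp [hbs, ht, this]
      obtain ⟨t, ht, hne'⟩ := this
      have h0 : ∏ t ∈ I, ind C (b t) (fun i => x (t, i)) = 0 := by
        apply Finset.prod_eq_zero ht
        simp [ind, hne']
      rw [h0, mul_zero]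
  rw [key]
  have hsum : (fun x : Fin m × ι → Bool => ∑ b ∈ S, h b * ∏ t ∈ I, ind C (b t) (fun i => x (t, i)))
      = ∑ b ∈ S, h b • (fun x : Fin m × ι → Bool => ∏ t ∈ I, ind C (b t) (fun i => x (t, i))) := by
    funext x
    simp [Finset.sum_apply]
  rw [hsum]
  refine Submodule.sum_mem _ (fun b _ => Submodule.smul_mem _ _ ?_)
  have hp := Dg_prod (ι := Fin m × ι) I
    (fun t (x : Fin m × ι → Bool) => ind C (b t) (fun i => x (t, i))) (fun _ => d) ?_
  · simpa using hp
  · intro t _
    exact Dg_lift (ι := ι) (ι' := Fin m × ι)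
      ⟨fun i => (t, i), fun a b hab => by simpa using hab⟩ (hC (b t))

end Crest.Agent.R63.A
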