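import Crest.Agent.R63.AR1
import Crest.Agent.R63.AR3a

/-! ROW 63, module A, piece A_R3B: blocks.

Take the realisation `Fin m × ι`, `C1 x = fun t => C (fun i => x (t, i))` of the product scheme
(`IsR.pi` of `AR1`: degree of the label `a`: `m * d`) and `C' x = if c (C1 x) = 1 then none else some (C1 x)`.
`ind C' (some a) x = (1 - c a) * ind C1 a x`, `ind C' none x = c (C1 x) = ∑_I h I (C1 x)` (`jun_deg`);
law, fst: `IsR.av_comp`, `IsR.av_comp_Sb` for `C1`.
-/

set_option autoImplicit false
open Finset

namespace Crest.Agent.R63.A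

variable {ι : Type} [Fintype ι] [DecidableEq ι] {κ : Type} [Fintype κ] [DecidableEq κ]

private theorem ar3_av_mul (k : ℝ) (g : (ι → Bool) → ℝ) : av (fun x => k * g x) = k * av g := by
  unfold av
  rw [← Finset.mul_sum, mul_div_assoc]

theorem Rlz.block {p U : κ → ℝ} {d : ℕ} (h : Rlz κ p U (fun _ => d)) (m f : ℕ)
    (c : (Fin m → κ) → ℝ) (hc : ∀ a, c a = 0 ∨ c a = 1) (hj : Jun (m - f) c) (z0 : ℝ)
    (hz : EE p m (fun a => c a * ∑ i, U (a i)) = z0 * EE p m c) :
    Rlz (Option (Fin m → κ)) (bp p m c) (bU U m z0) (bd m f d) := by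
  classical
  obtain ⟨ι, _, _, C, hC⟩ := h
  have h1 := hC.pi m
  set C1 : (Fin m × ι → Bool) → (Fin m → κ) := fun x t => C (fun i => x (t, i)) with hC1
  set C' : (Fin m × ι → Bool) → Option (Fin m → κ) :=
    fun x => if c (C1 x) = 1 then none else some (C1 x) with hC'
  have hnone : ind C' none = fun x => c (C1 x) := by
    funext x
    unfold ind
    rcases hc (C1 x) with h0 | h0
    · rw [if_neg, h0]
      simp [hC', h0]
    · rw [if_pos, h0]
      simp [hC', h0]
  have hsome : ∀ a, ind C' (some a) = fun x => (1 - c a) * ind C1 a x := by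
    intro a
    funext x
    unfold ind
    by_cases hx : C1 x = a
    · rcases hc a with h0 | h0
      · have h2 : C' x = some a := by simp [hC', hx, h0]
        rw [if_pos h2, if_pos hx, h0]
        ring
      · have h2 : C' x ≠ some a := by simp [hC', hx, h0]
        rw [if_neg h2, if_pos hx, h0]
        ring
    · have h2 : C' x ≠ some a := by
        simp only [hC']
        split_ifs
        · simp
        · simpa using hx
      rw [if_neg h2, if_neg hx]
      ring
  refine ⟨Fin m × ι, inferInstance, inferInstance, C', ?_, ?_, ?_⟩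
  · rintro (_ | a)
    · rw [hnone]
      obtain ⟨g, hg, hcg⟩ := hj
      have h2 : (fun x : Fin m × ι → Bool => c (C1 x)) =
          ∑ I ∈ powersetCard (m - f) (univ : Finset (Fin m)), fun x => g I (C1 x) := by
        funext x
        rw [hcg, Finset.sum_apply]
      rw [h2]
      refine Submodule.sum_mem _ fun I hI => ?_
      have h3 := jun_deg (d := d) hC.deg m I (g I) (hg I)
      rw [(Finset.mem_powersetCard.1 hI).2] at h3
      exact h3
    · rw [hsome]
      have h3 := h1.deg a
      have h4 : (∑ _t : Fin m, d) = m * d := by simp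
      simp only [h4] at h3
      have h5 := Submodule.smul_mem _ (1 - c a) h3
      exact h5
  · rintro (_ | a)
    · rw [hnone, h1.av_comp c]
      rfl
    · rw [hsome, ar3_av_mul, h1.law a]
      rfl
  · rintro (_ | a)
    · rw [hnone]
      have h2 := h1.av_comp_Sb c
      refine h2.trans ?_
      exact hz
    · rw [hsome]
      have h2 : (fun x => (1 - c a) * ind C1 a x * Sb x) =
          fun x => (1 - c a) * (ind C1 a x * Sb x) := by
        funext x
        ring
      rw [h2, ar3_av_mul, h1.fst a]
      change (1 - c a) * ((∑ t, U (a t)) * ∏ t, p (a t)) =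
        (∑ i, U (a i)) * ((1 - c a) * ∏ i, p (a i))
      ring

end Crest.Agent.R63.A
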