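import Crest.Agent.R63.AR0

/-! ROW 63, module A, piece A_R4: cutting the bad labels.

`C' x = if g (C x) then some (C x) else none`; `ind C' none = 1 - ∑_{a good} ind C a`.
`z1 * P(bad) = ∑_{bad} U a * p a`: if `P(bad) = 0` all `p a = 0` for bad `a`, take `z1 = 0`. -/

set_option autoImplicit false
open Finset

namespace Crest.Agent.R63.A

variable {κ : Type} [Fintype κ] [DecidableEq κ]

/-- the second moment after cutting -/
theorem Rlz.cut {p U : κ → ℝ} {δ : κ → ℕ} (h : Rlz κ p U δ) (g : κ → Prop) [DecidablePred g]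
    (D : ℕ) (hD : ∀ a, g a → δ a ≤ D) :
    ∃ p' U' : Option κ → ℝ, Rlz (Option κ) p' U' (fun _ => D) ∧
      ∑ a ∈ univ.filter g, p a * U a ^ 2 ≤ ∑ o, p' o * U' o ^ 2 := by
  sorry

end Crest.Agent.R63.A
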