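import Crest.Agent.R63.AR0

/-! ROW 63, module A, piece A_R5: from a scheme to the Boolean function.

`F x = decide (0 ≤ U (C x))` on the cube `ι`; `± = ∑_a (±) ind C a` has degree `≤ D`;
`∑_i (level one coefficients) = av (± * Sb) = ∑ p a * |U a|` (`IsR.av_comp_Sb`).  Transport to `Fin n` by
`Fintype.equivFin ι` (`Dg_lift`, or `Equiv.sum_comp` directly).  If `F` is constant, `av (± Sb) = 0`, a contradiction. -/

set_option autoImplicit false
open Finset

namespace Crest.Agent.R63.A

variable {κ : Type} [Fintype κ] [DecidableEq κ]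

theorem Rlz.target {p U : κ → ℝ} {D : ℕ} (h : Rlz κ p U (fun _ => D)) (C : ℝ) (hC : 0 ≤ C)
    (hV : C * √D < ∑ a, p a * |U a|) : Target C := by
  sorry

end Crest.Agent.R63.A
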