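import Crest.Agent.R63.ASDefs

/-! ROW 63, module A, pieces R63_AS1a (algebra), AS1b (Fourier), AS1c (products, labels). -/

set_option autoImplicit false
open Finset

namespace Crest.Agent.R63

variable {ι Ω A : Type} [Fintype ι] [DecidableEq ι]

theorem degLE_mono {e : Ω ≃ (ι → Bool)} {d d' : ℕ} {g : Ω → ℝ} (h : DegLE e d g) (hd : d ≤ d') :
    DegLE e d' g := by
  obtain ⟨co, h1, h2⟩ := h
  exact ⟨co, fun S hS => h1 S (lt_of_le_of_lt hd hS), h2⟩

theorem degLE_const (e : Ω ≃ (ι → Bool)) (d : ℕ) (c : ℝ) : DegLE e d (fun _ => c) := by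
  classical
  refine ⟨fun S => if S = ∅ then c else 0, ?_, ?_⟩
  · intro S hS
    have hne : S ≠ ∅ := by
      rintro rfl
      simp at hS
    show (if S = ∅ then c else 0) = 0
    rw [if_neg hne]
  · intro ω
    simp

theorem degLE_const_mul {e : Ω ≃ (ι → Bool)} {d : ℕ} {g : Ω → ℝ} (c : ℝ) (h : DegLE e d g) :
    DegLE e d (fun ω => c * g ω) := by
  obtain ⟨co, h1, h2⟩ := h
  refine ⟨fun S => c * co S, fun S hS => by simp [h1 S hS], fun ω => ?_⟩
  simp only [h2 ω, Finset.mul_sum, mul_assoc]

theorem degLE_sum {e : Ω ≃ (ι → Bool)} {d : ℕ} {σ : Type} (s : Finset σ) (g : σ → Ω → ℝ)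
    (h : ∀ j ∈ s, DegLE e d (g j)) : DegLE e d (fun ω => ∑ j ∈ s, g j ω) := by
  classical
  induction s using Finset.induction_on with
  | empty => simpa using degLE_const e d 0
  | insert a s ha ih =>
    obtain ⟨co1, h1, h2⟩ := h a (Finset.mem_insert_self a s)
    obtain ⟨co2, h3, h4⟩ := ih (fun j hj => h j (Finset.mem_insert_of_mem hj))
    refine ⟨fun S => co1 S + co2 S, fun S hS => by simp [h1 S hS, h3 S hS], fun ω => ?_⟩
    have h5 : ∑ j ∈ s, g j ω = ∑ S, co2 S * ∏ i ∈ S, sgE e i ω := h4 ω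
    show ∑ j ∈ insert a s, g j ω = ∑ S, (co1 S + co2 S) * ∏ i ∈ S, sgE e i ω
    rw [Finset.sum_insert ha, h2 ω, h5, ← Finset.sum_add_distrib]
    refine Finset.sum_congr rfl fun S _ => ?_
    ring

theorem degLE_sub {e : Ω ≃ (ι → Bool)} {d : ℕ} {g g' : Ω → ℝ} (h : DegLE e d g)
    (h' : DegLE e d g') : DegLE e d (fun ω => g ω - g' ω) := by
  obtain ⟨co1, h1, h2⟩ := h
  obtain ⟨co2, h3, h4⟩ := h'
  refine ⟨fun S => co1 S - co2 S, fun S hS => by simp [h1 S hS, h3 S hS], fun ω => ?_⟩
  simp only [h2 ω, h4 ω]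
  rw [← Finset.sum_sub_distrib]
  refine Finset.sum_congr rfl fun S _ => ?_
  ring

private theorem char_orth (S T : Finset ι) (h : S ≠ T) :
    ∑ b : ι → Bool, (∏ i ∈ S, (if b i then (1:ℝ) else -1)) *
      ∏ i ∈ T, (if b i then (1:ℝ) else -1) = 0 := by
  have key : ∀ b : ι → Bool, (∏ i ∈ S, (if b i then (1:ℝ) else -1)) *
      ∏ i ∈ T, (if b i then (1:ℝ) else -1) =
      ∏ i, ((if i ∈ S then (if b i then (1:ℝ) else -1) else 1) *
        (if i ∈ T then (if b i then (1:ℝ) else -1) else 1)) := by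
    intro b
    rw [Finset.prod_mul_distrib, Finset.prod_ite_mem, Finset.prod_ite_mem, univ_inter, univ_inter]
  simp_rw [key]
  rw [← Fintype.prod_sum (fun i (c : Bool) => ((if i ∈ S then (if c then (1:ℝ) else -1) else 1) *
        (if i ∈ T then (if c then (1:ℝ) else -1) else 1)))]
  obtain ⟨i, hi⟩ : ∃ i, ¬ (i ∈ S ↔ i ∈ T) := by
    by_contra hc
    exact h (Finset.ext fun i => by
      by_contra hi
      exact hc ⟨i, hi⟩)
  apply Finset.prod_eq_zero (Finset.mem_univ i)
  by_cases h1 : i ∈ S <;> by_cases h2 : i ∈ T <;> simp_all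

/-- Fourier coefficients above the degree vanish -/
theorem degLE_fourier [Fintype Ω] {e : Ω ≃ (ι → Bool)} {d : ℕ} {g : Ω → ℝ} (h : DegLE e d g)
    (S : Finset ι) (hS : d < S.card) : ∑ ω, g ω * ∏ i ∈ S, sgE e i ω = 0 := by
  obtain ⟨co, hco, hg⟩ := h
  simp_rw [hg, Finset.sum_mul]
  rw [Finset.sum_comm]
  apply Finset.sum_eq_zero
  intro T _
  by_cases hT : T = S
  · subst hT
    rw [hco T hS]
    simp
  · have h1 : ∑ ω, (co T * ∏ i ∈ T, sgE e i ω) * ∏ i ∈ S, sgE e i ω =
        co T * ∑ ω, (fun b : ι → Bool => (∏ i ∈ T, (if b i then (1:ℝ) else -1)) *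
          ∏ i ∈ S, (if b i then (1:ℝ) else -1)) (e ω) := by
      rw [Finset.mul_sum]
      apply Finset.sum_congr rfl
      intro ω _
      simp only [sgE]
      ring
    rw [h1, Equiv.sum_comp e (fun b : ι → Bool => (∏ i ∈ T, (if b i then (1:ℝ) else -1)) *
          ∏ i ∈ S, (if b i then (1:ℝ) else -1)), char_orth T S hT, mul_zero]

/-- products over independent copies: degrees add -/
theorem degLE_prod {e : Ω ≃ (ι → Bool)} {κ : Type} [Fintype κ] [DecidableEq κ] (d : κ → ℕ)
    (g : κ → Ω → ℝ) (h : ∀ k, DegLE e (d k) (g k)) :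
    DegLE (cpE κ e) (∑ k, d k) (fun ω => ∏ k, g k (ω k)) := by
  classical
  choose co hco hg using h
  refine ⟨fun T => ∏ k, co k (univ.filter fun i => (k, i) ∈ T), ?_, ?_⟩
  · intro T hT
    have hcard : T.card = ∑ k, (univ.filter fun i => (k, i) ∈ T).card := by
      rw [Finset.card_eq_sum_card_fiberwise (f := Prod.fst) (t := univ) (fun _ _ => mem_univ _)]
      refine sum_congr rfl fun k _ => ?_
      refine Finset.card_bij' (fun p _ => p.2) (fun i _ => (k, i)) ?_ ?_ ?_ ?_
      · intro p hp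
        rw [mem_filter] at hp ⊢
        refine ⟨mem_univ _, ?_⟩
        have : (k, p.2) = p := by rw [← hp.2]
        rw [this]
        exact hp.1
      · intro i hi
        rw [mem_filter] at hi ⊢
        exact ⟨hi.2, rfl⟩
      · intro p hp
        rw [mem_filter] at hp
        rw [← hp.2]
      · intro i hi
        rfl
    obtain ⟨k, hk⟩ : ∃ k, d k < (univ.filter fun i => (k, i) ∈ T).card := by
      by_contra hcon
      push Not at hcon
      rw [hcard] at hT
      exact absurd hT (not_lt.2 (Finset.sum_le_sum fun k _ => hcon k))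
    exact Finset.prod_eq_zero (mem_univ k) (hco k _ hk)
  · intro ω
    simp_rw [hg]
    rw [Finset.prod_univ_sum, Fintype.piFinset_univ]
    let E : (κ → Finset ι) ≃ Finset (κ × ι) :=
      { toFun := fun f => univ.filter fun p => p.2 ∈ f p.1
        invFun := fun T k => univ.filter fun i => (k, i) ∈ T
        left_inv := fun f => by
          funext k
          ext i
          simp
        right_inv := fun T => by
          ext p
          simp }
    rw [← Equiv.sum_comp E]
    refine sum_congr rfl fun f _ => ?_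
    rw [prod_mul_distrib]
    have h1 : ∀ k, (univ.filter fun i => (k, i) ∈ E f) = f k := by
      intro k
      ext i
      simp [E]
    simp_rw [h1]
    congr 1
    have h2 : E f = univ.filter fun p : κ × ι => p.2 ∈ f p.1 := rfl
    rw [h2, Finset.prod_filter, Fintype.prod_prod_type]
    refine prod_congr rfl fun k _ => ?_
    rw [← Finset.prod_filter]
    have h3 : (univ.filter fun i => (k, i).2 ∈ f (k, i).1) = f k := by
      ext i
      simp
    rw [h3]
    rfl

/-- a function of the labels of the copies in `J` has degree at most `|J| * d` -/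
theorem degLE_labels [Fintype A] [DecidableEq A] {e : Ω ≃ (ι → Bool)} {κ : Type} [Fintype κ]
    [DecidableEq κ] (C : Ω → A) (d : ℕ) (hC : ∀ a, DegLE e d (fun ω => if C ω = a then 1 else 0))
    (J : Finset κ) (F : (κ → A) → ℝ) (hF : ∀ x y, (∀ k ∈ J, x k = y k) → F x = F y) :
    DegLE (cpE κ e) (J.card * d) (fun ω => F (fun k => C (ω k))) := by
  classical
  -- if there is no point the statement is trivial
  rcases isEmpty_or_nonempty (κ → Ω) with hE | ⟨⟨ω0⟩⟩
  · exact ⟨fun _ => 0, fun _ _ => rfl, fun ω => (hE.false ω).elim⟩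
  -- extension of a labelling of `J`
  let ext : (J → A) → (κ → A) := fun l k => if h : k ∈ J then l ⟨k, h⟩ else C (ω0 k)
  have hext : ∀ (l : J → A) (k : J), ext l k = l k := by
    intro l k
    simp only [ext]
    rw [dif_pos k.2]
  have hterm : ∀ l : J → A, DegLE (cpE κ e) (J.card * d)
      (fun ω => F (ext l) * ∏ k : κ, (if h : k ∈ J then (if C (ω k) = l ⟨k, h⟩ then (1 : ℝ) else 0)
        else 1)) := by
    intro l
    refine degLE_const_mul _ ?_
    have h1 := degLE_prod (e := e) (κ := κ) (fun k => if k ∈ J then d else 0)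
      (fun k ω => if h : k ∈ J then (if C ω = l ⟨k, h⟩ then (1 : ℝ) else 0) else 1) (by
        intro k
        by_cases h : k ∈ J
        · simp only [h, dif_pos, if_pos]
          exact hC _
        · simp only [h, dif_neg, if_neg, not_false_eq_true]
          exact degLE_const e 0 1)
    have h2 : ∑ k : κ, (if k ∈ J then d else 0) = J.card * d := by
      rw [Finset.sum_ite_mem, Finset.univ_inter, Finset.sum_const, smul_eq_mul]
    rw [h2] at h1
    exact h1
  have hsum := degLE_sum (e := cpE κ e) (d := J.card * d) (univ : Finset (J → A)) _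
    (fun l _ => hterm l)
  have hfun : (fun ω : κ → Ω => F (fun k => C (ω k))) = fun ω => ∑ l ∈ (univ : Finset (J → A)),
      F (ext l) * ∏ k : κ, (if h : k ∈ J then (if C (ω k) = l ⟨k, h⟩ then (1 : ℝ) else 0)
        else 1) := by
    funext ω
    rw [Finset.sum_eq_single (fun k : J => C (ω k))]
    · have h1 : ∏ k : κ, (if h : k ∈ J then
          (if C (ω k) = (fun k : J => C (ω k)) ⟨k, h⟩ then (1 : ℝ) else 0) else 1) = 1 := by
        refine Finset.prod_eq_one fun k _ => ?_
        by_cases h : k ∈ J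
        · rw [dif_pos h, if_pos rfl]
        · rw [dif_neg h]
      rw [h1, mul_one]
      refine hF _ _ fun k hk => ?_
      rw [hext (fun k : J => C (ω k)) ⟨k, hk⟩]
    · intro l _ hl
      have h2 : ∃ k : J, l k ≠ C (ω k) := by
        by_contra hcon
        push Not at hcon
        exact hl (funext hcon)
      obtain ⟨k, hk⟩ := h2
      have h3 : ∏ k : κ, (if h : k ∈ J then (if C (ω k) = l ⟨k, h⟩ then (1 : ℝ) else 0)
          else 1) = 0 := by
        refine Finset.prod_eq_zero (Finset.mem_univ (k : κ)) ?_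
        rw [dif_pos k.2, if_neg (fun h => hk h.symm)]
      rw [h3, mul_zero]
    · intro h
      exact absurd (Finset.mem_univ _) h
  rw [hfun]
  exact hsum

/-- the level one form of the copies -/
theorem lev_cpE (e : Ω ≃ (ι → Bool)) {κ : Type} [Fintype κ] (ω : κ → Ω) :
    Lev (cpE κ e) ω = ∑ k, Lev e (ω k) := by
  unfold Lev
  rw [Fintype.sum_prod_type]
  rfl

end Crest.Agent.R63
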