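import Crest.Agent.R63.AS1

/-! ROW 63, module A, piece R63_AS2: conditional expectations. -/

set_option autoImplicit false
open Finset

namespace Crest.Agent.R63

/-- conditional expectation exists -/
theorem exists_proj {Ω A : Type} [Fintype Ω] [DecidableEq A] (L : Ω → ℝ) (C : Ω → A) :
    ∃ u : A → ℝ, ∀ a, ∑ ω, (if C ω = a then L ω - u a else 0) = 0 := by
  refine ⟨fun a => (∑ ω ∈ univ.filter (fun ω => C ω = a), L ω) /
    ((univ.filter fun ω => C ω = a).card : ℝ), fun a => ?_⟩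
  rw [← Finset.sum_filter, Finset.sum_sub_distrib, Finset.sum_const, nsmul_eq_mul]
  by_cases h : (univ.filter fun ω => C ω = a).card = 0
  · rw [Finset.card_eq_zero] at h
    rw [h]
    simp
  · have h' : ((univ.filter fun ω => C ω = a).card : ℝ) ≠ 0 := by exact_mod_cast h
    field_simp
    ring

/-- projection property against all functions of the label -/
theorem proj_mul {Ω A : Type} [Fintype Ω] [Fintype A] [DecidableEq A] (L : Ω → ℝ) (C : Ω → A)
    (u : A → ℝ) (h : ∀ a, ∑ ω, (if C ω = a then L ω - u a else 0) = 0) (ψ : A → ℝ) :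
    ∑ ω, L ω * ψ (C ω) = ∑ ω, u (C ω) * ψ (C ω) := by
  rw [← sub_eq_zero, ← Finset.sum_sub_distrib]
  have h1 : ∀ ω, L ω * ψ (C ω) - u (C ω) * ψ (C ω) =
      ∑ a, ψ a * (if C ω = a then L ω - u a else 0) := by
    intro ω
    rw [Finset.sum_eq_single (C ω)]
    · simp; ring
    · intro b _ hb
      rw [if_neg (fun h => hb h.symm), mul_zero]
    · intro hh; exact absurd (Finset.mem_univ _) hh
  rw [Finset.sum_congr rfl (fun ω _ => h1 ω), Finset.sum_comm]
  apply Finset.sum_eq_zero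
  intro a _
  rw [← Finset.mul_sum, h a, mul_zero]

/-- variational lower bound -/
theorem proj_var {Ω A : Type} [Fintype Ω] [Fintype A] [DecidableEq A] (L : Ω → ℝ) (C : Ω → A)
    (u : A → ℝ) (h : ∀ a, ∑ ω, (if C ω = a then L ω - u a else 0) = 0) (ψ : A → ℝ)
    (hψ : ∑ ω, L ω * ψ (C ω) = ∑ ω, ψ (C ω) ^ 2) :
    ∑ ω, ψ (C ω) ^ 2 ≤ ∑ ω, u (C ω) ^ 2 := by
  have h1 := proj_mul L C u h ψ
  have h2 : 0 ≤ ∑ ω, (u (C ω) - ψ (C ω)) ^ 2 := Finset.sum_nonneg (fun _ _ => sq_nonneg _)
  have h3 : ∑ ω, (u (C ω) - ψ (C ω)) ^ 2 = ∑ ω, u (C ω) ^ 2 - 2 * ∑ ω, u (C ω) * ψ (C ω) +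
      ∑ ω, ψ (C ω) ^ 2 := by
    rw [Finset.mul_sum, ← Finset.sum_sub_distrib, ← Finset.sum_add_distrib]
    apply Finset.sum_congr rfl
    intro ω _
    ring
  linarith

/-- the projection property passes to independent copies -/
theorem proj_copies {ι Ω A : Type} [Fintype ι] [DecidableEq ι] [Fintype Ω] [Fintype A]
    [DecidableEq A] {e : Ω ≃ (ι → Bool)} (C : Ω → A) (u : A → ℝ)
    (h : ∀ a, ∑ ω, (if C ω = a then Lev e ω - u a else 0) = 0) {κ : Type} [Fintype κ]
    [DecidableEq κ] (F : (κ → A) → ℝ) :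
    ∑ ω : κ → Ω, Lev (cpE κ e) ω * F (fun k => C (ω k)) =
      ∑ ω : κ → Ω, (∑ k, u (C (ω k))) * F (fun k => C (ω k)) := by
  classical
  simp only [lev_cpE, Finset.sum_mul]
  rw [Finset.sum_comm]
  conv_rhs => rw [Finset.sum_comm]
  refine Finset.sum_congr rfl fun k _ => ?_
  have key : ∀ f : Ω → ℝ, ∑ ω : κ → Ω, f (ω k) * F (fun j => C (ω j)) =
      ∑ r : {j // j ≠ k} → Ω, ∑ a : Ω, f a *
        (fun x : A => F (fun j => if hj : j = k then x else C (r ⟨j, hj⟩))) (C a) := by
    intro f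
    rw [← Equiv.sum_comp (Equiv.funSplitAt k Ω).symm, Fintype.sum_prod_type_right]
    refine Finset.sum_congr rfl fun r _ => Finset.sum_congr rfl fun a _ => ?_
    have h1 : ∀ j, (Equiv.funSplitAt k Ω).symm (a, r) j = if hj : j = k then a else r ⟨j, hj⟩ := by
      intro j
      by_cases hj : j = k
      · subst hj
        simp [Equiv.funSplitAt, Equiv.piSplitAt]
      · simp [Equiv.funSplitAt, Equiv.piSplitAt, hj]
    have h2 : (Equiv.funSplitAt k Ω).symm (a, r) k = a := by
      rw [h1, dif_pos rfl]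
    rw [h2]
    congr 2
    funext j
    rw [h1]
    split_ifs <;> rfl
  rw [key (Lev e), key (fun a => u (C a))]
  refine Finset.sum_congr rfl fun r _ => ?_
  exact proj_mul (Lev e) C u h
    (fun x : A => F (fun j => if hj : j = k then x else C (r ⟨j, hj⟩)))

/-- full labels of `κ` copies of a scheme of constant degree form a scheme -/
theorem sch_copies {ι Ω A : Type} [Fintype ι] [DecidableEq ι] [Fintype Ω] [Fintype A]
    [DecidableEq A] {e : Ω ≃ (ι → Bool)} (C : Ω → A) (d : ℕ) (u : A → ℝ)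
    (h : Sch e C (fun _ => d) u) (κ : Type) [Fintype κ] [DecidableEq κ] :
    Sch (cpE κ e) (fun ω k => C (ω k)) (fun _ : κ → A => Fintype.card κ * d)
      (fun ℓ => ∑ k, u (ℓ k)) := by
  refine ⟨fun a => ?_, fun a => ?_⟩
  · exact degLE_labels C d h.deg (Finset.univ : Finset κ) (fun x => if x = a then 1 else 0)
      (fun x y hxy => by rw [show x = y from funext fun k => hxy k (Finset.mem_univ k)])
  · have h1 := proj_copies (κ := κ) C u h.proj (fun x => if x = a then 1 else 0)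
    rw [← sub_eq_zero, ← Finset.sum_sub_distrib] at h1
    refine Eq.trans ?_ h1
    refine Finset.sum_congr rfl fun ω _ => ?_
    by_cases hω : (fun k => C (ω k)) = a
    · rw [if_pos hω, if_pos hω, mul_one, mul_one, ← hω]
    · rw [if_neg hω, if_neg hω]
      ring

theorem sum_sgE_aux {ι Ω : Type} [Fintype Ω] [DecidableEq ι] (e : Ω ≃ (ι → Bool)) (i : ι) :
    ∑ ω, sgE e i ω = 0 := by
  classical
  let fl : (ι → Bool) → (ι → Bool) := fun x => Function.update x i (!(x i))
  have hfl : Function.Involutive fl := by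
    intro x
    funext j
    by_cases hj : j = i
    · subst hj; simp [fl]
    · simp [fl, Function.update_of_ne hj]
  let σ : Ω ≃ Ω := (e.trans hfl.toPerm).trans e.symm
  have h1 : ∑ ω, sgE e i ω = ∑ ω, sgE e i (σ ω) := (Equiv.sum_comp σ _).symm
  have h2 : ∀ ω, sgE e i (σ ω) = - sgE e i ω := by
    intro ω
    have : e (σ ω) i = !(e ω i) := by
      simp [σ, fl, Function.Involutive.toPerm]
    unfold sgE
    rw [this]
    cases e ω i <;> simp
  rw [Finset.sum_congr rfl (fun ω _ => h2 ω), Finset.sum_neg_distrib] at h1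
  linarith

/-- the mean of `u` is zero -/
theorem sch_mean {ι Ω A : Type} [Fintype ι] [DecidableEq ι] [Fintype Ω] [Fintype A]
    [DecidableEq A] {e : Ω ≃ (ι → Bool)} (C : Ω → A) (D : A → ℕ) (u : A → ℝ)
    (h : Sch e C D u) : ∑ ω, u (C ω) = 0 := by
  have h1 := proj_mul (Lev e) C u h.proj (fun _ => 1)
  simp only [mul_one] at h1
  rw [← h1]
  unfold Lev
  rw [Finset.sum_comm]
  exact Finset.sum_eq_zero (fun i _ => sum_sgE_aux e i)

end Crest.Agent.R63
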