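import Crest.Agent.R63.AS2
import Crest.Agent.R63.AProb

/-! ROW 63, module A, piece R63_AS3: typicality lemma. -/

set_option autoImplicit false
open Finset

namespace Crest.Agent.R63

/-- the typical labels: `M` copies, all labels if `Σ D ≤ K`, else `none` -/
theorem sch_typ {ι Ω A : Type} [Fintype ι] [DecidableEq ι] [Fintype Ω] [Fintype A]
    [DecidableEq A] {e : Ω ≃ (ι → Bool)} (C : Ω → A) (D : A → ℕ) (u : A → ℝ)
    (h : Sch e C D u) (M K : ℕ) :
    ∃ (C' : (Fin M → Ω) → Option (Fin M → A)) (u' : Option (Fin M → A) → ℝ),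
      Sch (cpE (Fin M) e) C' (fun _ => K) u' ∧
      ∑ ω : Fin M → Ω, (if ∑ t, D (C (ω t)) ≤ K then (∑ t, u (C (ω t))) ^ 2 else 0) ≤
        ∑ ω, u' (C' ω) ^ 2 := by
  classical
  let C' : (Fin M → Ω) → Option (Fin M → A) := fun ω =>
    if ∑ t, D (C (ω t)) ≤ K then some (fun t => C (ω t)) else none
  have hC' : ∀ ω, C' ω = if ∑ t, D (C (ω t)) ≤ K then some (fun t => C (ω t)) else none :=
    fun ω => rfl
  obtain ⟨u', hu'⟩ := exists_proj (Lev (cpE (Fin M) e)) C'
  have hsome : ∀ l : Fin M → A,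
      DegLE (cpE (Fin M) e) K (fun ω => if C' ω = some l then (1 : ℝ) else 0) := by
    intro l
    by_cases hl : ∑ t, D (l t) ≤ K
    · have h1 := degLE_prod (e := e) (κ := Fin M) (fun t => D (l t))
        (fun t ω => if C ω = l t then (1 : ℝ) else 0) (fun t => h.deg (l t))
      have h2 := degLE_mono h1 hl
      have h3 : (fun ω : Fin M → Ω => if C' ω = some l then (1 : ℝ) else 0) =
          fun ω => ∏ t, (if C (ω t) = l t then (1 : ℝ) else 0) := by
        funext ω
        rw [Finset.prod_ite_zero]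
        simp only [Finset.prod_const_one, hC', Finset.mem_univ, true_implies]
        by_cases hh : ∀ t, C (ω t) = l t
        · have hh' : (fun t => C (ω t)) = l := funext hh
          have h5 : ∑ t, D (C (ω t)) ≤ K := by
            calc ∑ t, D (C (ω t)) = ∑ t, D (l t) := Finset.sum_congr rfl (fun t _ => by rw [hh t])
              _ ≤ K := hl
          rw [if_pos h5, if_pos hh, if_pos (by rw [hh'])]
        · rw [if_neg hh, if_neg]
          intro h6
          apply hh
          by_cases h7 : ∑ t, D (C (ω t)) ≤ K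
          · rw [if_pos h7] at h6
            have h8 := Option.some.inj h6
            intro t
            exact congrFun h8 t
          · rw [if_neg h7] at h6
            exact absurd h6 (by simp)
      rw [h3]
      exact h2
    · have h3 : (fun ω : Fin M → Ω => if C' ω = some l then (1 : ℝ) else 0) = fun _ => 0 := by
        funext ω
        rw [if_neg]
        intro h6
        rw [hC'] at h6
        by_cases h7 : ∑ t, D (C (ω t)) ≤ K
        · rw [if_pos h7] at h6
          have h8 := Option.some.inj h6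
          apply hl
          rw [← h8]
          exact h7
        · rw [if_neg h7] at h6
          exact absurd h6 (by simp)
      rw [h3]
      exact degLE_const _ _ _
  have hF : ∀ ω : Fin M → Ω, (fun o : Option (Fin M → A) => (match o with
      | none => 0
      | some l => ∑ t, u (l t) : ℝ)) (C' ω) =
      (fun l : Fin M → A => if ∑ t, D (l t) ≤ K then ∑ t, u (l t) else 0) (fun t => C (ω t)) := by
    intro ω
    simp only [hC']
    by_cases h7 : ∑ t, D (C (ω t)) ≤ K
    · rw [if_pos h7, if_pos h7]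
    · rw [if_neg h7, if_neg h7]
  refine ⟨C', u', ⟨?_, ?_⟩, ?_⟩
  · intro a'
    rcases a' with _ | l
    · have h1 : DegLE (cpE (Fin M) e) K (fun ω => ∑ l ∈ (Finset.univ : Finset (Fin M → A)),
          (if C' ω = some l then (1 : ℝ) else 0)) :=
        degLE_sum (e := cpE (Fin M) e) (Finset.univ : Finset (Fin M → A))
          (fun (l : Fin M → A) (ω : Fin M → Ω) => if C' ω = some l then (1 : ℝ) else 0)
          (fun l _ => hsome l)
      have h2 := degLE_sub (degLE_const (cpE (Fin M) e) K 1) h1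
      have h3 : (fun ω : Fin M → Ω => if C' ω = none then (1 : ℝ) else 0) =
          fun ω => 1 - ∑ l ∈ (Finset.univ : Finset (Fin M → A)),
            (if C' ω = some l then (1 : ℝ) else 0) := by
        funext ω
        rcases hc : C' ω with _ | l
        · simp
        · rw [if_neg (by simp), Finset.sum_eq_single l]
          · simp
          · intro b _ hb
            rw [if_neg]
            intro h9
            exact hb (Option.some.inj h9).symm
          · intro h9
            exact absurd (Finset.mem_univ l) h9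
      rw [h3]
      exact h2
    · exact hsome l
  · intro a'
    exact hu' a'
  · have hcop := proj_copies (e := e) C u h.proj (κ := Fin M)
      (fun l : Fin M → A => if ∑ t, D (l t) ≤ K then ∑ t, u (l t) else 0)
    have hψ : ∑ ω, Lev (cpE (Fin M) e) ω * (fun o : Option (Fin M → A) => (match o with
        | none => 0
        | some l => ∑ t, u (l t) : ℝ)) (C' ω) =
        ∑ ω, (fun o : Option (Fin M → A) => (match o with
        | none => 0
        | some l => ∑ t, u (l t) : ℝ)) (C' ω) ^ 2 := by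
      have e1 : ∑ ω, Lev (cpE (Fin M) e) ω * (fun o : Option (Fin M → A) => (match o with
          | none => 0
          | some l => ∑ t, u (l t) : ℝ)) (C' ω) = ∑ ω : Fin M → Ω, Lev (cpE (Fin M) e) ω *
          (fun l : Fin M → A => if ∑ t, D (l t) ≤ K then ∑ t, u (l t) else 0)
            (fun t => C (ω t)) := Finset.sum_congr rfl (fun ω _ => by rw [hF ω])
      rw [e1, hcop]
      refine Finset.sum_congr rfl (fun ω _ => ?_)
      rw [hF ω]
      by_cases h7 : ∑ t, D (C (ω t)) ≤ K
      · simp only [if_pos h7]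
        ring
      · simp only [if_neg h7]
        ring
    have h1 := proj_var (Lev (cpE (Fin M) e)) C' u' hu' (fun o : Option (Fin M → A) => (match o with
        | none => 0
        | some l => ∑ t, u (l t) : ℝ)) hψ
    refine le_trans (le_of_eq ?_) h1
    refine Finset.sum_congr rfl (fun ω _ => ?_)
    refine Eq.trans ?_ (congrArg (fun z : ℝ => z ^ 2) (hF ω)).symm
    by_cases h7 : ∑ t, D (C (ω t)) ≤ K
    · simp only [if_pos h7]
    · simp only [if_neg h7]
      norm_num

/-- TYPICALITY: label dependent degrees can be replaced by their mean.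
Proof: choose `ε > 0` with `ρ (E D + ε) < V`, `K = ⌊(E D + ε) M⌋`; by `tail_le` for
`a ω = D (C ω) - E D` the bad event has probability `≤ c/M²` and `(Σ u)² ≤ M² umax²`, so the value
is `≥ M V - O(1)` (second moment: `sum_sq_copies`). -/
theorem typical {ι Ω A : Type} [Fintype ι] [DecidableEq ι] [Fintype Ω] [Nonempty Ω] [Fintype A]
    [DecidableEq A] {e : Ω ≃ (ι → Bool)} (C : Ω → A) (D : A → ℕ) (u : A → ℝ)
    (h : Sch e C D u) (ρ : ℝ) (hρ : 0 < ρ)
    (hV : ρ * ∑ ω, (D (C ω) : ℝ) < ∑ ω, u (C ω) ^ 2) : Ratio ρ := by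
  classical
  set N : ℝ := (Fintype.card Ω : ℝ) with hN
  have hN0 : 0 < N := by
    rw [hN]
    exact_mod_cast Fintype.card_pos
  set μ : ℝ := (∑ ω, (D (C ω) : ℝ)) / N with hμ
  set V : ℝ := (∑ ω, u (C ω) ^ 2) / N with hVd
  have hμ0 : 0 ≤ μ := div_nonneg (Finset.sum_nonneg fun _ _ => Nat.cast_nonneg _) hN0.le
  have hμN : μ * N = ∑ ω, (D (C ω) : ℝ) := div_mul_cancel₀ _ hN0.ne'
  have hVN : V * N = ∑ ω, u (C ω) ^ 2 := div_mul_cancel₀ _ hN0.ne'
  have hlt : ρ * μ < V := by
    rw [← hμN, ← hVN, ← mul_assoc] at hV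
    exact lt_of_mul_lt_mul_right hV hN0.le
  -- choice of ε
  set ε : ℝ := (V - ρ * μ) / (2 * ρ) with hε
  have hε0 : 0 < ε := div_pos (sub_pos.2 hlt) (by positivity)
  have hρε : ρ * ε = (V - ρ * μ) / 2 := by
    rw [hε]
    field_simp
  have hgap : 0 < V - ρ * (μ + ε) := by
    rw [mul_add, hρε]
    linarith
  -- bounds
  set a : Ω → ℝ := fun ω => (D (C ω) : ℝ) - μ with ha
  have ha0 : ∑ ω, a ω = 0 := by
    simp only [ha, Finset.sum_sub_distrib, Finset.sum_const, Finset.card_univ, nsmul_eq_mul]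
    rw [← hN, ← hμN]
    ring
  set Am : ℝ := ∑ ω, |a ω| with hAm
  have hA : ∀ ω, |a ω| ≤ Am := fun ω =>
    Finset.single_le_sum (f := fun ω => |a ω|) (fun _ _ => abs_nonneg _) (Finset.mem_univ ω)
  set Um : ℝ := ∑ ω, |u (C ω)| with hUm
  have hU : ∀ ω, |u (C ω)| ≤ Um := fun ω =>
    Finset.single_le_sum (f := fun ω => |u (C ω)|) (fun _ _ => abs_nonneg _) (Finset.mem_univ ω)
  have hUm0 : 0 ≤ Um := Finset.sum_nonneg fun _ _ => abs_nonneg _
  set c : ℝ := 3 * Am ^ 4 / ε ^ 4 * Um ^ 2 with hc
  have hc0 : 0 ≤ c := by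
    have : 0 ≤ Am := Finset.sum_nonneg fun _ _ => abs_nonneg _
    positivity
  -- choice of M
  obtain ⟨M1, hM1⟩ := exists_nat_ge (c / (V - ρ * (μ + ε)))
  obtain ⟨M2, hM2⟩ := exists_nat_ge (1 / (μ + ε))
  set M : ℕ := max (max M1 M2) 1 with hM
  have hMge1 : 1 ≤ M := le_max_right _ _
  have hMr : (1 : ℝ) ≤ (M : ℝ) := by exact_mod_cast hMge1
  have hMc : c ≤ (M : ℝ) * (V - ρ * (μ + ε)) := by
    have h1 : (M1 : ℝ) ≤ (M : ℝ) := by
      exact_mod_cast le_trans (le_max_left M1 M2) (le_max_left _ _)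
    rw [div_le_iff₀ hgap] at hM1
    exact hM1.trans (mul_le_mul_of_nonneg_right h1 hgap.le)
  have hμε : 0 < μ + ε := by linarith
  have hMμ : 1 ≤ (μ + ε) * (M : ℝ) := by
    have h1 : (M2 : ℝ) ≤ (M : ℝ) := by
      exact_mod_cast le_trans (le_max_right M1 M2) (le_max_left _ _)
    rw [div_le_iff₀ hμε] at hM2
    calc (1 : ℝ) ≤ (M2 : ℝ) * (μ + ε) := hM2
      _ ≤ (M : ℝ) * (μ + ε) := mul_le_mul_of_nonneg_right h1 hμε.le
      _ = _ := mul_comm _ _
  set K : ℕ := ⌊(μ + ε) * (M : ℝ)⌋₊ with hK
  have hK1 : 1 ≤ K := by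
    rw [hK]
    exact Nat.le_floor (by exact_mod_cast hMμ)
  have hKle : (K : ℝ) ≤ (μ + ε) * (M : ℝ) := Nat.floor_le (by positivity)
  obtain ⟨C', u', hS, hval⟩ := sch_typ C D u h M K
  refine ⟨Fin M × ι, Fin M → Ω, Option (Fin M → A), inferInstance, inferInstance, inferInstance,
    inferInstance, inferInstance, inferInstance, cpE (Fin M) e, C', K, u', hK1, ?_, ?_⟩
  · convert hS
  · have hcard : (Fintype.card (Fin M → Ω) : ℝ) = N ^ M := by
      rw [Fintype.card_fun, Fintype.card_fin]
      push_cast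
      rfl
    have hNM : 0 < N ^ M := pow_pos hN0 M
    rw [hcard, le_div_iff₀ hNM]
    refine le_trans ?_ hval
    -- second moment
    have h2 : ∑ ω : Fin M → Ω, (∑ t, u (C (ω t))) ^ 2 = M * V * N ^ M := by
      have h3 := sum_sq_copies (fun ω => u (C ω)) (sch_mean C D u h) M
      rw [← Finset.sum_mul, ← hN, ← hVN] at h3
      have h4 : (∑ ω : Fin M → Ω, (∑ t, u (C (ω t))) ^ 2) * N = (M * V * N ^ M) * N := by
        rw [h3]
        ring
      exact mul_right_cancel₀ hN0.ne' h4
    -- tail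
    have h5 := tail_le a ha0 Am hA ε hε0 M hMge1
    rw [← hN] at h5
    have h6 : ∀ ω : Fin M → Ω, (∑ t, u (C (ω t))) ^ 2 ≤ ((M : ℝ) * Um) ^ 2 := by
      intro ω
      rw [← sq_abs]
      refine pow_le_pow_left₀ (abs_nonneg _) ?_ 2
      calc |∑ t, u (C (ω t))| ≤ ∑ t, |u (C (ω t))| := Finset.abs_sum_le_sum_abs _ _
        _ ≤ ∑ _t : Fin M, Um := Finset.sum_le_sum fun t _ => hU (ω t)
        _ = (M : ℝ) * Um := by
            rw [Finset.sum_const, Finset.card_univ, Fintype.card_fin, nsmul_eq_mul]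
    have h7 : ∑ ω : Fin M → Ω, (∑ t, u (C (ω t))) ^ 2 ≤
        ∑ ω : Fin M → Ω, (if ∑ t, D (C (ω t)) ≤ K then (∑ t, u (C (ω t))) ^ 2 else 0) +
        ((univ.filter fun ω : Fin M → Ω => ε * M < ∑ t, a (ω t)).card : ℝ) *
          ((M : ℝ) * Um) ^ 2 := by
      rw [← nsmul_eq_mul, ← Finset.sum_const, Finset.sum_filter, ← Finset.sum_add_distrib]
      refine Finset.sum_le_sum fun ω _ => ?_
      by_cases hg : ∑ t, D (C (ω t)) ≤ K
      · rw [if_pos hg]
        have : 0 ≤ (if ε * (M : ℝ) < ∑ t, a (ω t) then ((M : ℝ) * Um) ^ 2 else 0) := by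
          split_ifs
          · positivity
          · exact le_rfl
        linarith
      · rw [if_neg hg, zero_add, if_pos]
        · exact h6 ω
        · have h8 : (μ + ε) * (M : ℝ) < ((∑ t, D (C (ω t)) : ℕ) : ℝ) := by
            have h9 : K < ∑ t, D (C (ω t)) := not_le.1 hg
            rw [hK] at h9
            exact (Nat.floor_lt (by positivity)).1 h9
          simp only [ha, Finset.sum_sub_distrib, Finset.sum_const, Finset.card_univ,
            Fintype.card_fin, nsmul_eq_mul]
          push_cast at h8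
          linarith
    have h8 : ((univ.filter fun ω : Fin M → Ω => ε * M < ∑ t, a (ω t)).card : ℝ) *
          ((M : ℝ) * Um) ^ 2 ≤ c * N ^ M := by
      calc ((univ.filter fun ω : Fin M → Ω => ε * M < ∑ t, a (ω t)).card : ℝ) *
          ((M : ℝ) * Um) ^ 2 ≤ (3 * Am ^ 4 / (ε ^ 4 * (M : ℝ) ^ 2) * N ^ M) *
            ((M : ℝ) * Um) ^ 2 := mul_le_mul_of_nonneg_right h5 (by positivity)
        _ = c * N ^ M := by
            rw [hc]
            have hM0 : (M : ℝ) ≠ 0 := by positivity
            field_simp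
    have h10 : ρ * (K : ℝ) * N ^ M ≤ (M * V - c) * N ^ M := by
      refine mul_le_mul_of_nonneg_right ?_ hNM.le
      have := mul_le_mul_of_nonneg_left hKle hρ.le
      linarith
    rw [h2] at h7
    linarith

end Crest.Agent.R63
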