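import Crest.Agent.R63.AS2
import Crest.Agent.R63.AClt

/-! ROW 63, module A, piece R63_AS4: the block scheme. -/

set_option autoImplicit false
open Finset

namespace Crest.Agent.R63

/-- block of `m` symbols; label `none` on the set `c = 1`, full labels elsewhere -/
theorem sch_block {ι Ω A : Type} [Fintype ι] [DecidableEq ι] [Fintype Ω] [Fintype A]
    [DecidableEq A] {e : Ω ≃ (ι → Bool)} (C : Ω → A) (d : ℕ) (u : A → ℝ)
    (h : Sch e C (fun _ => d) u) (m f : ℕ) (hf : f ≤ m) (c : (Fin m → A) → ℝ)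
    (hc : ∀ x, c x = 0 ∨ c x = 1) (hI : Finset (Fin m) → (Fin m → A) → ℝ)
    (hdep : ∀ I x y, (∀ i ∈ I, x i = y i) → hI I x = hI I y)
    (hsum : ∀ x, c x = ∑ I ∈ powersetCard (m - f) univ, hI I x) :
    ∃ (C' : (Fin m → Ω) → Option (Fin m → A)) (D' : Option (Fin m → A) → ℕ)
      (u' : Option (Fin m → A) → ℝ),
      Sch (cpE (Fin m) e) C' D' u' ∧
      (∀ ω, (D' (C' ω) : ℝ) = m * d - f * d * c (fun i => C (ω i))) ∧
      ∑ ω : Fin m → Ω, (1 - c (fun i => C (ω i))) * (∑ i, u (C (ω i))) ^ 2 ≤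
        ∑ ω, u' (C' ω) ^ 2 := by
  classical
  -- the label
  let lb : (Fin m → Ω) → (Fin m → A) := fun ω i => C (ω i)
  let C' : (Fin m → Ω) → Option (Fin m → A) := fun ω => if c (lb ω) = 1 then none else some (lb ω)
  let D' : Option (Fin m → A) → ℕ := fun a => Option.elim a ((m - f) * d) (fun _ => m * d)
  obtain ⟨u', hu'⟩ := exists_proj (Lev (cpE (Fin m) e)) C'
  refine ⟨C', D', u', ⟨?_, hu'⟩, ?_, ?_⟩
  · intro a
    cases a with
    | none =>
      have h1 : (fun ω : Fin m → Ω => if C' ω = none then (1 : ℝ) else 0) =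
          fun ω => ∑ I ∈ powersetCard (m - f) univ, hI I (lb ω) := by
        funext ω
        rw [← hsum]
        rcases hc (lb ω) with h0 | h0
        · simp [C', h0]
        · simp [C', h0]
      rw [h1]
      apply degLE_sum
      intro I hIm
      have h2 := degLE_labels (e := e) C d h.deg I (hI I) (hdep I)
      rw [(mem_powersetCard.1 hIm).2] at h2
      exact h2
    | some ℓ =>
      have h1 : (fun ω : Fin m → Ω => if C' ω = some ℓ then (1 : ℝ) else 0) =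
          fun ω => (fun x : Fin m → A => if c x ≠ 1 ∧ x = ℓ then (1 : ℝ) else 0) (lb ω) := by
        funext ω
        by_cases h0 : c (lb ω) = 1
        · simp [C', h0]
        · simp [C', h0]
      rw [h1]
      have h2 := degLE_labels (e := e) C d h.deg (univ : Finset (Fin m))
        (fun x : Fin m → A => if c x ≠ 1 ∧ x = ℓ then (1 : ℝ) else 0)
        (fun x y hxy => by
          have : x = y := funext fun k => hxy k (mem_univ k)
          rw [this])
      rw [card_univ, Fintype.card_fin] at h2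
      exact h2
  · intro ω
    change (D' (C' ω) : ℝ) = m * d - f * d * c (lb ω)
    rcases hc (lb ω) with h0 | h0
    · simp [C', D', h0]
    · simp only [C', D', h0, if_true, Option.elim]
      push_cast [Nat.cast_sub hf]
      ring
  · let ψ : Option (Fin m → A) → ℝ := fun a => Option.elim a 0 (fun ℓ => ∑ i, u (ℓ i))
    have hψC : ∀ ω, ψ (C' ω) = (fun x : Fin m → A => (1 - c x) * ∑ i, u (x i)) (lb ω) := by
      intro ω
      rcases hc (lb ω) with h0 | h0
      · simp [C', ψ, h0]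
      · simp [C', ψ, h0]
    have hsq : ∀ ω, ψ (C' ω) ^ 2 = (1 - c (lb ω)) * (∑ i, u (lb ω i)) ^ 2 := by
      intro ω
      rw [hψC]
      rcases hc (lb ω) with h0 | h0 <;> simp [h0]
    have hpc := proj_copies (e := e) C u h.proj (κ := Fin m)
      (fun x : Fin m → A => (1 - c x) * ∑ i, u (x i))
    have hψ : ∑ ω, Lev (cpE (Fin m) e) ω * ψ (C' ω) = ∑ ω, ψ (C' ω) ^ 2 := by
      calc ∑ ω, Lev (cpE (Fin m) e) ω * ψ (C' ω)
          = ∑ ω : Fin m → Ω, Lev (cpE (Fin m) e) ω *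
            (fun x : Fin m → A => (1 - c x) * ∑ i, u (x i)) (fun k => C (ω k)) := by
            refine sum_congr rfl fun ω _ => ?_
            rw [hψC ω]
        _ = ∑ ω : Fin m → Ω, (∑ k, u (C (ω k))) *
            (fun x : Fin m → A => (1 - c x) * ∑ i, u (x i)) (fun k => C (ω k)) := hpc
        _ = ∑ ω, ψ (C' ω) ^ 2 := by
            refine sum_congr rfl fun ω _ => ?_
            rw [hsq ω]
            change (∑ k, u (lb ω k)) * ((1 - c (lb ω)) * ∑ i, u (lb ω i)) = _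
            ring
    have := proj_var (Lev (cpE (Fin m) e)) C' u' hu' ψ hψ
    calc ∑ ω : Fin m → Ω, (1 - c (fun i => C (ω i))) * (∑ i, u (C (ω i))) ^ 2
        = ∑ ω, ψ (C' ω) ^ 2 := by
          refine sum_congr rfl fun ω _ => ?_
          rw [hsq ω]
      _ ≤ _ := this

set_option maxHeartbeats 1600000 in
/-- one amplification step, before typicality -/
theorem step_pre {Γ : Type} [Fintype Γ] [DecidableEq Γ] (Qz : ℝ → Γ)
    (hQ : ∀ a, MeasurableSet (Qz ⁻¹' {a}) ∧ (frontier (Qz ⁻¹' {a})).Finite) (m f : ℕ)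
    (hm : 1 ≤ m) (hf : f ≤ m) (c : (Fin m → Γ) → ℝ) (hc : ∀ x, c x = 0 ∨ c x = 1)
    (hI : Finset (Fin m) → (Fin m → Γ) → ℝ)
    (hdep : ∀ I x y, (∀ i ∈ I, x i = y i) → hI I x = hI I y)
    (hsum : ∀ x, c x = ∑ I ∈ powersetCard (m - f) univ, hI I x)
    (hpos : 0 < ∑ x, phi m f Qz x * c x) (ρ : ℝ) (hρ : 0 < ρ) (hR : Ratio ρ) :
    ∃ (ι Ω A : Type) (_ : Fintype ι) (_ : DecidableEq ι) (_ : Fintype Ω) (_ : Nonempty Ω)
      (_ : Fintype A) (_ : DecidableEq A) (e : Ω ≃ (ι → Bool)) (C : Ω → A) (D : A → ℕ)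
      (u : A → ℝ), Sch e C D u ∧
      ρ * (1 + (∑ x, phi m f Qz x * c x) / (4 * m)) * ∑ ω, (D (C ω) : ℝ) <
        ∑ ω, u (C ω) ^ 2 := by
  obtain ⟨ι, Ω, A, i1, i2, i3, i4, i5, i6, e, C, d, u, hd, hS, hV⟩ := hR
  set Φ : ℝ := ∑ x, phi m f Qz x * c x with hΦ
  have hKpos : (0 : ℝ) < (Fintype.card Ω : ℝ) := by exact_mod_cast Fintype.card_pos
  set V : ℝ := (∑ ω, u (C ω) ^ 2) / (Fintype.card Ω : ℝ) with hVdef
  have hdpos : (0 : ℝ) < d := by exact_mod_cast hd
  have hVpos : 0 < V := lt_of_lt_of_le (by positivity) hV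
  have h0 : ∑ ω, u (C ω) = 0 := sch_mean C (fun _ => d) u hS
  have h2 : ∑ ω, u (C ω) ^ 2 = V * (Fintype.card Ω : ℝ) := by
    rw [hVdef, div_mul_cancel₀ _ hKpos.ne']
  obtain ⟨B, hB1, hB⟩ := exists_B Qz hQ m f c hpos (fun ω => u (C ω)) V hVpos h0 h2
  have hBpos : (0 : ℝ) < B := by exact_mod_cast hB1
  have hSc := sch_copies C d u hS (Fin B)
  obtain ⟨C2, D2, u2, hS2, hD2, hu2⟩ := sch_block (fun (ω : Fin B → Ω) k => C (ω k))
    (Fintype.card (Fin B) * d) (fun ℓ => ∑ k, u (ℓ k)) hSc m f hf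
    (fun x => c (fun i => Qz ((∑ b, u (x i b)) / Real.sqrt (B * V)))) (fun x => hc _)
    (fun I x => hI I (fun i => Qz ((∑ b, u (x i b)) / Real.sqrt (B * V))))
    (fun I x y h => hdep I _ _ (fun i hi => by rw [h i hi])) (fun x => hsum _)
  refine ⟨_, Fin m → Fin B → Ω, Option (Fin m → Fin B → A), inferInstance, inferInstance,
    inferInstance, inferInstance, inferInstance, inferInstance, cpE (Fin m) (cpE (Fin B) e),
    C2, D2, u2, hS2, ?_⟩
  simp only [Fintype.card_fin] at hD2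
  set cw : (Fin m → Fin B → Ω) → ℝ := fun ω =>
    c (fun i => Qz ((∑ b, u (C (ω i b))) / Real.sqrt (B * V))) with hcw
  set Sw : (Fin m → Fin B → Ω) → ℝ := fun ω => ∑ i, ∑ b, u (C (ω i b)) with hSw
  set N : ℝ := (Fintype.card Ω : ℝ) ^ (m * B) with hN
  have hNpos : 0 < N := by positivity
  have hcardN : (Fintype.card (Fin m → Fin B → Ω) : ℝ) = N := by
    rw [Fintype.card_fun, Fintype.card_fun, Fintype.card_fin, Fintype.card_fin, hN]
    push_cast
    rw [← pow_mul, mul_comm]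
  -- total cost
  have hcost : ∑ ω, (D2 (C2 ω) : ℝ) = B * d * (m * N - f * ∑ ω, cw ω) := by
    rw [Finset.sum_congr rfl fun ω _ => hD2 ω]
    rw [Finset.sum_sub_distrib, Finset.sum_const, Finset.card_univ, nsmul_eq_mul, hcardN,
      ← Finset.mul_sum]
    push_cast
    ring
  -- second moment
  have h0' : ∑ ω : Fin B → Ω, ∑ b, u (C (ω b)) = 0 :=
    sch_mean (fun (ω : Fin B → Ω) k => C (ω k)) (fun _ => Fintype.card (Fin B) * d)
      (fun ℓ : Fin B → A => ∑ k, u (ℓ k)) hSc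
  have hU2 : ∑ ω : Fin B → Ω, (∑ b, u (C (ω b))) ^ 2 = B * V * (Fintype.card Ω : ℝ) ^ B := by
    have h := sum_sq_copies (fun ω => u (C ω)) h0 B
    rw [← Finset.sum_mul, h2] at h
    have h' : (∑ ω : Fin B → Ω, (∑ b, u (C (ω b))) ^ 2) * (Fintype.card Ω : ℝ) =
        (B * V * (Fintype.card Ω : ℝ) ^ B) * (Fintype.card Ω : ℝ) := by
      rw [h]; ring
    exact mul_right_cancel₀ hKpos.ne' h'
  have hS2m : ∑ ω : Fin m → Fin B → Ω, Sw ω ^ 2 = m * B * V * N := by
    have h := sum_sq_copies (fun ω : Fin B → Ω => ∑ b, u (C (ω b))) h0' m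
    have hcK : (Fintype.card (Fin B → Ω) : ℝ) = (Fintype.card Ω : ℝ) ^ B := by
      rw [Fintype.card_fun, Fintype.card_fin]; push_cast; rfl
    rw [← Finset.sum_mul, hU2, hcK] at h
    have hKB : (0 : ℝ) < (Fintype.card Ω : ℝ) ^ B := by positivity
    have h' : (∑ ω : Fin m → Fin B → Ω, Sw ω ^ 2) * (Fintype.card Ω : ℝ) ^ B =
        (m * B * V * N) * (Fintype.card Ω : ℝ) ^ B := by
      rw [hSw]
      rw [h, hN, mul_comm m B, pow_mul]; ring
    exact mul_right_cancel₀ hKB.ne' h'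
  -- lower bound of the value
  have hBV : 0 < (B : ℝ) * V := by positivity
  have hsq : Real.sqrt (B * V) ^ 2 = B * V := Real.sq_sqrt hBV.le
  have hsqpos : 0 < Real.sqrt (B * V) := Real.sqrt_pos.2 hBV
  have hT : ∀ ω : Fin m → Fin B → Ω,
      (∑ i, (∑ b, u (C (ω i b))) / Real.sqrt (B * V)) ^ 2 = Sw ω ^ 2 / (B * V) := by
    intro ω
    rw [← Finset.sum_div, div_pow, hsq]
  have hBnd : Φ / 2 * N ≤ f * ∑ ω, cw ω - (∑ ω, Sw ω ^ 2 * cw ω) / (B * V) := by
    rw [le_div_iff₀ hNpos] at hB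
    refine hB.trans (le_of_eq ?_)
    rw [Finset.mul_sum, Finset.sum_div, ← Finset.sum_sub_distrib]
    refine Finset.sum_congr rfl fun ω _ => ?_
    rw [hT ω]
    ring
  have hval : B * V * (m * N) - ∑ ω, Sw ω ^ 2 * cw ω ≤ ∑ ω, u2 (C2 ω) ^ 2 := by
    refine le_trans (le_of_eq ?_) hu2
    have : ∀ ω : Fin m → Fin B → Ω, (1 - cw ω) * Sw ω ^ 2 = Sw ω ^ 2 - Sw ω ^ 2 * cw ω := by
      intro ω; ring
    rw [Finset.sum_congr rfl fun ω _ => this ω, Finset.sum_sub_distrib, hS2m]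
    ring
  have hcle : ∑ ω, cw ω ≤ N := by
    rw [← hcardN]
    calc ∑ ω, cw ω ≤ ∑ _ω : Fin m → Fin B → Ω, (1 : ℝ) := by
          refine Finset.sum_le_sum fun ω _ => ?_
          rcases hc (fun i => Qz ((∑ b, u (C (ω i b))) / Real.sqrt (B * V))) with h | h
          · rw [hcw]; simp only; rw [h]; norm_num
          · rw [hcw]; simp only; rw [h]
      _ = _ := by rw [Finset.sum_const, Finset.card_univ, nsmul_eq_mul, mul_one]
  have hc0 : 0 ≤ ∑ ω, cw ω := by
    refine Finset.sum_nonneg fun ω _ => ?_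
    rcases hc (fun i => Qz ((∑ b, u (C (ω i b))) / Real.sqrt (B * V))) with h | h
    · rw [hcw]; simp only; rw [h]
    · rw [hcw]; simp only; rw [h]; norm_num
  have hmpos : (0 : ℝ) < m := by exact_mod_cast hm
  have hfm : (f : ℝ) ≤ m := by exact_mod_cast hf
  set Z : ℝ := m * N - f * ∑ ω, cw ω with hZ
  have hZ0 : 0 ≤ Z := by
    have h1 : (f : ℝ) * ∑ ω, cw ω ≤ m * N := mul_le_mul hfm hcle hc0 hmpos.le
    linarith
  have hZm : Z ≤ m * N := by
    have : 0 ≤ (f : ℝ) * ∑ ω, cw ω := mul_nonneg (Nat.cast_nonneg _) hc0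
    linarith
  have hSc' : ∑ ω, Sw ω ^ 2 * cw ω ≤ B * V * (m * N - Z - Φ / 2 * N) := by
    have h1 : (∑ ω, Sw ω ^ 2 * cw ω) / (B * V) ≤ m * N - Z - Φ / 2 * N := by
      rw [hZ]; linarith
    rwa [div_le_iff₀ hBV, mul_comm] at h1
  have hfin : B * V * (Z + Φ / 2 * N) ≤ ∑ ω, u2 (C2 ω) ^ 2 := by nlinarith [hval, hSc']
  refine lt_of_lt_of_le ?_ hfin
  rw [hcost]
  have h4 : ρ * (1 + Φ / (4 * m)) * (B * d * Z) ≤ B * V * ((1 + Φ / (4 * m)) * Z) := by
    have h5 : 0 ≤ (1 + Φ / (4 * m)) * Z := by positivity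
    have h6 : ρ * (1 + Φ / (4 * m)) * (B * d * Z) = B * (ρ * d) * ((1 + Φ / (4 * m)) * Z) := by ring
    rw [h6]
    exact mul_le_mul_of_nonneg_right (mul_le_mul_of_nonneg_left hV hBpos.le) h5
  refine lt_of_le_of_lt h4 ?_
  refine mul_lt_mul_of_pos_left ?_ hBV
  have h7 : Φ / (4 * m) * Z ≤ Φ / 4 * N := by
    calc Φ / (4 * m) * Z ≤ Φ / (4 * m) * (m * N) := mul_le_mul_of_nonneg_left hZm (by positivity)
      _ = Φ / 4 * N := by field_simp
  have h8 : 0 < Φ * N := mul_pos hpos hNpos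
  nlinarith

end Crest.Agent.R63
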