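import Crest.Agent.R63.AS2
import Crest.Agent.R63.AProb

/-! ROW 63, module A, pieces R63_AS5a (start), AS5b (final sign function). -/

set_option autoImplicit false
open Finset

namespace Crest.Agent.R63

/-- one bit -/
theorem ratio_one : Ratio 1 := by
  refine ⟨Fin 1, Fin 1 → Bool, Bool, inferInstance, inferInstance, inferInstance, inferInstance,
    inferInstance, inferInstance, Equiv.refl _, fun w => w 0, 1,
    fun a => if a then 1 else -1, le_rfl, ⟨?_, ?_⟩, ?_⟩
  · intro a
    refine ⟨fun S => if S.card = 0 then 1 / 2 else (if a then 1 / 2 else -1 / 2) *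
      (if S.card = 1 then 1 else 0), ?_, ?_⟩
    · intro S hS
      have h0 : S.card ≠ 0 := by omega
      have h1 : S.card ≠ 1 := by omega
      simp only [h0, h1, if_false, mul_zero]
    · intro ω
      have hu : (univ : Finset (Finset (Fin 1))) = {∅, {0}} := by decide
      rw [hu, sum_insert (by decide), sum_singleton]
      simp only [card_empty, card_singleton, prod_empty, prod_singleton, sgE, Equiv.refl_apply]
      have hb : ∀ b : Bool, b = true ∨ b = false := by decide
      rcases hb (ω 0) with h | h <;> rcases hb a with h' | h' <;> simp [h, h'] <;> norm_num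
  · intro a
    refine sum_eq_zero fun ω _ => ?_
    by_cases h : ω 0 = a
    · rw [if_pos h, ← h]
      simp only [Lev, sgE, Equiv.refl_apply, univ_unique, Fin.default_eq_zero, Fin.isValue,
        sum_singleton]
      exact sub_self _
    · rw [if_neg h]
  · have h1 : ∀ ω : Fin 1 → Bool, (if ω 0 = true then (1 : ℝ) else -1) ^ 2 = 1 := by
      intro ω
      split_ifs <;> norm_num
    simp only [h1]
    simp

/-- transport of a `±1` function of degree `≤ d` on `Ω ≃ (ι → Bool)` to the target -/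
theorem target_of_sign {ι Ω : Type} [Fintype ι] [DecidableEq ι] [Fintype Ω]
    (e : Ω ≃ (ι → Bool)) (d : ℕ) (g : Ω → Bool) (hne : ∃ x y, g x ≠ g y)
    (hd : DegLE e d (fun ω => if g ω then 1 else -1)) (C : ℝ)
    (hC : C * Real.sqrt d * (Fintype.card Ω : ℝ) <
      ∑ ω, (if g ω then (1 : ℝ) else -1) * Lev e ω) : Target C := by
  classical
  set n := Fintype.card ι with hn
  set q : ι ≃ Fin n := Fintype.equivFin ι with hq
  -- the equivalence `Ω ≃ (Fin n → Bool)`
  set E : Ω ≃ (Fin n → Bool) := e.trans (Equiv.arrowCongr q (Equiv.refl Bool)) with hE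
  have hEap : ∀ ω i, E ω i = e ω (q.symm i) := fun ω i => rfl
  have hcard : (Fintype.card Ω : ℝ) = 2 ^ n := by
    have h1 : Fintype.card Ω = Fintype.card (Fin n → Bool) := Fintype.card_congr E
    rw [h1, Fintype.card_fun, Fintype.card_bool, Fintype.card_fin]
    push_cast
    rfl
  refine ⟨n, fun x => g (E.symm x), d, ?_, ?_, ?_⟩
  · obtain ⟨x, y, hxy⟩ := hne
    exact ⟨E x, E y, by simpa using hxy⟩
  · intro S hS
    rw [← E.sum_comp]
    have h := degLE_fourier hd (S.map q.symm.toEmbedding) (by rwa [card_map])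
    refine Eq.trans (sum_congr rfl fun ω _ => ?_) h
    rw [prod_map]
    simp only [Equiv.symm_apply_apply, hEap, Equiv.coe_toEmbedding, sgE]
  · have h2 : (0 : ℝ) < 2 ^ n := by positivity
    rw [← sum_div, lt_div_iff₀ h2, ← hcard]
    refine hC.trans_le (le_of_eq ?_)
    rw [sum_comm' (t' := univ) (s' := fun _ => univ) (by simp)]
    rw [← E.sum_comp]
    refine sum_congr rfl fun ω _ => ?_
    rw [← mul_sum]
    simp only [Equiv.symm_apply_apply]
    congr 1
    unfold Lev
    rw [← q.symm.sum_comp]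
    refine sum_congr rfl fun i _ => ?_
    simp only [sgE, hEap]

/-- final step: `sign (Σ u)` over `B` copies -/
theorem target_of_ratio (C ρ : ℝ) (hC : 0 < C) (hρ : 4 * C ^ 2 < ρ) (h : Ratio ρ) : Target C := by
  classical
  obtain ⟨ι, Ω, A, i1, i2, i3, i4, i5, i6, e, Cl, d, u, hd, hS, hV⟩ := h
  have hn : (0 : ℝ) < Fintype.card Ω := by exact_mod_cast Fintype.card_pos
  set V : ℝ := (∑ ω, u (Cl ω) ^ 2) / (Fintype.card Ω : ℝ) with hVdef
  have hdp : (1 : ℝ) ≤ d := by exact_mod_cast hd
  have hρ0 : 0 < ρ := by nlinarith [sq_nonneg C]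
  have hVp : 0 < V := lt_of_lt_of_le (by positivity) hV
  have hmean : ∑ ω, u (Cl ω) = 0 := sch_mean Cl (fun _ => d) u hS
  obtain ⟨B, hB1, hB⟩ := abs_lower (fun ω => u (Cl ω)) V hVp hmean (by rw [hVdef]; field_simp)
  have hB' := hB B le_rfl
  have hBp : (1 : ℝ) ≤ B := by exact_mod_cast hB1
  set F : (Fin B → A) → ℝ := fun x => if 0 ≤ ∑ k, u (x k) then 1 else -1 with hF
  set g : (Fin B → Ω) → Bool := fun w => decide (0 ≤ ∑ b, u (Cl (w b))) with hg
  have hgF : ∀ ω : Fin B → Ω, (if g ω then (1 : ℝ) else -1) = F (fun k => Cl (ω k)) := by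
    intro ω
    simp only [hg, hF, decide_eq_true_eq]
  have habs : ∀ ω : Fin B → Ω, (∑ k, u (Cl (ω k))) * F (fun k => Cl (ω k)) = |∑ k, u (Cl (ω k))| := by
    intro ω
    simp only [hF]
    split_ifs with h0
    · rw [mul_one, abs_of_nonneg h0]
    · rw [abs_of_neg (not_le.mp h0)]; ring
  have hmeanB : ∑ ω : Fin B → Ω, (∑ k, u (Cl (ω k))) = 0 :=
    sch_mean (fun (ω : Fin B → Ω) k => Cl (ω k)) (fun _ : Fin B → A => Fintype.card (Fin B) * d)
      (fun ℓ => ∑ k, u (ℓ k)) (sch_copies Cl d u hS (Fin B))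
  have hkey : C * Real.sqrt ((B * d : ℕ) : ℝ) * (Fintype.card (Fin B → Ω) : ℝ) <
      ∑ ω : Fin B → Ω, |∑ b, u (Cl (ω b))| := by
    refine lt_of_lt_of_le ?_ hB'
    have hcard : (Fintype.card (Fin B → Ω) : ℝ) = (Fintype.card Ω : ℝ) ^ B := by
      rw [Fintype.card_fun, Fintype.card_fin]; push_cast; rfl
    rw [hcard]
    refine mul_lt_mul_of_pos_right ?_ (pow_pos hn B)
    have h1 : 2 * (C * Real.sqrt ((B * d : ℕ) : ℝ)) < Real.sqrt (B * V) := by
      refine Real.lt_sqrt_of_sq_lt ?_
      have h2 : (2 * (C * Real.sqrt ((B * d : ℕ) : ℝ))) ^ 2 = 4 * C ^ 2 * ((B : ℝ) * d) := by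
        rw [mul_pow, mul_pow, Real.sq_sqrt (by positivity)]
        push_cast
        ring
      rw [h2]
      have h3 : 4 * C ^ 2 * ((B : ℝ) * d) < ρ * ((B : ℝ) * d) :=
        mul_lt_mul_of_pos_right hρ (by positivity)
      have h4 : (B : ℝ) * (ρ * d) ≤ B * V := mul_le_mul_of_nonneg_left hV (by positivity)
      linarith
    linarith
  have hpos : 0 < ∑ ω : Fin B → Ω, |∑ b, u (Cl (ω b))| :=
    lt_of_le_of_lt (by positivity) hkey
  refine target_of_sign (cpE (Fin B) e) (B * d) g ?_ ?_ C ?_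
  · by_contra hcon
    push Not at hcon
    obtain ⟨x0⟩ : Nonempty (Fin B → Ω) := inferInstance
    have hconst : ∀ ω : Fin B → Ω, F (fun k => Cl (ω k)) = F (fun k => Cl (x0 k)) := by
      intro ω
      rw [← hgF, ← hgF, hcon ω x0]
    have h0 : ∑ ω : Fin B → Ω, |∑ b, u (Cl (ω b))| = 0 := by
      calc ∑ ω : Fin B → Ω, |∑ b, u (Cl (ω b))|
          = ∑ ω : Fin B → Ω, (∑ k, u (Cl (ω k))) * F (fun k => Cl (x0 k)) := by
            refine Finset.sum_congr rfl fun ω _ => ?_
            rw [← habs, hconst]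
        _ = 0 := by rw [← Finset.sum_mul, hmeanB, zero_mul]
    linarith
  · have h1 := degLE_labels (e := e) (κ := Fin B) Cl d hS.deg Finset.univ F
      (fun x y hxy => by rw [show x = y from funext fun k => hxy k (Finset.mem_univ k)])
    rw [Finset.card_univ, Fintype.card_fin] at h1
    simp only [hgF]
    exact h1
  · have h1 := proj_copies Cl u hS.proj (κ := Fin B) F
    have h2 : ∑ ω : Fin B → Ω, (if g ω then (1 : ℝ) else -1) * Lev (cpE (Fin B) e) ω
        = ∑ ω : Fin B → Ω, |∑ b, u (Cl (ω b))| := by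
      calc ∑ ω : Fin B → Ω, (if g ω then (1 : ℝ) else -1) * Lev (cpE (Fin B) e) ω
          = ∑ ω : Fin B → Ω, Lev (cpE (Fin B) e) ω * F (fun k => Cl (ω k)) := by
            refine Finset.sum_congr rfl fun ω _ => ?_
            rw [hgF, mul_comm]
        _ = _ := by
            rw [h1]
            exact Finset.sum_congr rfl fun ω _ => habs ω
    rw [h2]
    exact hkey

end Crest.Agent.R63
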