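import Crest.Agent.R63.Defs

/-! ROW 63, module A, scheme part: definitions. -/

set_option autoImplicit false
open Finset

namespace Crest.Agent.R63

/-- coordinate sign of `Ω ≃ (ι → Bool)` -/
noncomputable def sgE {ι Ω : Type} (e : Ω ≃ (ι → Bool)) (i : ι) (ω : Ω) : ℝ :=
  if e ω i then 1 else -1

/-- `Σ_i sign_i` -/
noncomputable def Lev {ι Ω : Type} [Fintype ι] (e : Ω ≃ (ι → Bool)) (ω : Ω) : ℝ := ∑ i, sgE e i ω

/-- degree at most `d`: combination of characters `χ_S`, `|S| ≤ d` -/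
def DegLE {ι Ω : Type} [Fintype ι] [DecidableEq ι] (e : Ω ≃ (ι → Bool)) (d : ℕ) (g : Ω → ℝ) :
    Prop :=
  ∃ co : Finset ι → ℝ, (∀ S, d < S.card → co S = 0) ∧
    ∀ ω, g ω = ∑ S, co S * ∏ i ∈ S, sgE e i ω

/-- the equivalence for `κ` copies -/
def cpE {ι Ω : Type} (κ : Type) (e : Ω ≃ (ι → Bool)) : (κ → Ω) ≃ (κ × ι → Bool) :=
  (Equiv.piCongrRight fun _ => e).trans (Equiv.curry κ ι Bool).symm

/-- a scheme with label dependent degrees: label `C`, degree bound `D`, `u = E[Lev | C]` -/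
structure Sch {ι Ω A : Type} [Fintype ι] [DecidableEq ι] [Fintype Ω] [DecidableEq A]
    (e : Ω ≃ (ι → Bool)) (C : Ω → A) (D : A → ℕ) (u : A → ℝ) : Prop where
  deg : ∀ a, DegLE e (D a) (fun ω => if C ω = a then 1 else 0)
  proj : ∀ a, ∑ ω, (if C ω = a then Lev e ω - u a else 0) = 0

/-- there is a scheme of constant degree `d ≥ 1` and value `≥ ρ d` -/
def Ratio (ρ : ℝ) : Prop :=
  ∃ (ι Ω A : Type) (_ : Fintype ι) (_ : DecidableEq ι) (_ : Fintype Ω) (_ : Nonempty Ω)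
    (_ : Fintype A) (_ : DecidableEq A) (e : Ω ≃ (ι → Bool)) (C : Ω → A) (d : ℕ) (u : A → ℝ),
    1 ≤ d ∧ Sch e C (fun _ => d) u ∧
      ρ * d ≤ (∑ ω, u (C ω) ^ 2) / (Fintype.card Ω : ℝ)

end Crest.Agent.R63
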