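import Crest.Agent.R63.AS3
import Crest.Agent.R63.AS4
import Crest.Agent.R63.AS5

/-! ROW 63, module A: assembly of `amplify`. -/

set_option autoImplicit false
open Finset

namespace Crest.Agent.R63

theorem amplify_main (h : Good) (C : ℝ) (hC : 0 < C) : Target C := by
  obtain ⟨Γ, iΓ, dΓ, Qz, m, f, c, hQ, hm, hf, hc, ⟨hI, hdep, hsum⟩, hpos⟩ := h
  set δ : ℝ := (∑ x, phi m f Qz x * c x) / (4 * m) with hδ
  have hmp : (0 : ℝ) < m := by exact_mod_cast hm
  have hδp : 0 < δ := by rw [hδ]; positivity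
  have hstep : ∀ ρ : ℝ, 0 < ρ → Ratio ρ → Ratio (ρ * (1 + δ)) := by
    intro ρ hρ hR
    obtain ⟨ι, Ω, A, i1, i2, i3, i4, i5, i6, e, C, D, u, hS, hV⟩ :=
      step_pre Qz hQ m f hm hf c hc hI hdep hsum hpos ρ hρ hR
    exact typical C D u hS _ (by positivity) hV
  have hit : ∀ k : ℕ, Ratio ((1 + δ) ^ k) := by
    intro k
    induction k with
    | zero => simpa using ratio_one
    | succ k ih =>
      rw [pow_succ]
      exact hstep _ (by positivity) ih
  obtain ⟨k, hk⟩ := pow_unbounded_of_one_lt (4 * C ^ 2) (by linarith : 1 < 1 + δ)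
  exact target_of_ratio C _ hC hk (hit k)

end Crest.Agent.R63
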