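import Crest.Agent.R63.AR3
import Crest.Agent.R63.AR4
import Crest.Agent.R63.AM3

/-! ROW 63, module A, piece A_X1: block, `M` blocks, cut (for fixed super-symbol law `(κ, p, U, d)`).

`c` star set, `w = E[(∑ U)² c]`, `μ = E c`, `V = E U²`.  `v = ∑_o bp o * bU o ^ 2 ≥ E[(1-c)(∑ U)²] = m V - w` (`EE_sq`).
`(Rlz.block).pi M`, `cut` with `g a = (⌈(μ-ε)M⌉₊ ≤ #stars)` where star = `none`, `D = (M m - ⌈(μ-ε)M⌉₊ f) d + 1`
(the degree of a label with `k` stars is `k (m-f) d + (M-k) m d = (M m - k f) d`), then `EE_good` with `st = (· = none)`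
(`∑_{st} bp = EE p m c`).  `z0`: if `EE p m c = 0` then all terms with `c = 1` have weight zero. -/

set_option autoImplicit false
open Finset

namespace Crest.Agent.R63.A

variable {κ : Type} [Fintype κ] [DecidableEq κ]

theorem exists_z0 {p U : κ → ℝ} (hp : ∀ a, 0 ≤ p a) (m : ℕ) (c : (Fin m → κ) → ℝ)
    (hc : ∀ a, c a = 0 ∨ c a = 1) :
    ∃ z0 : ℝ, EE p m (fun a => c a * ∑ i, U (a i)) = z0 * EE p m c := by
  have hpr : ∀ a : Fin m → κ, 0 ≤ ∏ t, p (a t) := fun a => Finset.prod_nonneg fun t _ => hp _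
  have hc0 : ∀ a, 0 ≤ c a := fun a => by rcases hc a with h | h <;> rw [h] <;> norm_num
  by_cases h0 : EE p m c = 0
  · refine ⟨0, ?_⟩
    have hterm : ∀ a ∈ (univ : Finset (Fin m → κ)), (∏ t, p (a t)) * c a = 0 :=
      (Finset.sum_eq_zero_iff_of_nonneg fun a _ => mul_nonneg (hpr a) (hc0 a)).mp h0
    rw [zero_mul]
    unfold EE
    refine Finset.sum_eq_zero fun a ha => ?_
    have h1 := hterm a ha
    calc (∏ t, p (a t)) * (c a * ∑ i, U (a i)) = ((∏ t, p (a t)) * c a) * ∑ i, U (a i) := by ring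
      _ = 0 := by rw [h1, zero_mul]
  · exact ⟨EE p m (fun a => c a * ∑ i, U (a i)) / EE p m c, by field_simp⟩

theorem blocks {p U : κ → ℝ} {d : ℕ} (h : Rlz κ p U (fun _ => d)) (m f : ℕ) (hf : f ≤ m)
    (c : (Fin m → κ) → ℝ) (hc : ∀ a, c a = 0 ∨ c a = 1) (hj : Jun (m - f) c)
    (ε : ℝ) (hε : 0 < ε) :
    ∃ K : ℝ, ∀ M : ℕ, 1 ≤ M → ∃ (κ' : Type) (_ : Fintype κ') (_ : DecidableEq κ')
      (p' U' : κ' → ℝ) (D : ℕ), 1 ≤ D ∧ Rlz κ' p' U' (fun _ => D) ∧
      (D : ℝ) ≤ M * (m - (EE p m c - ε) * f) * d + 1 ∧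
      M * (m * (∑ a, p a * U a ^ 2) - EE p m (fun a => (∑ i, U (a i)) ^ 2 * c a)) - K ≤
        ∑ a, p' a * U' a ^ 2 := by
  obtain ⟨z0, hz⟩ := exists_z0 (U := U) h.nonneg m c hc
  have hb := h.block m f c hc hj z0 hz
  have hb0 := hb.nonneg
  have hb1 := hb.sum_one
  have hbm := hb.mean
  obtain ⟨K, hK⟩ := EE_good hb0 hb1 hbm (fun o => o = none) ε hε
  have hst : ∑ b ∈ univ.filter (fun o : Option (Fin m → κ) => o = none), bp p m c b = EE p m c := by
    rw [Finset.filter_eq' univ (none : Option (Fin m → κ))]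
    simp [bp]
  have hμ1 : EE p m c ≤ 1 := by
    have h1 : bp p m c none ≤ ∑ o, bp p m c o :=
      Finset.single_le_sum (f := bp p m c) (fun o _ => hb0 o) (Finset.mem_univ none)
    rw [hb1] at h1
    exact h1
  refine ⟨K, fun M hM => ?_⟩
  have hKM := hK M hM
  rw [hst] at hKM
  set k0 : ℕ := ⌈(EE p m c - ε) * M⌉₊ with hk0
  have hR := hb.pi M
  have hdeg : ∀ a : Fin M → Option (Fin m → κ),
      k0 ≤ (univ.filter fun t => a t = none).card →
      ∑ t, bd m f d (a t) ≤ (M * m - k0 * f) * d + 1 := by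
    intro a ha
    set k := (univ.filter fun t => a t = none).card with hk
    have hkM : k ≤ M := by
      have := Finset.card_le_univ (univ.filter fun t => a t = none)
      simpa using this
    have hsum : ∑ t, bd m f d (a t) = k * ((m - f) * d) + (M - k) * (m * d) := by
      have h1 : ∀ t, bd m f d (a t) = if a t = none then (m - f) * d else m * d := by
        intro t
        rcases hat : a t with _ | b
        · simp [bd]
        · simp [bd]
      rw [Finset.sum_congr rfl fun t _ => h1 t, Finset.sum_ite, Finset.sum_const, Finset.sum_const,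
        smul_eq_mul, smul_eq_mul]
      congr 2
      have h2 := Finset.card_filter_add_card_filter_not (s := (univ : Finset (Fin M))) (fun t => a t = none)
      rw [Finset.card_univ, Fintype.card_fin] at h2
      omega
    rw [hsum]
    have h3 : k * ((m - f) * d) + (M - k) * (m * d) = (M * m - k * f) * d := by
      obtain ⟨e, rfl⟩ := Nat.exists_eq_add_of_le hf
      obtain ⟨l, hl⟩ := Nat.exists_eq_add_of_le hkM
      have e1 : f + e - f = e := by omega
      have e2 : M - k = l := by omega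
      rw [e1, e2]
      have e3 : M * (f + e) - k * f = k * e + l * (f + e) := by
        rw [hl]
        have : (k + l) * (f + e) = k * f + (k * e + l * (f + e)) := by ring
        rw [this]
        omega
      rw [e3]
      ring
    rw [h3]
    have h4 : M * m - k * f ≤ M * m - k0 * f := by
      have := Nat.mul_le_mul_right f ha
      omega
    have h5 := Nat.mul_le_mul_right d h4
    omega
  obtain ⟨p', U', hR', hcut⟩ := hR.cut (fun a => k0 ≤ (univ.filter fun t => a t = none).card)
    ((M * m - k0 * f) * d + 1) hdeg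
  refine ⟨_, inferInstance, inferInstance, p', U', (M * m - k0 * f) * d + 1, by omega, hR', ?_, ?_⟩
  · have hk0' : (EE p m c - ε) * M ≤ k0 := Nat.le_ceil _
    have hd0 : (0 : ℝ) ≤ d := Nat.cast_nonneg d
    have hf0 : (0 : ℝ) ≤ f := Nat.cast_nonneg f
    have hfm : (f : ℝ) ≤ m := by exact_mod_cast hf
    have hM0 : (0 : ℝ) ≤ M := Nat.cast_nonneg M
    have key : ((M * m - k0 * f : ℕ) : ℝ) ≤ M * (m - (EE p m c - ε) * f) := by
      rcases le_total (k0 * f) (M * m) with hle | hle
      · rw [Nat.cast_sub hle]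
        push_cast
        have := mul_le_mul_of_nonneg_right hk0' hf0
        nlinarith
      · rw [Nat.sub_eq_zero_of_le hle, Nat.cast_zero]
        refine mul_nonneg hM0 ?_
        have : (EE p m c - ε) * f ≤ 1 * f := mul_le_mul_of_nonneg_right (by linarith) hf0
        linarith
    push_cast
    have := mul_le_mul_of_nonneg_right key hd0
    linarith
  · have h1 : ∑ o, bp p m c o * bU U m z0 o ^ 2 ≥
        m * (∑ a, p a * U a ^ 2) - EE p m (fun a => (∑ i, U (a i)) ^ 2 * c a) := by
      rw [Fintype.sum_option]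
      have e1 : (m : ℝ) * (∑ a, p a * U a ^ 2) = EE p m (fun a => (∑ i, U (a i)) ^ 2) :=
        (EE_sq h.sum_one h.mean m).symm
      have e2 : 0 ≤ bp p m c none * bU U m z0 none ^ 2 := mul_nonneg (hb0 none) (sq_nonneg _)
      have e3 : ∑ a : Fin m → κ, bp p m c (some a) * bU U m z0 (some a) ^ 2 =
          EE p m (fun a => (∑ i, U (a i)) ^ 2) - EE p m (fun a => (∑ i, U (a i)) ^ 2 * c a) := by
        unfold EE
        rw [← Finset.sum_sub_distrib]
        refine Finset.sum_congr rfl fun a _ => ?_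
        simp only [bp, bU]
        ring
      rw [e1, e3]
      linarith
    have h2 : EE (bp p m c) M (fun a =>
        if k0 ≤ (univ.filter fun t => a t = none).card then
          (∑ t, bU U m z0 (a t)) ^ 2 else 0) =
        ∑ a ∈ univ.filter (fun a : Fin M → Option (Fin m → κ) =>
          k0 ≤ (univ.filter fun t => a t = none).card),
          (∏ t, bp p m c (a t)) * (∑ t, bU U m z0 (a t)) ^ 2 := by
      unfold EE
      rw [Finset.sum_filter]
      refine Finset.sum_congr rfl fun a _ => ?_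
      beta_reduce
      by_cases hk : k0 ≤ (univ.filter fun t => a t = none).card
      · rw [if_pos (by convert hk), if_pos (by convert hk)]
      · rw [if_neg (by convert hk), if_neg (by convert hk), mul_zero]
    have h3 : (M : ℝ) * (m * (∑ a, p a * U a ^ 2) - EE p m (fun a => (∑ i, U (a i)) ^ 2 * c a)) ≤
        M * ∑ o, bp p m c o * bU U m z0 o ^ 2 :=
      mul_le_mul_of_nonneg_left h1 (Nat.cast_nonneg M)
    have h4 := hKM.trans (h2.le.trans hcut)
    linarith

end Crest.Agent.R63.A
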