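import Crest.Agent.R63.AX1
import Crest.Agent.R63.AC5

/-! ROW 63, module A, piece A_X2: one amplification step.

`Φ = ∑ φ c > 0`; `m ≥ 1`, `f ≤ m`; `Φ ≤ f` (so `f ≥ 1`, `Φ ≤ m`: not needed if `θ` is chosen as below).
Scheme `(κ, p, U, d)` with `V = ∑ p U² ≥ ρ d > 0`.  `B` large: `Φ_B ≥ 3Φ/4` (`phi_lim`).  Super-symbols: `(h.pi B)`, law `pw p B`,
degree `B d`, `U_B = √(B V) TT`.  `c̃ a = c (Qz ∘ TT ∘ a)`; `μ = EE c̃`, `w = EE ((∑ TT)² c̃)`, `Φ_B = f μ - w`.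
`blocks` with `ε = Φ/(4 m)` (so `ε f ≤ Φ/4`): `D ≤ M (m - (μ-ε) f) B d + 1`, `V' ≥ M B V (m - w) - K`.
`θ = 1 + Φ/(4 (m + Φ))`: `(m - w) - θ (m - (μ-ε) f) = Φ_B - ε f - (θ-1)(m - (μ-ε) f) ≥ Φ/2 - Φ/4 > 0`
(`m - (μ-ε) f ≤ m + Φ`), so `θ ρ D ≤ V'` for `M` large (`ρ d ≤ V`). -/

set_option autoImplicit false
open Finset MeasureTheory ProbabilityTheory Filter Topology

namespace Crest.Agent.R63.A

/-- the scheme data of a super-symbol -/
theorem Rlz.super {κ : Type} [Fintype κ] [DecidableEq κ] {p U : κ → ℝ} {d : ℕ}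
    (h : Rlz κ p U (fun _ => d)) (V : ℝ) (hV0 : 0 < V) (B : ℕ) (hB : 1 ≤ B) :
    Rlz (Fin B → κ) (pw p B) (fun s => √(B * V) * TT U V B s) (fun _ => B * d) := by
  have hB0 : (0 : ℝ) < B := by exact_mod_cast hB
  have hs : (0 : ℝ) < √(B * V) := Real.sqrt_pos.2 (by positivity)
  refine (h.pi B).congr (fun a => rfl) (fun a => ?_) (fun a => ?_)
  · unfold TT
    field_simp
  · simp

private theorem ax2_arith (Φ m f μ w ε θ V B ρ d D V' K M : ℝ) (hΦ : 0 < Φ) (hm : 1 ≤ m)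
    (hf0 : 0 ≤ f) (hf : f ≤ m) (hμ0 : 0 ≤ μ) (hμ1 : μ ≤ 1) (hε : ε = Φ / (4 * m))
    (hθ : θ = 1 + Φ / (4 * (m + Φ))) (hV : ρ * d ≤ V) (hρ : 0 < ρ) (hd : 0 < d) (hB : 1 ≤ B)
    (hΦB : 3 / 4 * Φ ≤ f * μ - w) (hM : 1 ≤ M)
    (hD : D ≤ M * (m - (μ - ε) * f) * (B * d) + 1)
    (hV' : M * (m * (B * V) - B * V * w) - K ≤ V')
    (hM2 : K + θ * ρ ≤ M * (B * V * (Φ / 4))) : θ * ρ * D ≤ V' := by
  have hV0 : 0 < V := lt_of_lt_of_le (by positivity) hV
  have hε0 : 0 < ε := by rw [hε]; positivity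
  have hεf : ε * f ≤ Φ / 4 := by
    calc ε * f ≤ ε * m := mul_le_mul_of_nonneg_left hf hε0.le
      _ = Φ / 4 := by rw [hε]; field_simp
  set A := m - (μ - ε) * f with hA
  have hμf : μ * f ≤ f := by nlinarith
  have hA0 : 0 ≤ A := by
    have : 0 ≤ ε * f := by positivity
    rw [hA]; nlinarith
  have hA1 : A ≤ m + Φ := by
    have : 0 ≤ μ * f := by positivity
    rw [hA]; nlinarith
  have hθ0 : 0 < θ := by rw [hθ]; positivity
  have hθA : (θ - 1) * A ≤ Φ / 4 := by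
    calc (θ - 1) * A ≤ (θ - 1) * (m + Φ) :=
          mul_le_mul_of_nonneg_left hA1 (by rw [hθ]; ring_nf; positivity)
      _ = Φ / 4 := by rw [hθ]; field_simp; ring
  have hkey : Φ / 4 ≤ (m - w) - θ * A := by
    have h1 : (m - w) - θ * A = (f * μ - w) - ε * f - (θ - 1) * A := by rw [hA]; ring
    rw [h1]; linarith
  have hBV : 0 < B * V := by positivity
  have hMB : 0 ≤ M * (B * V) := by positivity
  calc θ * ρ * D ≤ θ * ρ * (M * A * (B * d) + 1) :=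
        mul_le_mul_of_nonneg_left hD (by positivity)
    _ = θ * A * (M * B) * (ρ * d) + θ * ρ := by ring
    _ ≤ θ * A * (M * B) * V + θ * ρ := by
        have : 0 ≤ θ * A * (M * B) := by positivity
        have := mul_le_mul_of_nonneg_left hV this
        linarith
    _ = M * (B * V) * (θ * A) + θ * ρ := by ring
    _ ≤ M * (B * V) * ((m - w) - Φ / 4) + θ * ρ := by
        have := mul_le_mul_of_nonneg_left (show θ * A ≤ (m - w) - Φ / 4 by linarith) hMB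
        linarith
    _ = M * (m * (B * V) - B * V * w) - M * (B * V * (Φ / 4)) + θ * ρ := by ring
    _ ≤ M * (m * (B * V) - B * V * w) - K := by linarith
    _ ≤ V' := hV'

theorem step {Γ : Type} [Fintype Γ] [DecidableEq Γ] (Qz : ℝ → Γ) (m f : ℕ)
    (c : (Fin m → Γ) → ℝ)
    (hQ : ∀ a, MeasurableSet (Qz ⁻¹' {a}) ∧ (frontier (Qz ⁻¹' {a})).Finite) (hm : 1 ≤ m)
    (hf : f ≤ m) (hc : ∀ x, c x = 0 ∨ c x = 1) (hj : Jun (m - f) c)
    (hΦ : 0 < ∑ x, phi m f Qz x * c x) (ρ : ℝ) (hρ : 0 < ρ) (h : Rat ρ) :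
    Rat ((1 + (∑ x, phi m f Qz x * c x) / (4 * (m + ∑ x, phi m f Qz x * c x))) * ρ) := by
  classical
  set Φ := ∑ x, phi m f Qz x * c x with hΦd
  obtain ⟨κ, _, _, p, U, d, hd, hR, hV⟩ := h
  set V := ∑ a, p a * U a ^ 2 with hVd
  have hd0 : (0 : ℝ) < d := by exact_mod_cast hd
  have hV0 : 0 < V := lt_of_lt_of_le (by positivity) hV
  have hlim := phi_lim (fun a => hR.nonneg a) hR.sum_one hR.mean V rfl hV0 Qz hQ m f c
  rw [← hΦd] at hlim
  obtain ⟨B, hB1, hB2⟩ : ∃ B : ℕ, 1 ≤ B ∧ 3 / 4 * Φ ≤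
      EE (pw p B) m (fun a => ((f : ℝ) - (∑ i, TT U V B (a i)) ^ 2) *
        c (fun i => Qz (TT U V B (a i)))) := by
    have h1 := (hlim.eventually (lt_mem_nhds (show 3 / 4 * Φ < Φ by linarith))).and
      (eventually_ge_atTop 1)
    obtain ⟨B, h2, h3⟩ := h1.exists
    exact ⟨B, h3, h2.le⟩
  have hB0 : (1 : ℝ) ≤ B := by exact_mod_cast hB1
  have hS := hR.super V hV0 B hB1
  set ct : (Fin m → (Fin B → κ)) → ℝ := fun a => c (fun i => Qz (TT U V B (a i))) with hct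
  have hctc : ∀ a, ct a = 0 ∨ ct a = 1 := fun a => hc _
  have hctj : Jun (m - f) ct := by
    obtain ⟨h, h1, h2⟩ := hj
    refine ⟨fun I a => h I (fun i => Qz (TT U V B (a i))), fun I x y hxy => ?_, fun x => h2 _⟩
    exact h1 I _ _ fun i hi => by rw [hxy i hi]
  have hm0 : (1 : ℝ) ≤ m := by exact_mod_cast hm
  have hε : 0 < Φ / (4 * (m : ℝ)) := by positivity
  obtain ⟨K, hK⟩ := blocks hS m f hf ct hctc hctj (Φ / (4 * (m : ℝ))) hε
  set μ := EE (pw p B) m ct with hμ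
  set w := EE (pw p B) m (fun a => (∑ i, TT U V B (a i)) ^ 2 * ct a) with hw
  have hμ0 : 0 ≤ μ := by
    have h1 := EE_mono (p := pw p B) (fun a => hS.nonneg a) m (G := fun _ => (0 : ℝ)) (H := ct)
      (fun a => by rcases hctc a with h | h <;> rw [h]; norm_num)
    rwa [EE_const hS.sum_one] at h1
  have hμ1 : μ ≤ 1 := by
    have h1 := EE_mono (p := pw p B) (fun a => hS.nonneg a) m (G := ct) (H := fun _ => (1 : ℝ))
      (fun a => by rcases hctc a with h | h <;> rw [h]; norm_num)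
    rwa [EE_const hS.sum_one] at h1
  have hΦB : EE (pw p B) m (fun a => ((f : ℝ) - (∑ i, TT U V B (a i)) ^ 2) *
        c (fun i => Qz (TT U V B (a i)))) = f * μ - w := by
    have h1 : (fun a : Fin m → (Fin B → κ) => ((f : ℝ) - (∑ i, TT U V B (a i)) ^ 2) *
        c (fun i => Qz (TT U V B (a i)))) = fun a => (f : ℝ) * ct a +
          (-1) * ((∑ i, TT U V B (a i)) ^ 2 * ct a) := by
      funext a
      rw [hct]
      ring
    rw [h1, EE_add, EE_smul, EE_smul]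
    ring
  have hVB : ∑ s : Fin B → κ, pw p B s * (√(B * V) * TT U V B s) ^ 2 = B * V := by
    have h1 := EE_sq hR.sum_one hR.mean B
    rw [← hVd] at h1
    refine Eq.trans ?_ h1
    unfold EE
    refine Finset.sum_congr rfl fun s _ => ?_
    have h2 : √(B * V) * TT U V B s = ∑ b, U (s b) := by
      unfold TT
      have : (0 : ℝ) < √(B * V) := Real.sqrt_pos.2 (by positivity)
      field_simp
    rw [h2]
    rfl
  have hWB : EE (pw p B) m (fun a => (∑ i, √(B * V) * TT U V B (a i)) ^ 2 * ct a) =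
      B * V * w := by
    rw [hw, ← EE_smul]
    congr 1
    funext a
    rw [← Finset.mul_sum, mul_pow, Real.sq_sqrt (by positivity)]
    ring
  set θ := 1 + Φ / (4 * ((m : ℝ) + Φ)) with hθ
  -- choice of `M`
  obtain ⟨M, hM1, hM2⟩ : ∃ M : ℕ, 1 ≤ M ∧ K + θ * ρ ≤ M * (B * V * (Φ / 4)) := by
    have hpos : 0 < B * V * (Φ / 4) := by positivity
    obtain ⟨M, hM⟩ := exists_nat_ge ((K + θ * ρ) / (B * V * (Φ / 4)))
    refine ⟨M + 1, by omega, ?_⟩
    rw [div_le_iff₀ hpos] at hM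
    push_cast
    nlinarith
  obtain ⟨κ', i1, i2, p', U', D, hD1, hR', hD, hV'⟩ := hK M hM1
  refine ⟨κ', i1, i2, p', U', D, hD1, hR', ?_⟩
  rw [hVB, hWB] at hV'
  refine ax2_arith Φ m f μ w _ θ V B ρ d D _ K M hΦ hm0 (Nat.cast_nonneg f)
    (by exact_mod_cast hf) hμ0 hμ1 rfl rfl hV hρ hd0 hB0 ?_ (by exact_mod_cast hM1) ?_ hV' hM2
  · rw [← hΦB]
    exact hB2
  · push_cast at hD
    exact hD

end Crest.Agent.R63.A
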