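import Crest.Agent.R63.Cb

/-! ROW 63, module C (covering lemma): double counting with card_chi_neg (alpha in AA is != 0 since f <= m): for fixed alpha the number of y with
chi alpha (y j) = -1 for all j is (2^(rm)/2)^l. -/

set_option autoImplicit false
open Finset

namespace Crest.Agent.R63

lemma sum_AY {m r l f : ℕ} (hf : f ≤ m) :
    (∑ y : Fin l → X m r, (AY f y).card) * 2 ^ l = Dn m r f * Fintype.card (Fin l → X m r) := by
  classical
  have h1 : ∑ y : Fin l → X m r, (AY f y).card =
      ∑ α ∈ AA m r f, (univ.filter fun y : Fin l → X m r => ∀ j, chi α (y j) = -1).card := by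
    unfold AY
    simp_rw [Finset.card_filter]
    rw [Finset.sum_comm]
  have h2 : ∀ α ∈ AA m r f,
      (univ.filter fun y : Fin l → X m r => ∀ j, chi α (y j) = -1).card * 2 ^ l =
        Fintype.card (Fin l → X m r) := by
    intro α hα
    have h0 : α ≠ 0 := by
      rintro rfl
      unfold AA zs at hα
      rw [Finset.mem_filter] at hα
      have h3 := hα.2
      simp only [Pi.zero_apply, Finset.filter_true, Finset.card_univ, Fintype.card_fin] at h3
      omega
    have h3 : (univ.filter fun y : Fin l → X m r => ∀ j, chi α (y j) = -1) =
        Fintype.piFinset fun _ : Fin l => univ.filter fun x : X m r => chi α x = -1 := by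
      ext y
      simp [Fintype.mem_piFinset]
    rw [h3, Fintype.card_piFinset_const, ← mul_pow, mul_comm, card_chi_neg α h0, Fintype.card_fun,
      card_X, Fintype.card_fin]
  rw [h1, Finset.sum_mul, Finset.sum_congr rfl h2, Finset.sum_const, smul_eq_mul]
  rfl

end Crest.Agent.R63
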