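import Crest.Agent.R63.Defs

/-! ROW 63, module C (covering lemma): PROOF: union bound by counting, exponential moment with base 6:
count(Y with >= 2n bad) * 6^(2n) <= (#β + 5 #bad)^(4n) <= (12/7)^(4n) #β^(4n). -/

set_option autoImplicit false
open Finset

namespace Crest.Agent.R63

theorem exists_tuple_count {β : Type} [Fintype β] [DecidableEq β] (n : ℕ) (s : Finset β)
    (hs : 7 * s.card ≤ Fintype.card β) :
    (univ.filter fun Y : Fin (4 * n) → β => 4 * n ≤ 2 * (univ.filter fun i => Y i ∈ s).card).card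
        * 86436 ^ n ≤ 20736 ^ n * (Fintype.card β) ^ (4 * n) := by
  classical
  set T := univ.filter fun Y : Fin (4 * n) → β => 4 * n ≤ 2 * (univ.filter fun i => Y i ∈ s).card with hT
  have hmom : ∑ Y : Fin (4 * n) → β, ∏ i, (if Y i ∈ s then 6 else 1 : ℕ)
      = (Fintype.card β + 5 * s.card) ^ (4 * n) := by
    have h := Finset.prod_univ_sum (ι := Fin (4 * n)) (fun _ => (univ : Finset β))
      (fun _ y => (if y ∈ s then 6 else 1 : ℕ))
    rw [Fintype.piFinset_univ] at h
    rw [← h, Finset.prod_const, Finset.card_univ, Fintype.card_fin]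
    congr 1
    rw [Finset.sum_ite]
    simp only [Finset.sum_const, smul_eq_mul, mul_one, Finset.filter_mem_eq_inter, Finset.univ_inter]
    have : (univ.filter fun y => y ∉ s).card = Fintype.card β - s.card := by
      rw [← Finset.card_univ, ← Finset.card_sdiff_of_subset (Finset.subset_univ s)]
      congr 1
      ext y; simp
    rw [this]
    have := Finset.card_le_univ s
    omega
  have hlow : T.card * 36 ^ n ≤ ∑ Y : Fin (4 * n) → β, ∏ i, (if Y i ∈ s then 6 else 1 : ℕ) := by
    calc T.card * 36 ^ n = ∑ Y ∈ T, 36 ^ n := by rw [Finset.sum_const, smul_eq_mul]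
      _ ≤ ∑ Y ∈ T, ∏ i, (if Y i ∈ s then 6 else 1 : ℕ) := by
          refine Finset.sum_le_sum fun Y hY => ?_
          have hY2 : 4 * n ≤ 2 * (univ.filter fun i => Y i ∈ s).card := by
            simpa [hT] using hY
          rw [Finset.prod_ite, Finset.prod_const, Finset.prod_const, one_pow, mul_one]
          calc 36 ^ n = 6 ^ (2 * n) := by rw [pow_mul]; norm_num
            _ ≤ 6 ^ (univ.filter fun i => Y i ∈ s).card := Nat.pow_le_pow_right (by norm_num) (by omega)
      _ ≤ _ := Finset.sum_le_sum_of_subset (Finset.subset_univ _)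
  rw [hmom] at hlow
  have h7 : 7 * (Fintype.card β + 5 * s.card) ≤ 12 * Fintype.card β := by omega
  calc T.card * 86436 ^ n = (T.card * 36 ^ n) * 2401 ^ n := by
        rw [show (86436 : ℕ) = 36 * 2401 by norm_num, mul_pow]; ring
    _ ≤ (Fintype.card β + 5 * s.card) ^ (4 * n) * 2401 ^ n := Nat.mul_le_mul_right _ hlow
    _ = (7 * (Fintype.card β + 5 * s.card)) ^ (4 * n) := by
        rw [mul_pow, pow_mul 7 4 n]; norm_num [mul_comm]
    _ ≤ (12 * Fintype.card β) ^ (4 * n) := Nat.pow_le_pow_left h7 _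
    _ = 20736 ^ n * (Fintype.card β) ^ (4 * n) := by
        rw [mul_pow, pow_mul 12 4 n]; norm_num

theorem exists_tuple {β ι : Type} [Fintype β] [Fintype ι] [DecidableEq β] [Nonempty β] (n : ℕ) (hn : 1 ≤ n)
    (hι : Fintype.card ι ≤ 2 ^ n) (bad : ι → Finset β) (hbad : ∀ x, 7 * (bad x).card ≤ Fintype.card β) :
    ∃ Y : Fin (4 * n) → β, ∀ x, 2 * (univ.filter fun i => Y i ∈ bad x).card < 4 * n := by
  classical
  by_contra hcon
  push Not at hcon
  have hcover : (univ : Finset (Fin (4 * n) → β)) ⊆ univ.biUnion fun x =>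
      univ.filter fun Y : Fin (4 * n) → β => 4 * n ≤ 2 * (univ.filter fun i => Y i ∈ bad x).card := by
    intro Y _
    obtain ⟨x, hx⟩ := hcon Y
    simp only [Finset.mem_biUnion, Finset.mem_univ, Finset.mem_filter, true_and]
    exact ⟨x, hx⟩
  have h1 := (Finset.card_le_card hcover).trans Finset.card_biUnion_le
  rw [Finset.card_univ, Fintype.card_fun, Fintype.card_fin] at h1
  have h2 : (Fintype.card β) ^ (4 * n) * 86436 ^ n ≤ 41472 ^ n * (Fintype.card β) ^ (4 * n) := by
    calc (Fintype.card β) ^ (4 * n) * 86436 ^ n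
        ≤ (∑ x, (univ.filter fun Y : Fin (4 * n) → β =>
            4 * n ≤ 2 * (univ.filter fun i => Y i ∈ bad x).card).card) * 86436 ^ n :=
          Nat.mul_le_mul_right _ h1
      _ = ∑ x, (univ.filter fun Y : Fin (4 * n) → β =>
            4 * n ≤ 2 * (univ.filter fun i => Y i ∈ bad x).card).card * 86436 ^ n := by
          rw [Finset.sum_mul]
      _ ≤ ∑ _x : ι, 20736 ^ n * (Fintype.card β) ^ (4 * n) :=
          Finset.sum_le_sum fun x _ => exists_tuple_count n (bad x) (hbad x)
      _ = Fintype.card ι * (20736 ^ n * (Fintype.card β) ^ (4 * n)) := by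
          rw [Finset.sum_const, smul_eq_mul, Finset.card_univ]
      _ ≤ 2 ^ n * (20736 ^ n * (Fintype.card β) ^ (4 * n)) := Nat.mul_le_mul_right _ hι
      _ = 41472 ^ n * (Fintype.card β) ^ (4 * n) := by
          rw [← mul_assoc, ← mul_pow]; norm_num
  have hpos : 0 < (Fintype.card β) ^ (4 * n) := pow_pos Fintype.card_pos _
  have h3 : (86436 : ℕ) ^ n ≤ 41472 ^ n := by
    have : 86436 ^ n * (Fintype.card β) ^ (4 * n) ≤ 41472 ^ n * (Fintype.card β) ^ (4 * n) := by
      rw [mul_comm (86436 ^ n)]; exact h2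
    exact Nat.le_of_mul_le_mul_right this hpos
  have h4 : (41472 : ℕ) ^ n < 86436 ^ n := Nat.pow_lt_pow_left (by norm_num) (by omega)
  omega

end Crest.Agent.R63
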