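import Crest.Agent.R63.Ce
import Crest.Agent.R63.Cf
import Crest.Agent.R63.Ch

/-! ROW 63, module C (covering lemma): the abstract covering lemma.  PROOF: beta = {y : #AY f y * 2^l <= 8 D} ("good"), #beta >= 7/8 N^l (Markov with
sum_AY), so for w in S and x the bad set {y in beta : delta/4 < |Rr y w x|} has 7 #bad <= #beta.  exists_tuple gives Y_w.
D' = floor(8 D/2^l), M = ceil(2 * 2^(rm)/delta).  code w = (Y_w, for each i the list of floor(M * fract(2^l * coef w alpha)),
alpha in AY f (Y i), padded through an injection AY -> Fin D'); at most (2^(rm l))^(4n) * (M^D')^(4n) values;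
log M <= n + log(3/delta), l <= n.  If code w = code w': same Y; for every x there is i good for both (2*#bad < 4n twice),
nrm(w x - w' x) <= delta/4 + nrm(T w x - T w' x) + delta/4 and T w x - T w' x = integer + sum (s - s') chi, |..| <= #AY/M <= delta/2
(#AY <= D <= 2^(rm)).  (code w arbitrary if w is not in S.) -/

set_option autoImplicit false
open Finset

namespace Crest.Agent.R63

private lemma ci_card {m r l f : ℕ} (hf : f ≤ m) :
    7 * Fintype.card (Fin l → X m r) ≤
      8 * (univ.filter fun y : Fin l → X m r => (AY f y).card * 2 ^ l ≤ 8 * Dn m r f).card := by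
  classical
  set G := univ.filter fun y : Fin l → X m r => (AY f y).card * 2 ^ l ≤ 8 * Dn m r f with hG
  set B := univ.filter fun y : Fin l → X m r => ¬ (AY f y).card * 2 ^ l ≤ 8 * Dn m r f with hB
  have h1 : G.card + B.card = Fintype.card (Fin l → X m r) := by
    rw [hG, hB, Finset.card_filter_add_card_filter_not, Finset.card_univ]
  have h2 := sum_AY (m := m) (r := r) (l := l) hf
  rcases Nat.eq_zero_or_pos (Dn m r f) with hD | hD
  · have hB0 : B = ∅ := by
      rw [hB, Finset.filter_eq_empty_iff]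
      intro y _
      rw [not_not, hD]
      have : (AY f y).card ≤ Dn m r f := Finset.card_le_card (Finset.filter_subset _ _)
      rw [hD] at this
      have h0 : (AY f y).card = 0 := Nat.le_zero.1 this
      rw [h0]
      simp
    rw [hB0, Finset.card_empty] at h1
    omega
  · have h3 : B.card * (8 * Dn m r f) ≤ Dn m r f * Fintype.card (Fin l → X m r) := by
      rw [← h2, Finset.sum_mul]
      calc B.card * (8 * Dn m r f) = ∑ y ∈ B, 8 * Dn m r f := by
            rw [Finset.sum_const, smul_eq_mul]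
        _ ≤ ∑ y ∈ B, (AY f y).card * 2 ^ l := by
            refine Finset.sum_le_sum fun y hy => ?_
            exact (not_le.1 (Finset.mem_filter.1 hy).2).le
        _ ≤ ∑ y : Fin l → X m r, (AY f y).card * 2 ^ l :=
            Finset.sum_le_sum_of_subset_of_nonneg (Finset.subset_univ _) fun _ _ _ => Nat.zero_le _
    have h4 : 8 * B.card ≤ Fintype.card (Fin l → X m r) := by
      have h5 : Dn m r f * (8 * B.card) ≤ Dn m r f * Fintype.card (Fin l → X m r) := by
        calc Dn m r f * (8 * B.card) = B.card * (8 * Dn m r f) := by ring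
          _ ≤ _ := h3
      exact Nat.le_of_mul_le_mul_left h5 hD
    omega

private lemma ci_tuple {m r f l : ℕ} (hf : f ≤ m) (hn : 1 ≤ r * m) (δ : ℝ) (w : X m r → ℝ)
    (hbad : ∀ x, 8 * (univ.filter fun y : Fin l → X m r => δ / 4 < |Rr y w x|).card ≤
      Fintype.card (Fin l → X m r)) :
    ∃ Y : Fin (4 * (r * m)) → (Fin l → X m r),
      (∀ i, (AY f (Y i)).card * 2 ^ l ≤ 8 * Dn m r f) ∧
      ∀ x, 2 * (univ.filter fun i => δ / 4 < |Rr (Y i) w x|).card < 4 * (r * m) := by
  classical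
  set G := univ.filter fun y : Fin l → X m r => (AY f y).card * 2 ^ l ≤ 8 * Dn m r f with hG
  have hcard := ci_card (m := m) (r := r) (l := l) hf
  rw [← hG] at hcard
  have hpos : 0 < Fintype.card (Fin l → X m r) := Fintype.card_pos
  have hGpos : 0 < G.card := by omega
  obtain ⟨y0, hy0⟩ := Finset.card_pos.1 hGpos
  have : Nonempty {y // y ∈ G} := ⟨⟨y0, hy0⟩⟩
  have hcG : Fintype.card {y // y ∈ G} = G.card := Fintype.card_coe G
  obtain ⟨Y, hY⟩ := exists_tuple (β := {y // y ∈ G}) (ι := X m r) (r * m) hn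
    (by rw [card_X]) (fun x => univ.filter fun y => δ / 4 < |Rr y.1 w x|) (by
      intro x
      rw [hcG]
      have h1 : (univ.filter fun y : {y // y ∈ G} => δ / 4 < |Rr y.1 w x|).card ≤
          (univ.filter fun y : Fin l → X m r => δ / 4 < |Rr y w x|).card := by
        refine Finset.card_le_card_of_injOn (fun y => y.1) ?_ ?_
        · intro y hy
          have := (Finset.mem_filter.1 hy).2
          exact Finset.mem_filter.2 ⟨Finset.mem_univ _, this⟩
        · intro a _ b _ hab
          exact Subtype.ext hab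
      have h2 := hbad x
      omega)
  refine ⟨fun i => (Y i).1, fun i => ?_, fun x => ?_⟩
  · exact (Finset.mem_filter.1 (Y i).2).2
  · have := hY x
    simpa using this

/-- the digit -/
private noncomputable def dig (M : ℕ) (hM : 0 < M) (a : ℝ) : Fin M :=
  ⟨⌊(M : ℝ) * Int.fract a⌋₊, by
    rw [Nat.floor_lt (by positivity)]
    have : (0 : ℝ) < M := by exact_mod_cast hM
    nlinarith [Int.fract_lt_one a]⟩

private lemma dig_eq {M : ℕ} (hM : 0 < M) {a b : ℝ} (h : dig M hM a = dig M hM b) :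
    |Int.fract a - Int.fract b| ≤ 1 / M := by
  have hM' : (0 : ℝ) < M := by exact_mod_cast hM
  have h1 : ⌊(M : ℝ) * Int.fract a⌋₊ = ⌊(M : ℝ) * Int.fract b⌋₊ := congrArg Fin.val h
  have ha1 := Nat.floor_le (a := (M : ℝ) * Int.fract a) (by positivity)
  have ha2 := Nat.lt_floor_add_one ((M : ℝ) * Int.fract a)
  have hb1 := Nat.floor_le (a := (M : ℝ) * Int.fract b) (by positivity)
  have hb2 := Nat.lt_floor_add_one ((M : ℝ) * Int.fract b)
  rw [h1] at ha1 ha2
  have h2 : |(M : ℝ) * (Int.fract a - Int.fract b)| ≤ 1 := by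
    rw [abs_le]
    constructor <;> nlinarith
  rw [abs_mul, abs_of_pos hM'] at h2
  rw [le_div_iff₀ hM']
  linarith

private noncomputable def vec {m r l f n : ℕ} (D' M : ℕ) (hM : 0 < M)
    (Y : Fin (4 * n) → (Fin l → X m r)) (w : X m r → ℝ) :
    Fin (4 * n) → Fin D' → Fin M := fun i j =>
  if h : j.val < (AY f (Y i)).card then
    dig M hM (2 ^ l * coef w ((AY f (Y i)).equivFin.symm ⟨j.val, h⟩).1) else ⟨0, hM⟩

theorem cover {m r f l : ℕ} (hf : f ≤ m) (hn : 1 ≤ r * m) (hl : l ≤ r * m) (δ : ℝ) (hδ : 0 < δ)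
    (hδ1 : δ ≤ 1) (S : Set (X m r → ℝ)) (hS : ∀ w ∈ S, IsW f w)
    (hbad : ∀ w ∈ S, ∀ x, 8 * (univ.filter fun y : Fin l → X m r => δ / 4 < |Rr y w x|).card ≤
      Fintype.card (Fin l → X m r)) :
    ∃ (K : ℕ) (code : (X m r → ℝ) → Fin K),
      (K : ℝ) ≤ Real.exp (4 * ((r * m : ℕ) : ℝ) ^ 3 +
        4 * ((r * m : ℕ) : ℝ) * (8 * Dn m r f / 2 ^ l) * (((r * m : ℕ) : ℝ) + Real.log (3 / δ))) ∧
      ∀ w ∈ S, ∀ w' ∈ S, code w = code w' → ∀ x, nrm (w x - w' x) ≤ δ := by
  classical
  have key0 : ∀ w, w ∈ S → ∃ Y : Fin (4 * (r * m)) → (Fin l → X m r),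
      (∀ i, (AY f (Y i)).card * 2 ^ l ≤ 8 * Dn m r f) ∧
      ∀ x, 2 * (univ.filter fun i => δ / 4 < |Rr (Y i) w x|).card < 4 * (r * m) :=
    fun w hw => ci_tuple hf hn δ w (hbad w hw)
  obtain ⟨n, hndef⟩ : ∃ n : ℕ, n = r * m := ⟨_, rfl⟩
  have key : ∀ w, w ∈ S → ∃ Y : Fin (4 * n) → (Fin l → X m r),
      (∀ i, (AY f (Y i)).card * 2 ^ l ≤ 8 * Dn m r f) ∧
      ∀ x, 2 * (univ.filter fun i => δ / 4 < |Rr (Y i) w x|).card < 4 * n := by
    rw [hndef]
    exact key0
  clear key0
  choose! Yc hY1 hY2 using key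
  rw [← hndef] at hn hl ⊢
  set D' : ℕ := 8 * Dn m r f / 2 ^ l with hD'
  set M : ℕ := ⌈2 * 2 ^ n / δ⌉₊ with hMdef
  have hMr : (2 * 2 ^ n / δ : ℝ) ≤ M := Nat.le_ceil _
  have hM0 : 0 < M := Nat.ceil_pos.2 (by positivity)
  have hM0' : (0 : ℝ) < M := by exact_mod_cast hM0
  let Code := (Fin (4 * n) → (Fin l → X m r)) × (Fin (4 * n) → Fin D' → Fin M)
  let cd : (X m r → ℝ) → Code := fun w => (Yc w, vec (f := f) D' M hM0 (Yc w) w)
  refine ⟨Fintype.card Code, fun w => Fintype.equivFin Code (cd w), ?_, ?_⟩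
  · -- the bound for the number of codes
    have hcard : (Fintype.card Code : ℝ) = ((2 : ℝ) ^ (n * l)) ^ (4 * n) * ((M : ℝ) ^ D') ^ (4 * n) := by
      have hc1 : Fintype.card (Fin l → X m r) = (2 ^ n) ^ l := by
        rw [Fintype.card_fun, card_X, Fintype.card_fin, ← hndef]
      have : Fintype.card Code = ((2 ^ n) ^ l) ^ (4 * n) * ((M ^ D') ^ (4 * n)) := by
        show Fintype.card ((Fin (4 * n) → (Fin l → X m r)) × (Fin (4 * n) → Fin D' → Fin M)) = _
        rw [Fintype.card_prod, Fintype.card_fun, hc1, Fintype.card_fin, Fintype.card_fun,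
          Fintype.card_fun, Fintype.card_fin, Fintype.card_fin, Fintype.card_fin]
      rw [this]
      push_cast
      rw [← pow_mul (2 : ℝ) n l]
    rw [hcard]
    have hMle : (M : ℝ) ≤ 3 * 2 ^ n / δ := by
      have h1 : (M : ℝ) < 2 * 2 ^ n / δ + 1 := Nat.ceil_lt_add_one (by positivity)
      have h2 : (1 : ℝ) ≤ 2 ^ n / δ := by
        rw [le_div_iff₀ hδ]
        have : (1 : ℝ) ≤ 2 ^ n := one_le_pow₀ (by norm_num)
        linarith
      have h3 : (3 * 2 ^ n / δ : ℝ) = 2 * 2 ^ n / δ + 2 ^ n / δ := by ring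
      rw [h3]
      linarith
    have hlogM : Real.log M ≤ (n : ℝ) + Real.log (3 / δ) := by
      have h1 : Real.log M ≤ Real.log (3 * 2 ^ n / δ) := Real.log_le_log hM0' hMle
      have h2 : (3 * 2 ^ n / δ : ℝ) = 2 ^ n * (3 / δ) := by ring
      rw [h2, Real.log_mul (by positivity) (by positivity), Real.log_pow] at h1
      have h3 : Real.log 2 ≤ 1 := by
        have := Real.log_two_lt_d9
        linarith
      have h4 : (n : ℝ) * Real.log 2 ≤ n := by
        have h5 : (0 : ℝ) ≤ n := Nat.cast_nonneg _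
        nlinarith
      linarith
    have hlogM0 : 0 ≤ Real.log M := Real.log_nonneg (by exact_mod_cast hM0)
    have hpos : (0 : ℝ) < ((2 : ℝ) ^ (n * l)) ^ (4 * n) * ((M : ℝ) ^ D') ^ (4 * n) := by positivity
    rw [← Real.log_le_iff_le_exp hpos, Real.log_mul (by positivity) (by positivity), Real.log_pow,
      Real.log_pow, Real.log_pow, Real.log_pow]
    have hD'le : (D' : ℝ) ≤ 8 * Dn m r f / 2 ^ l := by
      rw [hD']
      have := Nat.cast_div_le (α := ℝ) (m := 8 * Dn m r f) (n := 2 ^ l)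
      push_cast at this
      exact this
    have hnn : (0 : ℝ) ≤ n := Nat.cast_nonneg _
    have hll : (l : ℝ) ≤ n := by exact_mod_cast hl
    have hl0 : (0 : ℝ) ≤ l := Nat.cast_nonneg _
    have e1 : ((4 * n : ℕ) : ℝ) * (((n * l : ℕ) : ℝ) * Real.log 2) ≤ 4 * (n : ℝ) ^ 3 := by
      push_cast
      have h3 : Real.log 2 ≤ 1 := by
        have := Real.log_two_lt_d9
        linarith
      have h4 : (0 : ℝ) ≤ Real.log 2 := Real.log_nonneg (by norm_num)
      calc 4 * (n : ℝ) * (n * l * Real.log 2) ≤ 4 * (n : ℝ) * (n * n * 1) := by gcongr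
        _ = 4 * (n : ℝ) ^ 3 := by ring
    have e2 : ((4 * n : ℕ) : ℝ) * ((D' : ℝ) * Real.log M) ≤
        4 * (n : ℝ) * (8 * Dn m r f / 2 ^ l) * ((n : ℝ) + Real.log (3 / δ)) := by
      push_cast
      have h5 : (0 : ℝ) ≤ D' := Nat.cast_nonneg _
      calc 4 * (n : ℝ) * ((D' : ℝ) * Real.log M)
          ≤ 4 * (n : ℝ) * ((8 * Dn m r f / 2 ^ l) * ((n : ℝ) + Real.log (3 / δ))) := by
            gcongr
        _ = _ := by ring
    linarith
  · intro w hw w' hw' hcode x
    have hcode' : cd w = cd w' := (Fintype.equivFin Code).injective hcode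
    have hYeq : Yc w = Yc w' := congrArg Prod.fst hcode'
    have hveq : vec (f := f) D' M hM0 (Yc w) w = vec (f := f) D' M hM0 (Yc w) w' := by
      have h1 : vec (f := f) D' M hM0 (Yc w) w = vec (f := f) D' M hM0 (Yc w') w' :=
        congrArg Prod.snd hcode'
      rw [h1, hYeq]
    -- a common good index
    obtain ⟨i, hi1, hi2⟩ : ∃ i, |Rr (Yc w i) w x| ≤ δ / 4 ∧ |Rr (Yc w i) w' x| ≤ δ / 4 := by
      by_contra hcon
      push Not at hcon
      have h1 := hY2 w hw x
      have h2 := hY2 w' hw' x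
      rw [← hYeq] at h2
      have h3 : (univ : Finset (Fin (4 * n))) ⊆
          (univ.filter fun i => δ / 4 < |Rr (Yc w i) w x|) ∪
          (univ.filter fun i => δ / 4 < |Rr (Yc w i) w' x|) := by
        intro i _
        rw [Finset.mem_union]
        by_cases hi : δ / 4 < |Rr (Yc w i) w x|
        · exact Or.inl (Finset.mem_filter.2 ⟨Finset.mem_univ _, hi⟩)
        · exact Or.inr (Finset.mem_filter.2 ⟨Finset.mem_univ _, hcon i (not_lt.1 hi)⟩)
      have h4 := (Finset.card_le_card h3).trans (Finset.card_union_le _ _)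
      rw [Finset.card_univ, Fintype.card_fin] at h4
      omega
    set y := Yc w i with hy
    have hA : (AY f y).card ≤ D' := by
      rw [hD', Nat.le_div_iff_mul_le (by positivity)]
      exact hY1 w hw i
    have hdig : ∀ α ∈ AY f y, |Int.fract (2 ^ l * coef w α) - Int.fract (2 ^ l * coef w' α)| ≤ 1 / M := by
      intro α hα
      have hlt : ((AY f y).equivFin ⟨α, hα⟩).val < (AY f y).card := ((AY f y).equivFin ⟨α, hα⟩).isLt
      have h1 := congrFun (congrFun hveq i) ⟨((AY f y).equivFin ⟨α, hα⟩).val, lt_of_lt_of_le hlt hA⟩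
      unfold vec at h1
      simp only [← hy] at h1
      rw [dif_pos hlt, dif_pos hlt] at h1
      have h2 : (AY f y).equivFin.symm ⟨((AY f y).equivFin ⟨α, hα⟩).val, hlt⟩ = ⟨α, hα⟩ := by
        rw [Fin.eta, Equiv.symm_apply_apply]
      rw [h2] at h1
      exact dig_eq hM0 h1
    have hT : nrm (T y w x - T y w' x) ≤ δ / 2 := by
      rw [T_expand hf y w (hS w hw) x, T_expand hf y w' (hS w' hw') x, ← Finset.sum_sub_distrib]
      set Z : ℤ := ∑ α ∈ AY f y, (⌊2 ^ l * coef w α⌋ - ⌊2 ^ l * coef w' α⌋) * chi α x with hZ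
      have h1 : ∑ α ∈ AY f y, ((2 ^ l * coef w α) * (chi α x : ℝ) - (2 ^ l * coef w' α) * (chi α x : ℝ)) =
          (Z : ℝ) + ∑ α ∈ AY f y, (Int.fract (2 ^ l * coef w α) - Int.fract (2 ^ l * coef w' α)) * (chi α x : ℝ) := by
        rw [hZ]
        push_cast
        rw [← Finset.sum_add_distrib]
        refine Finset.sum_congr rfl fun α _ => ?_
        unfold Int.fract
        ring
      rw [h1]
      refine (nrm_le_sub_int _ Z).trans ?_
      rw [add_sub_cancel_left]
      calc |∑ α ∈ AY f y, (Int.fract (2 ^ l * coef w α) - Int.fract (2 ^ l * coef w' α)) * (chi α x : ℝ)|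
          ≤ ∑ α ∈ AY f y, |(Int.fract (2 ^ l * coef w α) - Int.fract (2 ^ l * coef w' α)) * (chi α x : ℝ)| :=
            Finset.abs_sum_le_sum_abs _ _
        _ ≤ ∑ α ∈ AY f y, (1 / M : ℝ) := by
            refine Finset.sum_le_sum fun α hα => ?_
            have hc : |(chi α x : ℝ)| = 1 := by
              rcases chi_or α x with h | h <;> rw [h] <;> norm_num
            rw [abs_mul, hc, mul_one]
            exact hdig α hα
        _ = (AY f y).card * (1 / M : ℝ) := by rw [Finset.sum_const, nsmul_eq_mul]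
        _ ≤ 2 ^ n * (1 / M : ℝ) := by
            have h2 : (AY f y).card ≤ 2 ^ n := by
              rw [hndef, ← card_X]
              exact Finset.card_le_univ _
            have h3 : ((AY f y).card : ℝ) ≤ 2 ^ n := by exact_mod_cast h2
            gcongr
        _ ≤ δ / 2 := by
            rw [mul_one_div, div_le_iff₀ hM0']
            rw [div_le_iff₀ hδ] at hMr
            linarith
    have h1 := nrm_sub_T y w x
    have h2 := nrm_sub_T y w' x
    have e : w x - w' x = (w x - T y w x) + (T y w x - T y w' x) - (w' x - T y w' x) := by ring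
    rw [e]
    have h3 := nrm_sub_le ((w x - T y w x) + (T y w x - T y w' x)) (w' x - T y w' x)
    have h4 := nrm_add_le (w x - T y w x) (T y w x - T y w' x)
    linarith

end Crest.Agent.R63
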