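import Crest.Agent.R63.Cg
import Crest.Agent.R63.Ci

/-! ROW 63, module C (covering lemma, B1 of ideas 456): INTERFACE.
code2 from `cover`: t = 2^(rm) delta^2/(128 E); pick l with (l = 0 or 2^l <= t) and t < 2^(l+1) (l <= rm since t <= 2^(rm));
hbad: l = 0 by Rr_zero, else Chebyshev with `second`: #{delta/4 < |R|} <= 16 * 2^l E/(N delta^2) N^l <= N^l/8;
8 D/2^l <= 16 D/t = 2048 Th E/delta^2.  code1: t = 2^(rm) delta/(32 l1), Markov with `first`, 16 D/t = 512 Th l1/delta. -/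

set_option autoImplicit false
open Finset

namespace Crest.Agent.R63

lemma pick (n : ℕ) (t : ℝ) (ht : t ≤ 2 ^ n) : ∃ l : ℕ, l ≤ n ∧ (l = 0 ∨ (2 : ℝ) ^ l ≤ t) ∧ t < 2 ^ (l + 1) := by
  rcases lt_or_ge t 2 with h | h
  · exact ⟨0, Nat.zero_le _, Or.inl rfl, by simpa using h⟩
  · have h0 : ⌊t⌋₊ ≠ 0 := by
      have : 2 ≤ ⌊t⌋₊ := Nat.le_floor (by exact_mod_cast h)
      omega
    have h1 : ((2 ^ Nat.log 2 ⌊t⌋₊ : ℕ) : ℝ) ≤ t :=
      (Nat.cast_le.2 (Nat.pow_log_le_self 2 h0)).trans (Nat.floor_le (by linarith))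
    have h2 : t < ((2 ^ (Nat.log 2 ⌊t⌋₊ + 1) : ℕ) : ℝ) := by
      have h3 := Nat.lt_pow_succ_log_self (b := 2) (by norm_num) ⌊t⌋₊
      have h4 := Nat.lt_floor_add_one t
      have h5 : ((⌊t⌋₊ + 1 : ℕ) : ℝ) ≤ ((2 ^ (Nat.log 2 ⌊t⌋₊ + 1) : ℕ) : ℝ) :=
        Nat.cast_le.2 h3
      push_cast at h5 ⊢
      linarith
    push_cast at h1 h2
    refine ⟨Nat.log 2 ⌊t⌋₊, ?_, Or.inr h1, h2⟩
    have h6 : (2 : ℝ) ^ Nat.log 2 ⌊t⌋₊ ≤ 2 ^ n := h1.trans ht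
    exact (pow_le_pow_iff_right₀ (by norm_num : (1 : ℝ) < 2)).1 h6


private lemma c0_core {m r f : ℕ} (hf : f ≤ m) (hn : 1 ≤ r * m) (δ : ℝ) (hδ : 0 < δ)
    (hδ1 : δ ≤ 1) (p : ℕ) (E : ℝ) (hE : 1 ≤ E) (S : Set (X m r → ℝ)) (hS : ∀ w ∈ S, IsW f w)
    (hR : ∀ w ∈ S, ∀ (x : X m r) (l : ℕ), (∑ y : Fin l → X m r, |Rr y w x| ^ p) * 2 ^ (r * m) ≤
      2 ^ l * E * Fintype.card (Fin l → X m r)) :
    ∃ (K : ℕ) (code : (X m r → ℝ) → Fin K),
      (K : ℝ) ≤ Real.exp (4 * ((r * m : ℕ) : ℝ) ^ 3 +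
        512 * 4 ^ p * ((r * m : ℕ) : ℝ) * Th m r f * (E / δ ^ p) *
          (((r * m : ℕ) : ℝ) + Real.log (3 / δ))) ∧
      ∀ w ∈ S, ∀ w' ∈ S, code w = code w' → ∀ x, nrm (w x - w' x) ≤ δ := by
  classical
  have hN : (0 : ℝ) < 2 ^ (r * m) := by positivity
  have hE0 : 0 < E := by linarith
  have hδp : 0 < δ ^ p := pow_pos hδ p
  have hδp1 : δ ^ p ≤ 1 := pow_le_one₀ hδ.le hδ1
  have h4p : (1 : ℝ) ≤ 4 ^ p := one_le_pow₀ (by norm_num)
  have hden : (1 : ℝ) ≤ 8 * 4 ^ p * E := by nlinarith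
  obtain ⟨t, ht⟩ : ∃ t : ℝ, t = 2 ^ (r * m) * δ ^ p / (8 * 4 ^ p * E) := ⟨_, rfl⟩
  have htpos : 0 < t := by
    rw [ht]
    positivity
  have htN : t ≤ 2 ^ (r * m) := by
    rw [ht, div_le_iff₀ (by positivity)]
    exact mul_le_mul_of_nonneg_left (hδp1.trans hden) hN.le
  obtain ⟨l, hl, hl1, hl2⟩ := pick (r * m) t htN
  obtain ⟨K, code, hK, hcode⟩ := cover (l := l) hf hn hl δ hδ hδ1 S hS (by
    intro w hw x
    rcases hl1 with rfl | hl1
    · have h0 : (univ.filter fun y : Fin 0 → X m r => δ / 4 < |Rr y w x|) = ∅ := by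
        refine Finset.filter_eq_empty_iff.2 fun y _ => ?_
        rw [Rr_zero, abs_zero, not_lt]
        positivity
      rw [h0]
      simp
    · set B := (univ.filter fun y : Fin l → X m r => δ / 4 < |Rr y w x|) with hB
      have h1 : (B.card : ℝ) * (δ / 4) ^ p ≤ ∑ y : Fin l → X m r, |Rr y w x| ^ p := by
        calc (B.card : ℝ) * (δ / 4) ^ p = ∑ y ∈ B, (δ / 4) ^ p := by
              rw [Finset.sum_const, nsmul_eq_mul]
          _ ≤ ∑ y ∈ B, |Rr y w x| ^ p := by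
              refine Finset.sum_le_sum fun y hy => ?_
              exact pow_le_pow_left₀ (by positivity) (Finset.mem_filter.1 hy).2.le p
          _ ≤ ∑ y : Fin l → X m r, |Rr y w x| ^ p :=
              Finset.sum_le_sum_of_subset_of_nonneg (Finset.subset_univ _)
                (fun y _ _ => by positivity)
      have h2 := hR w hw x l
      have h3 : (B.card : ℝ) * (δ / 4) ^ p * 2 ^ (r * m) ≤
          2 ^ l * E * Fintype.card (Fin l → X m r) :=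
        (mul_le_mul_of_nonneg_right h1 hN.le).trans h2
      have h4 : 2 ^ l * (8 * 4 ^ p * E) ≤ 2 ^ (r * m) * δ ^ p := by
        rw [ht, le_div_iff₀ (by positivity)] at hl1
        exact hl1
      have hM : (0 : ℝ) ≤ Fintype.card (Fin l → X m r) := Nat.cast_nonneg _
      have h5 : (δ / 4) ^ p * 4 ^ p = δ ^ p := by
        rw [← mul_pow]
        congr 1
        ring
      have h6 : (8 * (B.card : ℝ)) * (2 ^ (r * m) * δ ^ p) ≤
          Fintype.card (Fin l → X m r) * (2 ^ (r * m) * δ ^ p) := by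
        calc (8 * (B.card : ℝ)) * (2 ^ (r * m) * δ ^ p) =
              8 * 4 ^ p * ((B.card : ℝ) * (δ / 4) ^ p * 2 ^ (r * m)) := by
              rw [← h5]
              ring
          _ ≤ 8 * 4 ^ p * (2 ^ l * E * Fintype.card (Fin l → X m r)) :=
              mul_le_mul_of_nonneg_left h3 (by positivity)
          _ = Fintype.card (Fin l → X m r) * (2 ^ l * (8 * 4 ^ p * E)) := by ring
          _ ≤ _ := mul_le_mul_of_nonneg_left h4 hM
      have h7 := le_of_mul_le_mul_right h6 (by positivity)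
      exact_mod_cast h7)
  refine ⟨K, code, hK.trans (Real.exp_le_exp.2 ?_), hcode⟩
  have hlog : 0 ≤ Real.log (3 / δ) := by
    apply Real.log_nonneg
    rw [le_div_iff₀ hδ]
    linarith
  have hnn : (0 : ℝ) ≤ ((r * m : ℕ) : ℝ) := Nat.cast_nonneg _
  have hD : (0 : ℝ) ≤ (Dn m r f : ℝ) := Nat.cast_nonneg _
  have h8 : 8 * (Dn m r f : ℝ) / 2 ^ l ≤ 128 * 4 ^ p * Th m r f * (E / δ ^ p) := by
    have e1 : 128 * 4 ^ p * Th m r f * (E / δ ^ p) = 16 * (Dn m r f : ℝ) / t := by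
      have e2 : Th m r f = (Dn m r f : ℝ) / 2 ^ (r * m) := rfl
      rw [e2, ht]
      field_simp
      ring
    rw [e1, div_le_div_iff₀ (by positivity) htpos]
    have h9 : t ≤ 2 * 2 ^ l := by
      rw [pow_succ] at hl2
      linarith
    have h10 := mul_le_mul_of_nonneg_left h9 hD
    linarith
  have h11 : 4 * ((r * m : ℕ) : ℝ) * (8 * Dn m r f / 2 ^ l) * (((r * m : ℕ) : ℝ) + Real.log (3 / δ)) ≤
      4 * ((r * m : ℕ) : ℝ) * (128 * 4 ^ p * Th m r f * (E / δ ^ p)) *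
        (((r * m : ℕ) : ℝ) + Real.log (3 / δ)) := by
    refine mul_le_mul_of_nonneg_right (mul_le_mul_of_nonneg_left h8 (by positivity)) (by positivity)
  have e3 : 512 * 4 ^ p * ((r * m : ℕ) : ℝ) * Th m r f * (E / δ ^ p) *
          (((r * m : ℕ) : ℝ) + Real.log (3 / δ)) =
      4 * ((r * m : ℕ) : ℝ) * (128 * 4 ^ p * Th m r f * (E / δ ^ p)) *
        (((r * m : ℕ) : ℝ) + Real.log (3 / δ)) := by ring
  rw [e3]
  linarith

theorem code2 {m r f : ℕ} (hf : f ≤ m) (hn : 1 ≤ r * m) (E δ : ℝ) (hE : 1 ≤ E) (hδ : 0 < δ)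
    (hδ1 : δ ≤ 1) :
    ∃ (K : ℕ) (code : (X m r → ℝ) → Fin K),
      (K : ℝ) ≤ Real.exp (4 * ((r * m : ℕ) : ℝ) ^ 3 +
        8192 * ((r * m : ℕ) : ℝ) * Th m r f * (E / δ ^ 2) * (((r * m : ℕ) : ℝ) + Real.log (3 / δ))) ∧
      ∀ w w' : X m r → ℝ, IsW f w → IsW f w' → En w ≤ E → En w' ≤ E → code w = code w' →
        ∀ x, nrm (w x - w' x) ≤ δ := by
  obtain ⟨K, code, hK, hcode⟩ := c0_core hf hn δ hδ hδ1 2 E hE {w | IsW f w ∧ En w ≤ E}
    (fun w hw => hw.1) (fun w hw x l => by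
      simp only [sq_abs]
      refine (second w x).trans ?_
      exact mul_le_mul_of_nonneg_right (mul_le_mul_of_nonneg_left hw.2 (by positivity))
        (Nat.cast_nonneg _))
  refine ⟨K, code, hK.trans (le_of_eq ?_), fun w w' hw hw' h1 h2 h3 => hcode w ⟨hw, h1⟩ w' ⟨hw', h2⟩ h3⟩
  norm_num


theorem code1 {m r f : ℕ} (hf : f ≤ m) (hn : 1 ≤ r * m) (ℓ δ : ℝ) (hE : 1 ≤ ℓ) (hδ : 0 < δ)
    (hδ1 : δ ≤ 1) :
    ∃ (K : ℕ) (code : (X m r → ℝ) → Fin K),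
      (K : ℝ) ≤ Real.exp (4 * ((r * m : ℕ) : ℝ) ^ 3 +
        2048 * ((r * m : ℕ) : ℝ) * Th m r f * (ℓ / δ) * (((r * m : ℕ) : ℝ) + Real.log (3 / δ))) ∧
      ∀ w w' : X m r → ℝ, IsW f w → IsW f w' → L1 w ≤ ℓ → L1 w' ≤ ℓ → code w = code w' →
        ∀ x, nrm (w x - w' x) ≤ δ := by
  obtain ⟨K, code, hK, hcode⟩ := c0_core hf hn δ hδ hδ1 1 ℓ hE {w | IsW f w ∧ L1 w ≤ ℓ}
    (fun w hw => hw.1) (fun w hw x l => by
      simp only [pow_one]
      refine (first w x).trans ?_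
      exact mul_le_mul_of_nonneg_right (mul_le_mul_of_nonneg_left hw.2 (by positivity))
        (Nat.cast_nonneg _))
  refine ⟨K, code, hK.trans (le_of_eq ?_), fun w w' hw hw' h1 h2 h3 => hcode w ⟨hw, h1⟩ w' ⟨hw', h2⟩ h3⟩
  norm_num


end Crest.Agent.R63
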