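import Crest.Agent.R63.Defs

/-! ROW 63, module C (covering lemma): properties of nrm t = |t - round t|. -/

set_option autoImplicit false
open Finset

namespace Crest.Agent.R63

lemma nrm_nonneg (t : ℝ) : 0 ≤ nrm t := by
  unfold nrm
  exact abs_nonneg _

lemma nrm_le_half (t : ℝ) : nrm t ≤ 1 / 2 := by
  unfold nrm
  exact abs_sub_round t

/-- nrm is the distance to the nearest integer -/
lemma nrm_le_sub_int (t : ℝ) (k : ℤ) : nrm t ≤ |t - k| := by
  unfold nrm
  exact round_le t k

lemma nrm_le_abs (t : ℝ) : nrm t ≤ |t| := by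
  simpa using nrm_le_sub_int t 0

lemma nrm_add_int (t : ℝ) (k : ℤ) : nrm (t + k) = nrm t := by
  unfold nrm
  rw [round_add_intCast]
  push_cast
  congr 1
  ring

lemma nrm_neg (t : ℝ) : nrm (-t) = nrm t := by
  have h : ∀ s : ℝ, nrm (-s) ≤ nrm s := by
    intro s
    have h1 := nrm_le_sub_int (-s) (-(round s))
    have h2 : |-s - ((-(round s) : ℤ) : ℝ)| = nrm s := by
      unfold nrm
      rw [← abs_neg]
      congr 1
      push_cast
      ring
    rwa [h2] at h1
  refine le_antisymm (h t) ?_
  simpa using h (-t)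

lemma nrm_add_le (s t : ℝ) : nrm (s + t) ≤ nrm s + nrm t := by
  have h1 := nrm_le_sub_int (s + t) (round s + round t)
  have h2 : |s + t - ((round s + round t : ℤ) : ℝ)| ≤ nrm s + nrm t := by
    unfold nrm
    have : s + t - ((round s + round t : ℤ) : ℝ) = (s - round s) + (t - round t) := by
      push_cast
      ring
    rw [this]
    exact abs_add_le _ _
  exact h1.trans h2

lemma nrm_sub_le (s t : ℝ) : nrm (s - t) ≤ nrm s + nrm t := by
  rw [sub_eq_add_neg]
  have := nrm_add_le s (-t)
  rwa [nrm_neg] at this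

lemma nrm_of_abs_le (t : ℝ) (h : |t| ≤ 1 / 2) : nrm t = |t| := by
  refine le_antisymm (nrm_le_abs t) ?_
  unfold nrm
  by_cases h0 : round t = 0
  · rw [h0]; simp
  · have h1 : (1 : ℝ) ≤ |((round t : ℤ) : ℝ)| := by
      have := Int.one_le_abs h0
      exact_mod_cast this
    have h2 : |((round t : ℤ) : ℝ)| ≤ |t - round t| + |t| := by
      have : ((round t : ℤ) : ℝ) = -(t - round t) + t := by ring
      calc |((round t : ℤ) : ℝ)| = |-(t - round t) + t| := by rw [← this]
        _ ≤ |-(t - round t)| + |t| := abs_add_le _ _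
        _ = |t - round t| + |t| := by rw [abs_neg]
    linarith

lemma nrm_int_mul (k : ℤ) (t : ℝ) (hk : k = 1 ∨ k = -1) : nrm (k * t) = nrm t := by
  rcases hk with rfl | rfl
  · simp
  · simpa using nrm_neg t

end Crest.Agent.R63
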