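import Crest.Agent.R63.Chi
import Crest.Agent.R63.Ca

/-! ROW 63, module C (covering lemma): the operators T_y.  T_y chi_alpha = chi_alpha * prod_j (1 - chi_alpha(y_j)) = 2^l chi_alpha or 0
(sum over a of sgn a * chi alpha (comb a y) factorises: induction on l, or Finset.prod_univ_sum / Fintype.piFinset with
chi_add).  T_expand: expand_isW and linearity. -/

set_option autoImplicit false
open Finset

namespace Crest.Agent.R63

/-- linear combination over F_2 -/
def comb {m r l : ℕ} (a : Fin l → ZMod 2) (y : Fin l → X m r) : X m r := ∑ j, a j • y j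

/-- the sign of `a` -/
def sgn {l : ℕ} (a : Fin l → ZMod 2) : ℤ := sg (∑ j, a j)

noncomputable def T {m r l : ℕ} (y : Fin l → X m r) (w : X m r → ℝ) (x : X m r) : ℝ :=
  ∑ a : Fin l → ZMod 2, (sgn a : ℝ) * w (x + comb a y)

/-- the rest -/
noncomputable def Rr {m r l : ℕ} (y : Fin l → X m r) (w : X m r → ℝ) (x : X m r) : ℝ :=
  ∑ a ∈ univ.filter (fun a : Fin l → ZMod 2 => a ≠ 0),
    (sgn a : ℝ) * (w (x + comb a y) - round (w (x + comb a y)))

def AY {m r l : ℕ} (f : ℕ) (y : Fin l → X m r) : Finset (X m r) :=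
  (AA m r f).filter fun α => ∀ j, chi α (y j) = -1

private lemma cb_sg_sum {ι : Type} (s : Finset ι) (f : ι → ZMod 2) :
    sg (∑ i ∈ s, f i) = ∏ i ∈ s, sg (f i) := by
  classical
  induction s using Finset.induction_on with
  | empty => simp [sg]
  | insert a s ha ih => rw [Finset.sum_insert ha, Finset.prod_insert ha, sg_add, ih]

private lemma cb_chi_zero {m r : ℕ} (α : X m r) : chi α 0 = 1 := by
  unfold chi sg
  simp

private lemma cb_chi_sum {m r : ℕ} {ι : Type} (α : X m r) (s : Finset ι) (f : ι → X m r) :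
    chi α (∑ i ∈ s, f i) = ∏ i ∈ s, chi α (f i) := by
  classical
  induction s using Finset.induction_on with
  | empty => simp [cb_chi_zero]
  | insert a s ha ih => rw [Finset.sum_insert ha, Finset.prod_insert ha, chi_add, ih]

private lemma cb_factor {m r l : ℕ} (y : Fin l → X m r) (α : X m r) :
    ∑ a : Fin l → ZMod 2, sgn a * chi α (comb a y) = ∏ j, (1 - chi α (y j)) := by
  classical
  have h1 : ∀ a : Fin l → ZMod 2, sgn a * chi α (comb a y)
      = ∏ j, (sg (a j) * chi α (a j • y j)) := by
    intro a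
    unfold sgn comb
    rw [cb_sg_sum, cb_chi_sum, ← Finset.prod_mul_distrib]
  rw [Finset.sum_congr rfl fun a _ => h1 a]
  have h2 : ∀ j, (1 - chi α (y j)) = ∑ t : ZMod 2, sg t * chi α (t • y j) := by
    intro j
    have h3 : (univ : Finset (ZMod 2)) = {0, 1} := by decide
    rw [h3, Finset.sum_pair (by decide)]
    rw [zero_smul, one_smul, cb_chi_zero]
    simp [sg]
    ring
  rw [Finset.prod_congr rfl fun j _ => h2 j, Finset.prod_univ_sum]
  rw [Fintype.piFinset_univ]

lemma T_chi {m r l : ℕ} (y : Fin l → X m r) (α x : X m r) :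
    T y (fun x => (chi α x : ℝ)) x = if (∀ j, chi α (y j) = -1) then 2 ^ l * (chi α x : ℝ) else 0 := by
  classical
  have h1 : T y (fun x => (chi α x : ℝ)) x
      = (chi α x : ℝ) * ((∏ j, (1 - chi α (y j)) : ℤ) : ℝ) := by
    rw [← cb_factor]
    unfold T
    push_cast
    rw [Finset.mul_sum]
    refine Finset.sum_congr rfl fun a _ => ?_
    rw [chi_add]
    push_cast
    ring
  rw [h1]
  split_ifs with h
  · have : ∏ j, (1 - chi α (y j)) = 2 ^ l := by
      rw [Finset.prod_congr rfl fun j _ => by rw [h j]]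
      simp
    rw [this]
    push_cast
    ring
  · push Not at h
    obtain ⟨j, hj⟩ := h
    have hj1 : chi α (y j) = 1 := (chi_or α (y j)).resolve_right hj
    have : ∏ j, (1 - chi α (y j)) = 0 := by
      refine Finset.prod_eq_zero (mem_univ j) ?_
      rw [hj1]; norm_num
    rw [this]
    simp

lemma T_expand {m r l f : ℕ} (hf : f ≤ m) (y : Fin l → X m r) (w : X m r → ℝ) (hw : IsW f w) (x : X m r) :
    T y w x = ∑ α ∈ AY f y, (2 ^ l * coef w α) * chi α x := by
  classical
  have h1 : T y w x = ∑ α ∈ AA m r f, coef w α * T y (fun x => (chi α x : ℝ)) x := by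
    unfold T
    rw [Finset.sum_congr rfl fun a _ => by rw [expand_isW hf w hw (x + comb a y)]]
    simp only [Finset.mul_sum]
    rw [Finset.sum_comm]
    refine Finset.sum_congr rfl fun α _ => Finset.sum_congr rfl fun a _ => ?_
    ring
  rw [h1]
  unfold AY
  rw [Finset.sum_filter]
  refine Finset.sum_congr rfl fun α _ => ?_
  rw [T_chi]
  split_ifs with h
  · ring
  · ring

end Crest.Agent.R63
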