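import Crest.Agent.R63.Cb

/-! ROW 63, module C (covering lemma): w x = T y w x - sum_{a != 0} sgn a * w(x + comb a y), the sum is R + integer; comb 0 y = 0, sgn 0 = 1. -/

set_option autoImplicit false
open Finset

namespace Crest.Agent.R63

lemma nrm_sub_T {m r l : ℕ} (y : Fin l → X m r) (w : X m r → ℝ) (x : X m r) :
    nrm (w x - T y w x) ≤ |Rr y w x| := by
  have hc : comb (0 : Fin l → ZMod 2) y = 0 := by
    unfold comb
    simp
  have hs : sgn (0 : Fin l → ZMod 2) = 1 := by
    unfold sgn sg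
    simp
  have hT : T y w x = w x + ∑ a ∈ univ.filter (fun a : Fin l → ZMod 2 => a ≠ 0),
      (sgn a : ℝ) * w (x + comb a y) := by
    unfold T
    rw [← Finset.sum_filter_add_sum_filter_not univ (fun a : Fin l → ZMod 2 => a ≠ 0), add_comm]
    congr 1
    have : univ.filter (fun a : Fin l → ZMod 2 => ¬ a ≠ 0) = {0} := by
      ext a
      simp
    rw [this, Finset.sum_singleton, hc, hs, add_zero, Int.cast_one, one_mul]
  have hk : w x - T y w x = -Rr y w x -
      ((∑ a ∈ univ.filter (fun a : Fin l → ZMod 2 => a ≠ 0), sgn a * round (w (x + comb a y)) : ℤ) : ℝ) := by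
    rw [hT]
    unfold Rr
    push_cast
    simp only [mul_sub, Finset.sum_sub_distrib]
    ring
  rw [hk]
  refine (nrm_le_sub_int _ (-(∑ a ∈ univ.filter (fun a : Fin l → ZMod 2 => a ≠ 0),
    sgn a * round (w (x + comb a y))))).trans (le_of_eq ?_)
  rw [Int.cast_neg, sub_sub, add_neg_cancel, sub_zero, abs_neg]

lemma Rr_zero {m r : ℕ} (y : Fin 0 → X m r) (w : X m r → ℝ) (x : X m r) : Rr y w x = 0 := by
  unfold Rr
  refine Finset.sum_eq_zero ?_
  intro a ha
  exact absurd (Subsingleton.elim a 0) (Finset.mem_filter.1 ha).2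

end Crest.Agent.R63
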