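import Crest.Agent.R63.Cb

/-! ROW 63, module C (covering lemma): uniform distribution: for a != 0 the map y -> comb a y is uniform on X (sum_unif); for a != a', both nonzero, the
pair (comb a y, comb a' y) is uniform on X x X (sum_unif2; a, a' are linearly independent over F_2: pick j with
a j = 1 and, after swapping the roles of a, a', a j' = 0, a' j' = 1 ... or translate y by a vector in coordinate j, j').
second: with g x = w x - round (w x), |g| = nrm: sum_y R^2 = sum_{a,a' != 0} sgn a sgn a' sum_y g(x+comb a y) g(x+comb a' y)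
= N^l * [ (2^l-1) En/N + mu^2 ((sum_{a != 0} sgn a)^2 - (2^l - 1)) ], mu = (sum g)/N, mu^2 <= En/N, sum_{a != 0} sgn a = -1 (l >= 1).
Here N^l = card (Fin l -> X m r). -/

set_option autoImplicit false
open Finset

namespace Crest.Agent.R63

private lemma cd_comb_add {m r l : ℕ} (a : Fin l → ZMod 2) (y z : Fin l → X m r) :
    comb a (y + z) = comb a y + comb a z := by
  unfold comb
  rw [← Finset.sum_add_distrib]
  refine Finset.sum_congr rfl fun j _ => ?_
  rw [Pi.add_apply, smul_add]

private lemma cd_comb_single {m r l : ℕ} (a : Fin l → ZMod 2) (j : Fin l) (x : X m r) :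
    comb a (Pi.single j x : Fin l → X m r) = a j • x := by
  unfold comb
  rw [Finset.sum_eq_single j]
  · rw [Pi.single_eq_same]
  · intro i _ hij
    rw [Pi.single_eq_of_ne hij, smul_zero]
  · intro h
    exact absurd (Finset.mem_univ j) h

private lemma cd_zmod (t : ZMod 2) : t = 0 ∨ t = 1 := by
  revert t
  decide

private lemma cd_cardX {m r : ℕ} : (2 : ℝ) ^ (r * m) = (Fintype.card (X m r) : ℝ) := by
  rw [card_X]
  push_cast
  rfl

lemma sum_unif {m r l : ℕ} (a : Fin l → ZMod 2) (ha : a ≠ 0) (g : X m r → ℝ) :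
    (∑ y : Fin l → X m r, g (comb a y)) * 2 ^ (r * m) =
      (∑ x, g x) * Fintype.card (Fin l → X m r) := by
  obtain ⟨j, hj⟩ : ∃ j, a j ≠ 0 := by
    by_contra hcon
    push Not at hcon
    exact ha (funext hcon)
  have hj1 : a j = 1 := (cd_zmod (a j)).resolve_left hj
  have h1 : ∀ x : X m r, ∑ y : Fin l → X m r, g (comb a y) =
      ∑ y : Fin l → X m r, g (comb a y + x) := by
    intro x
    rw [← Equiv.sum_comp (Equiv.addRight (Pi.single j x : Fin l → X m r))]
    refine Finset.sum_congr rfl fun y _ => ?_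
    have e1 : (Equiv.addRight (Pi.single j x : Fin l → X m r)) y = y + Pi.single j x := rfl
    rw [e1, cd_comb_add, cd_comb_single, hj1, one_smul]
  have h2 : ∑ _x : X m r, ∑ y : Fin l → X m r, g (comb a y) =
      ∑ x : X m r, ∑ y : Fin l → X m r, g (comb a y + x) :=
    Finset.sum_congr rfl fun x _ => h1 x
  rw [Finset.sum_const, Finset.card_univ, nsmul_eq_mul, Finset.sum_comm] at h2
  have h3 : ∀ y : Fin l → X m r, ∑ x : X m r, g (comb a y + x) = ∑ x : X m r, g x := fun y =>
    Equiv.sum_comp (Equiv.addLeft (comb a y)) g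
  rw [Finset.sum_congr rfl fun y _ => h3 y, Finset.sum_const, Finset.card_univ, nsmul_eq_mul] at h2
  rw [cd_cardX, mul_comm, h2, mul_comm]

private lemma cd_unif2_aux {m r l : ℕ} (a b : Fin l → ZMod 2)
    (hz : ∀ x x' : X m r, ∃ z : Fin l → X m r, comb a z = x ∧ comb b z = x')
    (g h : X m r → ℝ) :
    (∑ y : Fin l → X m r, g (comb a y) * h (comb b y)) * (2 ^ (r * m) * 2 ^ (r * m)) =
      (∑ x, g x) * (∑ x, h x) * Fintype.card (Fin l → X m r) := by
  have h1 : ∀ x x' : X m r, ∑ y : Fin l → X m r, g (comb a y) * h (comb b y) =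
      ∑ y : Fin l → X m r, g (comb a y + x) * h (comb b y + x') := by
    intro x x'
    obtain ⟨z, hz1, hz2⟩ := hz x x'
    rw [← Equiv.sum_comp (Equiv.addRight z)]
    refine Finset.sum_congr rfl fun y _ => ?_
    have e1 : (Equiv.addRight z) y = y + z := rfl
    rw [e1, cd_comb_add, cd_comb_add, hz1, hz2]
  have h2 : ∑ _x : X m r, ∑ _x' : X m r, ∑ y : Fin l → X m r, g (comb a y) * h (comb b y) =
      ∑ x : X m r, ∑ x' : X m r, ∑ y : Fin l → X m r, g (comb a y + x) * h (comb b y + x') :=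
    Finset.sum_congr rfl fun x _ => Finset.sum_congr rfl fun x' _ => h1 x x'
  have h3 : ∑ x : X m r, ∑ x' : X m r, ∑ y : Fin l → X m r, g (comb a y + x) * h (comb b y + x') =
      ∑ y : Fin l → X m r, (∑ x, g x) * ∑ x, h x := by
    have e1 : ∑ x : X m r, ∑ x' : X m r, ∑ y : Fin l → X m r,
        g (comb a y + x) * h (comb b y + x') =
        ∑ y : Fin l → X m r, ∑ x : X m r, ∑ x' : X m r, g (comb a y + x) * h (comb b y + x') := by
      calc _ = ∑ x : X m r, ∑ y : Fin l → X m r, ∑ x' : X m r,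
            g (comb a y + x) * h (comb b y + x') := Finset.sum_congr rfl fun x _ => Finset.sum_comm
        _ = _ := Finset.sum_comm
    rw [e1]
    refine Finset.sum_congr rfl fun y _ => ?_
    rw [← Finset.sum_mul_sum]
    congr 1
    · exact Equiv.sum_comp (Equiv.addLeft (comb a y)) g
    · exact Equiv.sum_comp (Equiv.addLeft (comb b y)) h
  rw [h3] at h2
  simp only [Finset.sum_const, Finset.card_univ, nsmul_eq_mul] at h2
  rw [cd_cardX]
  linarith

lemma sum_unif2 {m r l : ℕ} (a b : Fin l → ZMod 2) (ha : a ≠ 0) (hb : b ≠ 0) (hab : a ≠ b)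
    (g h : X m r → ℝ) :
    (∑ y : Fin l → X m r, g (comb a y) * h (comb b y)) * (2 ^ (r * m) * 2 ^ (r * m)) =
      (∑ x, g x) * (∑ x, h x) * Fintype.card (Fin l → X m r) := by
  -- one-sided construction
  have key : ∀ a b : Fin l → ZMod 2, b ≠ 0 → (∃ j, a j = 1 ∧ b j = 0) →
      ∀ x x' : X m r, ∃ z : Fin l → X m r, comb a z = x ∧ comb b z = x' := by
    rintro a b hb ⟨j, haj, hbj⟩ x x'
    obtain ⟨k, hk⟩ : ∃ k, b k ≠ 0 := by
      by_contra hcon
      push Not at hcon
      exact hb (funext hcon)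
    have hk1 : b k = 1 := (cd_zmod (b k)).resolve_left hk
    refine ⟨Pi.single j (x - a k • x') + Pi.single k x', ?_, ?_⟩
    · rw [cd_comb_add, cd_comb_single, cd_comb_single, haj, one_smul, sub_add_cancel]
    · rw [cd_comb_add, cd_comb_single, cd_comb_single, hbj, hk1, zero_smul, one_smul, zero_add]
  refine cd_unif2_aux a b ?_ g h
  obtain ⟨j, hj⟩ : ∃ j, a j ≠ b j := by
    by_contra hcon
    push Not at hcon
    exact hab (funext hcon)
  intro x x'
  rcases cd_zmod (a j) with haj | haj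
  · have hbj : b j = 1 := (cd_zmod (b j)).resolve_left (fun h0 => hj (haj.trans h0.symm))
    obtain ⟨z, hz1, hz2⟩ := key b a ha ⟨j, hbj, haj⟩ x' x
    exact ⟨z, hz2, hz1⟩
  · have hbj : b j = 0 := by
      rcases cd_zmod (b j) with h0 | h0
      · exact h0
      · exact absurd (haj.trans h0.symm) hj
    exact key a b hb ⟨j, haj, hbj⟩ x x'

lemma sum_sgn {l : ℕ} (hl : 1 ≤ l) : ∑ a : Fin l → ZMod 2, sgn a = 0 := by
  have h1 : ∑ a : Fin l → ZMod 2, sgn a = ∑ a : Fin l → ZMod 2, -sgn a := by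
    rw [← Equiv.sum_comp (Equiv.addRight (Pi.single (⟨0, hl⟩ : Fin l) 1 : Fin l → ZMod 2))]
    refine Finset.sum_congr rfl fun a _ => ?_
    have e1 : (Equiv.addRight (Pi.single (⟨0, hl⟩ : Fin l) 1 : Fin l → ZMod 2)) a =
        a + Pi.single (⟨0, hl⟩ : Fin l) 1 := rfl
    rw [e1]
    unfold sgn
    simp only [Pi.add_apply]
    rw [Finset.sum_add_distrib, sg_add]
    have e2 : ∑ j, (Pi.single (⟨0, hl⟩ : Fin l) 1 : Fin l → ZMod 2) j = 1 := by
      rw [Finset.sum_pi_single']
      simp
    rw [e2]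
    have e3 : sg 1 = -1 := by decide
    rw [e3]
    ring
  rw [Finset.sum_neg_distrib] at h1
  omega

end Crest.Agent.R63
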