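import Crest.Agent.R63.Cc
import Crest.Agent.R63.Cd

/-! ROW 63, module C (covering lemma): moments of the rest, see the header of Cd.lean.  first: |R| <= sum_{a != 0} nrm(w(x + comb a y)). -/

set_option autoImplicit false
open Finset

namespace Crest.Agent.R63

private lemma sgn_sq {l : ℕ} (a : Fin l → ZMod 2) : (sgn a : ℝ) * (sgn a : ℝ) = 1 := by
  unfold sgn sg
  split_ifs <;> norm_num

private lemma abs_sgn {l : ℕ} (a : Fin l → ZMod 2) : |(sgn a : ℝ)| = 1 := by
  unfold sgn sg
  split_ifs <;> norm_num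

private lemma sum_En {m r : ℕ} (w : X m r → ℝ) (x : X m r) :
    ∑ z, (w (x + z) - round (w (x + z))) * (w (x + z) - round (w (x + z))) = En w := by
  unfold En
  rw [← Equiv.sum_comp (Equiv.addLeft x) (fun z => nrm (w z) ^ 2)]
  refine Finset.sum_congr rfl fun z _ => ?_
  rw [Equiv.coe_addLeft]
  unfold nrm
  rw [sq_abs]
  ring

private lemma sum_L1 {m r : ℕ} (w : X m r → ℝ) (x : X m r) :
    ∑ z, |w (x + z) - round (w (x + z))| = L1 w := by
  unfold L1
  rw [← Equiv.sum_comp (Equiv.addLeft x) (fun z => nrm (w z))]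
  rfl

private lemma sum_sq_expand {Y A : Type} [Fintype Y] (S : Finset A) (s : A → ℝ) (G : A → Y → ℝ) :
    ∑ y, (∑ a ∈ S, s a * G a y) ^ 2 = ∑ a ∈ S, ∑ b ∈ S, s a * s b * ∑ y, G a y * G b y := by
  simp_rw [sq, Finset.sum_mul_sum]
  rw [Finset.sum_comm]
  refine Finset.sum_congr rfl fun a _ => ?_
  rw [Finset.sum_comm]
  refine Finset.sum_congr rfl fun b _ => ?_
  rw [Finset.mul_sum]
  refine Finset.sum_congr rfl fun y _ => ?_
  ring

private lemma card_S_le (l : ℕ) :
    (((univ : Finset (Fin l → ZMod 2)).filter (fun a => a ≠ 0)).card : ℝ) ≤ 2 ^ l := by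
  have h : ((univ : Finset (Fin l → ZMod 2)).filter (fun a => a ≠ 0)).card ≤ 2 ^ l := by
    refine (Finset.card_le_card (Finset.filter_subset _ _)).trans ?_
    rw [Finset.card_univ]
    simp
  exact_mod_cast h

lemma second {m r l : ℕ} (w : X m r → ℝ) (x : X m r) :
    (∑ y : Fin l → X m r, (Rr y w x) ^ 2) * 2 ^ (r * m) ≤
      2 ^ l * En w * Fintype.card (Fin l → X m r) := by
  have hEn : 0 ≤ En w := Finset.sum_nonneg fun _ _ => sq_nonneg _
  have hN : (0 : ℝ) < 2 ^ (r * m) := by positivity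
  set g : X m r → ℝ := fun z => w (x + z) - round (w (x + z)) with hg
  set S := (univ : Finset (Fin l → ZMod 2)).filter (fun a => a ≠ 0) with hS
  set c : ℝ := (Fintype.card (Fin l → X m r) : ℝ) with hc
  have hc0 : 0 ≤ c := Nat.cast_nonneg _
  rcases Nat.eq_zero_or_pos l with hl | hl
  · subst hl
    have h0 : ∀ y : Fin 0 → X m r, Rr y w x = 0 := fun y => Rr_zero y w x
    simp only [h0]
    simp only [ne_eq, OfNat.ofNat_ne_zero, not_false_eq_true, zero_pow, Finset.sum_const_zero,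
      zero_mul]
    positivity
  · have hR : ∀ y : Fin l → X m r, Rr y w x = ∑ a ∈ S, (sgn a : ℝ) * g (comb a y) := fun y => rfl
    set N : ℝ := 2 ^ (r * m) with hNdef
    set μ : ℝ := ∑ z, g z with hμ
    have hpair : ∀ a ∈ S, ∀ b ∈ S, ((sgn a : ℝ) * (sgn b : ℝ) *
        ∑ y : Fin l → X m r, g (comb a y) * g (comb b y)) * (N * N) =
        (sgn a : ℝ) * (sgn b : ℝ) * (μ ^ 2 * c) +
          (if a = b then (En w * N * c - μ ^ 2 * c) else 0) := by
      intro a ha b hb
      have ha0 : a ≠ 0 := (Finset.mem_filter.1 ha).2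
      have hb0 : b ≠ 0 := (Finset.mem_filter.1 hb).2
      by_cases hab : a = b
      · subst hab
        have h1 := sum_unif a ha0 (fun z => g z * g z)
        have h2 : ∑ z, g z * g z = En w := sum_En w x
        rw [h2] at h1
        rw [if_pos rfl, sgn_sq]
        have h3 : (∑ y : Fin l → X m r, g (comb a y) * g (comb a y)) * N = En w * c := h1
        calc _ = (∑ y : Fin l → X m r, g (comb a y) * g (comb a y)) * N * N := by ring
          _ = _ := by rw [h3]; ring
      · have h1 := sum_unif2 a b ha0 hb0 hab g g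
        rw [if_neg hab, add_zero, mul_assoc, h1]
        ring
    have hsum : (∑ y : Fin l → X m r, (Rr y w x) ^ 2) * (N * N) =
        (∑ a ∈ S, (sgn a : ℝ)) ^ 2 * (μ ^ 2 * c) + (S.card : ℝ) * (En w * N * c - μ ^ 2 * c) := by
      simp only [hR]
      rw [sum_sq_expand, Finset.sum_mul]
      have h1 : ∀ a ∈ S, (∑ b ∈ S, (sgn a : ℝ) * (sgn b : ℝ) *
          ∑ y : Fin l → X m r, g (comb a y) * g (comb b y)) * (N * N) =
          (sgn a : ℝ) * (∑ b ∈ S, (sgn b : ℝ)) * (μ ^ 2 * c) + (En w * N * c - μ ^ 2 * c) := by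
        intro a ha
        rw [Finset.sum_mul, Finset.sum_congr rfl (hpair a ha), Finset.sum_add_distrib,
          Finset.sum_ite_eq, if_pos ha, ← Finset.sum_mul, Finset.mul_sum]
      rw [Finset.sum_congr rfl h1, Finset.sum_add_distrib, Finset.sum_const, nsmul_eq_mul,
        ← Finset.sum_mul, ← Finset.sum_mul]
      ring
    have hsgn : ∑ a ∈ S, (sgn a : ℝ) = -1 := by
      have h1 : ((∑ a : Fin l → ZMod 2, sgn a : ℤ) : ℝ) = 0 := by rw [sum_sgn hl]; norm_num
      push_cast at h1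
      have h2 : S = univ.erase 0 := by rw [hS, Finset.filter_ne']
      have h3 : ((sgn (0 : Fin l → ZMod 2) : ℤ) : ℝ) = 1 := by
        unfold sgn sg
        simp
      rw [← Finset.add_sum_erase _ _ (Finset.mem_univ (0 : Fin l → ZMod 2)), h3] at h1
      rw [h2]
      linarith
    have hcard1 : (1 : ℝ) ≤ S.card := by
      have : 0 < S.card := by
        rw [Finset.card_pos]
        refine ⟨fun _ => 1, Finset.mem_filter.2 ⟨Finset.mem_univ _, fun h => ?_⟩⟩
        exact absurd (congrFun h ⟨0, hl⟩) (by simp)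
      exact_mod_cast this
    have hcard2 : (S.card : ℝ) ≤ 2 ^ l := card_S_le l
    rw [hsgn] at hsum
    have h4 : (∑ y : Fin l → X m r, (Rr y w x) ^ 2) * N * N ≤ (2 ^ l * En w * c) * N := by
      have h5 : (∑ y : Fin l → X m r, (Rr y w x) ^ 2) * N * N =
          S.card * (En w * N * c) - (S.card - 1) * (μ ^ 2 * c) := by
        rw [mul_assoc, hsum]; ring
      rw [h5]
      have h6 : 0 ≤ ((S.card : ℝ) - 1) * (μ ^ 2 * c) := by
        refine mul_nonneg (by linarith) (by positivity)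
      have h7 : (S.card : ℝ) * (En w * N * c) ≤ 2 ^ l * (En w * N * c) :=
        mul_le_mul_of_nonneg_right hcard2 (by positivity)
      nlinarith [h6, h7]
    exact le_of_mul_le_mul_right h4 hN

lemma first {m r l : ℕ} (w : X m r → ℝ) (x : X m r) :
    (∑ y : Fin l → X m r, |Rr y w x|) * 2 ^ (r * m) ≤
      2 ^ l * L1 w * Fintype.card (Fin l → X m r) := by
  have hL : 0 ≤ L1 w := Finset.sum_nonneg fun _ _ => abs_nonneg _
  have hN : (0 : ℝ) < 2 ^ (r * m) := by positivity
  set g : X m r → ℝ := fun z => |w (x + z) - round (w (x + z))| with hg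
  set S := (univ : Finset (Fin l → ZMod 2)).filter (fun a => a ≠ 0) with hS
  set c : ℝ := (Fintype.card (Fin l → X m r) : ℝ) with hc
  have hc0 : 0 ≤ c := Nat.cast_nonneg _
  have h1 : ∀ y : Fin l → X m r, |Rr y w x| ≤ ∑ a ∈ S, g (comb a y) := by
    intro y
    refine (Finset.abs_sum_le_sum_abs _ _).trans (Finset.sum_le_sum fun a _ => ?_)
    rw [abs_mul, abs_sgn, one_mul]
  have h2 : ∀ a ∈ S, (∑ y : Fin l → X m r, g (comb a y)) * 2 ^ (r * m) = L1 w * c := by
    intro a ha
    have h3 := sum_unif a (Finset.mem_filter.1 ha).2 g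
    rw [h3, sum_L1 w x]
  calc (∑ y : Fin l → X m r, |Rr y w x|) * 2 ^ (r * m)
      ≤ (∑ y : Fin l → X m r, ∑ a ∈ S, g (comb a y)) * 2 ^ (r * m) :=
        mul_le_mul_of_nonneg_right (Finset.sum_le_sum fun y _ => h1 y) hN.le
    _ = ∑ a ∈ S, (∑ y : Fin l → X m r, g (comb a y)) * 2 ^ (r * m) := by
        rw [Finset.sum_comm, Finset.sum_mul]
    _ = S.card * (L1 w * c) := by
        rw [Finset.sum_congr rfl h2, Finset.sum_const, nsmul_eq_mul]
    _ ≤ 2 ^ l * (L1 w * c) := mul_le_mul_of_nonneg_right (card_S_le l) (by positivity)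
    _ = _ := by ring

end Crest.Agent.R63
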