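import Crest.Agent.R63.Ce
import Crest.Agent.R63.Cf

/-! ROW 63, module C (covering lemma): PROOF: l with 2 D < 2^l <= 4 D (D >= 1; if D = 0 then w = 0 by expand_isW).  For each x there is y with AY f y = empty
(fraction of the others <= D/2^l < 1/2) and |Rr y w x| < delta (fraction of the others <= 2^l En/(N delta^2) <= 1/2, Chebyshev
with `second`); then T y w x = 0 (T_expand) and nrm_sub_T.  sup1: Markov with `first`. -/

set_option autoImplicit false
open Finset

namespace Crest.Agent.R63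

private lemma cg_core {m r f : ℕ} (hf : f ≤ m) (w : X m r → ℝ) (hw : IsW f w) (δ : ℝ) (hδ : 0 < δ)
    (x : X m r) (p : ℕ) (E : ℝ) (hE : 0 ≤ E)
    (hR : ∀ l : ℕ, (∑ y : Fin l → X m r, |Rr y w x| ^ p) * 2 ^ (r * m) ≤
      2 ^ l * E * Fintype.card (Fin l → X m r))
    (h : 8 * (Dn m r f : ℝ) * E < δ ^ p * 2 ^ (r * m)) : nrm (w x) < δ := by
  classical
  rcases Nat.eq_zero_or_pos (Dn m r f) with hD | hD
  · have h0 : w x = 0 := by
      rw [expand_isW hf w hw x, Finset.card_eq_zero.1 hD, Finset.sum_empty]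
    rw [h0]
    exact lt_of_le_of_lt (nrm_le_abs 0) (by simpa using hδ)
  · obtain ⟨l, hl1, hl2⟩ : ∃ l : ℕ, 2 * Dn m r f < 2 ^ l ∧ 2 ^ l ≤ 4 * Dn m r f := by
      refine ⟨Nat.log 2 (2 * Dn m r f) + 1, Nat.lt_pow_succ_log_self (by norm_num) _, ?_⟩
      have := Nat.pow_log_le_self 2 (x := 2 * Dn m r f) (by omega)
      rw [pow_succ]
      omega
    set M : ℕ := Fintype.card (Fin l → X m r) with hM
    have hMpos : 0 < M := Fintype.card_pos
    have hMr : (0 : ℝ) < M := by exact_mod_cast hMpos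
    have hN : (0 : ℝ) < 2 ^ (r * m) := by positivity
    have hδp : 0 < δ ^ p := pow_pos hδ p
    -- the first bad set
    set B1 : Finset (Fin l → X m r) := univ.filter fun y => AY f y ≠ ∅ with hB1
    set B2 : Finset (Fin l → X m r) := univ.filter fun y => δ ≤ |Rr y w x| with hB2
    have h1 : 2 * B1.card < M := by
      have h2 := sum_AY (m := m) (r := r) (l := l) hf
      have h3 : B1.card ≤ ∑ y : Fin l → X m r, (AY f y).card := by
        rw [hB1, Finset.card_filter]
        refine Finset.sum_le_sum fun y _ => ?_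
        split_ifs with hy
        · exact Finset.card_pos.2 (Finset.nonempty_iff_ne_empty.2 hy)
        · exact Nat.zero_le _
      have h4 : B1.card * 2 ^ l ≤ Dn m r f * M := by
        rw [← h2]
        exact Nat.mul_le_mul_right _ h3
      by_contra hcon
      push Not at hcon
      have h5 : M * 2 ^ l ≤ 2 * (Dn m r f * M) := by
        calc M * 2 ^ l ≤ 2 * B1.card * 2 ^ l := Nat.mul_le_mul_right _ hcon
          _ = 2 * (B1.card * 2 ^ l) := by ring
          _ ≤ 2 * (Dn m r f * M) := Nat.mul_le_mul_left _ h4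
      have h6 : M * (2 * Dn m r f) < M * 2 ^ l := Nat.mul_lt_mul_of_pos_left hl1 hMpos
      have h7 : 2 * (Dn m r f * M) = M * (2 * Dn m r f) := by ring
      omega
    have h2 : 2 * (B2.card : ℝ) < M := by
      have h3 : (B2.card : ℝ) * δ ^ p ≤ ∑ y : Fin l → X m r, |Rr y w x| ^ p := by
        calc (B2.card : ℝ) * δ ^ p = ∑ y ∈ B2, δ ^ p := by rw [Finset.sum_const, nsmul_eq_mul]
          _ ≤ ∑ y ∈ B2, |Rr y w x| ^ p := by
              refine Finset.sum_le_sum fun y hy => ?_
              exact pow_le_pow_left₀ hδ.le (Finset.mem_filter.1 hy).2 p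
          _ ≤ ∑ y : Fin l → X m r, |Rr y w x| ^ p :=
              Finset.sum_le_sum_of_subset_of_nonneg (Finset.subset_univ _)
                (fun y _ _ => by positivity)
      have h4 : (2 : ℝ) ^ l ≤ 4 * Dn m r f := by exact_mod_cast hl2
      have h5 : (B2.card : ℝ) * δ ^ p * 2 ^ (r * m) ≤ 4 * Dn m r f * E * M := by
        calc (B2.card : ℝ) * δ ^ p * 2 ^ (r * m)
            ≤ (∑ y : Fin l → X m r, |Rr y w x| ^ p) * 2 ^ (r * m) :=
              mul_le_mul_of_nonneg_right h3 hN.le
          _ ≤ 2 ^ l * E * M := hR l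
          _ ≤ 4 * Dn m r f * E * M := by gcongr
      by_contra hcon
      push Not at hcon
      have h6 : (M : ℝ) * (δ ^ p * 2 ^ (r * m)) ≤ 2 * (B2.card : ℝ) * (δ ^ p * 2 ^ (r * m)) :=
        mul_le_mul_of_nonneg_right hcon (by positivity)
      have h7 : (M : ℝ) * (8 * Dn m r f * E) < M * (δ ^ p * 2 ^ (r * m)) :=
        mul_lt_mul_of_pos_left h hMr
      have h8 : 2 * ((B2.card : ℝ) * δ ^ p * 2 ^ (r * m)) ≤ 2 * (4 * Dn m r f * E * M) := by linarith
      nlinarith
    obtain ⟨y, hy1, hy2⟩ : ∃ y : Fin l → X m r, y ∉ B1 ∧ y ∉ B2 := by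
      by_contra hcon
      push Not at hcon
      have h3 : (univ : Finset (Fin l → X m r)) ⊆ B1 ∪ B2 := by
        intro y _
        rw [Finset.mem_union]
        by_cases hy : y ∈ B1
        · exact Or.inl hy
        · exact Or.inr (hcon y hy)
      have h4 := (Finset.card_le_card h3).trans (Finset.card_union_le _ _)
      rw [Finset.card_univ, ← hM] at h4
      have h5 : (2 : ℝ) * B1.card < M := by exact_mod_cast h1
      have h6 : (M : ℝ) ≤ B1.card + B2.card := by exact_mod_cast h4
      linarith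
    have hAY : AY f y = ∅ := by
      by_contra hne
      exact hy1 (Finset.mem_filter.2 ⟨Finset.mem_univ _, hne⟩)
    have hRr : |Rr y w x| < δ := by
      by_contra hge
      exact hy2 (Finset.mem_filter.2 ⟨Finset.mem_univ _, not_lt.1 hge⟩)
    have hT : T y w x = 0 := by
      rw [T_expand hf y w hw x, hAY, Finset.sum_empty]
    have := nrm_sub_T y w x
    rw [hT, sub_zero] at this
    exact this.trans_lt hRr

theorem sup2 {m r f : ℕ} (hf : f ≤ m) (w : X m r → ℝ) (hw : IsW f w) (δ : ℝ) (hδ : 0 < δ)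
    (h : 8 * (Dn m r f : ℝ) * En w < δ ^ 2 * 2 ^ (r * m)) : ∀ x, nrm (w x) < δ := by
  intro x
  refine cg_core hf w hw δ hδ x 2 (En w) (Finset.sum_nonneg fun x _ => sq_nonneg _) ?_ h
  intro l
  simp only [sq_abs]
  exact second w x

theorem sup1 {m r f : ℕ} (hf : f ≤ m) (w : X m r → ℝ) (hw : IsW f w) (δ : ℝ) (hδ : 0 < δ)
    (h : 8 * (Dn m r f : ℝ) * L1 w < δ * 2 ^ (r * m)) : ∀ x, nrm (w x) < δ := by
  intro x
  refine cg_core hf w hw δ hδ x 1 (L1 w) (Finset.sum_nonneg fun x _ => nrm_nonneg _) ?_ (by simpa using h)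
  intro l
  simp only [pow_one]
  exact first w x

end Crest.Agent.R63
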