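import Crest.Agent.R63.Defs

/-! ROW 63: characters of `X = (F_2^r)^m`, part Ch1. -/

set_option autoImplicit false
open Finset

namespace Crest.Agent.R63

lemma sg_add (s t : ZMod 2) : sg (s + t) = sg s * sg t := by
  revert s t
  decide

lemma sg_sq (s : ZMod 2) : sg s * sg s = 1 := by
  revert s
  decide

lemma sg_or (s : ZMod 2) : sg s = 1 ∨ sg s = -1 := by
  revert s
  decide

lemma chi_add {m r : ℕ} (α x y : X m r) : chi α (x + y) = chi α x * chi α y := by
  unfold chi
  rw [← sg_add]
  congr 1
  rw [← Finset.sum_add_distrib]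
  refine Finset.sum_congr rfl fun i _ => ?_
  rw [← Finset.sum_add_distrib]
  refine Finset.sum_congr rfl fun j _ => ?_
  rw [Pi.add_apply, Pi.add_apply, mul_add]

lemma chi_add_left {m r : ℕ} (α β x : X m r) : chi (α + β) x = chi α x * chi β x := by
  unfold chi
  rw [← sg_add]
  congr 1
  rw [← Finset.sum_add_distrib]
  refine Finset.sum_congr rfl fun i _ => ?_
  rw [← Finset.sum_add_distrib]
  refine Finset.sum_congr rfl fun j _ => ?_
  rw [Pi.add_apply, Pi.add_apply, add_mul]

lemma chi_comm {m r : ℕ} (α x : X m r) : chi α x = chi x α := by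
  unfold chi
  congr 1
  exact Finset.sum_congr rfl fun i _ => Finset.sum_congr rfl fun j _ => mul_comm _ _

lemma chi_or {m r : ℕ} (α x : X m r) : chi α x = 1 ∨ chi α x = -1 := sg_or _

lemma card_X (m r : ℕ) : Fintype.card (X m r) = 2 ^ (r * m) := by
  simp only [X, Fintype.card_pi, ZMod.card, Finset.prod_const, Finset.card_univ, Fintype.card_fin]
  rw [← pow_mul]

end Crest.Agent.R63
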