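import Crest.Agent.R63.Ch1

/-! ROW 63: characters of `X = (F_2^r)^m`, part Ch2. -/

set_option autoImplicit false
open Finset

namespace Crest.Agent.R63

/-- a point with sign `-1` -/
lemma exists_chi_neg {m r : ℕ} (α : X m r) (h : α ≠ 0) : ∃ e : X m r, chi α e = -1 := by
  classical
  obtain ⟨i, hi⟩ := Function.ne_iff.1 h
  obtain ⟨j, hj⟩ := Function.ne_iff.1 hi
  refine ⟨Pi.single i (Pi.single j 1), ?_⟩
  have h1 : ∑ i', ∑ j', α i' j' * (Pi.single i (Pi.single j 1) : X m r) i' j' = α i j := by
    rw [Finset.sum_eq_single i, Finset.sum_eq_single j]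
    · simp
    · intro j' _ hj'
      simp [hj']
    · intro hn
      exact absurd (Finset.mem_univ _) hn
    · intro i' _ hi'
      simp [hi']
    · intro hn
      exact absurd (Finset.mem_univ _) hn
  unfold chi
  rw [h1]
  unfold sg
  rw [if_neg]
  simpa using hj

/-- orthogonality -/
lemma sum_chi {m r : ℕ} (α : X m r) :
    ∑ x : X m r, (chi α x : ℝ) = if α = 0 then 2 ^ (r * m) else 0 := by
  split_ifs with h
  · subst h
    have h1 : ∀ x : X m r, chi (0 : X m r) x = 1 := by
      intro x
      unfold chi sg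
      simp
    simp only [h1, Int.cast_one, Finset.sum_const, nsmul_eq_mul, mul_one, Finset.card_univ, card_X]
    push_cast
    rfl
  · obtain ⟨e, he⟩ := exists_chi_neg α h
    have h1 : ∑ x : X m r, (chi α x : ℝ) = - ∑ x : X m r, (chi α x : ℝ) := by
      conv_lhs => rw [← Equiv.sum_comp (Equiv.addRight e)]
      rw [← Finset.sum_neg_distrib]
      refine Finset.sum_congr rfl fun x _ => ?_
      rw [Equiv.coe_addRight, chi_add, he]
      push_cast
      ring
    linarith

/-- half of the points have sign `-1` if `α ≠ 0` -/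
lemma card_chi_neg {m r : ℕ} (α : X m r) (h : α ≠ 0) :
    2 * (univ.filter fun x : X m r => chi α x = -1).card = 2 ^ (r * m) := by
  have h1 := sum_chi α
  rw [if_neg h] at h1
  have h2 : ∀ x : X m r, (chi α x : ℝ) = 1 - 2 * (if chi α x = -1 then (1 : ℝ) else 0) := by
    intro x
    rcases chi_or α x with h3 | h3
    · rw [h3, if_neg (by norm_num)]
      norm_num
    · rw [h3, if_pos rfl]
      norm_num
  rw [Finset.sum_congr rfl fun x _ => h2 x, Finset.sum_sub_distrib, ← Finset.mul_sum,
    Finset.sum_boole, Finset.sum_const, nsmul_eq_mul, mul_one, Finset.card_univ, card_X] at h1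
  have h4 : (2 : ℝ) * ((univ.filter fun x : X m r => chi α x = -1).card : ℝ) =
      ((2 ^ (r * m) : ℕ) : ℝ) := by linarith
  exact_mod_cast h4

end Crest.Agent.R63
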