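import Crest.Agent.R63.Ch2

/-! ROW 63: characters of `X = (F_2^r)^m`, part Ch3. -/

set_option autoImplicit false
open Finset

namespace Crest.Agent.R63

private lemma ch3_card_cube {m r : ℕ} (I : Finset (Fin m)) (x : X m r) :
    (cube I x).card = 2 ^ (r * I.card) := by
  classical
  have h1 : cube I x =
      Fintype.piFinset (fun i => if i ∈ I then (univ : Finset (Fin r → ZMod 2)) else {x i}) := by
    ext z
    simp only [cube, mem_filter, mem_univ, true_and, Fintype.mem_piFinset]
    refine ⟨fun h i => ?_, fun h i hi => ?_⟩
    · by_cases hi : i ∈ I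
      · simp [hi]
      · simp [hi, h i hi]
    · have := h i
      simpa [hi] using this
  have hG : (univ : Finset (Fin r → ZMod 2)).card = 2 ^ r := by
    rw [Finset.card_univ]
    simp
  rw [h1, Fintype.card_piFinset]
  have h2 : ∀ i : Fin m, (if i ∈ I then (univ : Finset (Fin r → ZMod 2)) else {x i}).card =
      if i ∈ I then 2 ^ r else 1 := by
    intro i
    split_ifs
    · exact hG
    · simp
  rw [Finset.prod_congr rfl fun i _ => h2 i, Finset.prod_ite_mem, Finset.univ_inter,
    Finset.prod_const, pow_mul]

/-- cube sums of characters -/
lemma cube_sum_chi {m r : ℕ} (I : Finset (Fin m)) (α x : X m r) :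
    ∑ z ∈ cube I x, (chi α z : ℝ) =
      if (∀ i ∈ I, α i = 0) then 2 ^ (r * I.card) * (chi α x : ℝ) else 0 := by
  classical
  split_ifs with h
  · have h1 : ∀ z ∈ cube I x, (chi α z : ℝ) = (chi α x : ℝ) := by
      intro z hz
      simp only [cube, mem_filter, mem_univ, true_and] at hz
      have h2 : chi α z = chi α x := by
        unfold chi
        congr 1
        refine Finset.sum_congr rfl fun i _ => ?_
        by_cases hi : i ∈ I
        · simp [h i hi]
        · rw [hz i hi]
      rw [h2]
    rw [Finset.sum_congr rfl h1, Finset.sum_const, ch3_card_cube, nsmul_eq_mul]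
    push_cast
    ring
  · push Not at h
    obtain ⟨i, hi, hα⟩ := h
    obtain ⟨j, hj⟩ : ∃ j, α i j ≠ 0 := by
      by_contra hcon
      push Not at hcon
      exact hα (funext hcon)
    set y : X m r := Pi.single i (Pi.single j 1) with hy
    have hy1 : ∑ i', ∑ j', α i' j' * y i' j' = α i j := by
      rw [Finset.sum_eq_single i, Finset.sum_eq_single j]
      · simp [hy]
      · intro j' _ hj'
        simp [hy, hj']
      · simp
      · intro i' _ hi'
        refine Finset.sum_eq_zero fun j' _ => ?_
        simp [hy, hi']
      · simp
    have hchi : chi α y = -1 := by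
      unfold chi
      rw [hy1, sg, if_neg hj]
    have hyy : y + y = 0 := by
      funext i' j'
      simp only [Pi.add_apply, Pi.zero_apply]
      generalize y i' j' = t
      revert t
      decide
    refine Finset.sum_involution (fun z _ => z + y) ?_ ?_ ?_ ?_
    · intro z _
      rw [chi_add, hchi]
      push_cast
      ring
    · intro z _ _ hzy
      have h0 : y = 0 := by
        have := congrArg (fun w => w - z) hzy
        simpa using this
      have h1 : y i j = 1 := by simp [hy]
      rw [h0] at h1
      simp at h1
    · intro z hz
      simp only [cube, mem_filter, mem_univ, true_and] at hz ⊢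
      intro i' hi'
      have hne : i' ≠ i := fun h => hi' (h ▸ hi)
      rw [Pi.add_apply, hz i' hi']
      simp [hy, hne]
    · intro z _
      rw [add_assoc, hyy, add_zero]

lemma isW_chi {m r f : ℕ} (α : X m r) (h : α ∈ AA m r f) :
    IsW f (fun x => (chi α x : ℝ)) := by
  classical
  intro I hI x
  rw [cube_sum_chi, if_neg]
  intro hcon
  simp only [AA, mem_filter, mem_univ, true_and, zs] at h
  have h1 : I ⊆ univ.filter fun i => α i = 0 := fun i hi => by
    simp only [mem_filter, mem_univ, true_and]
    exact hcon i hi
  have h2 := Finset.card_le_card h1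
  omega

end Crest.Agent.R63
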