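import Crest.Agent.R63.Ch2

/-! ROW 63: characters of `X = (F_2^r)^m`, part Ch4. -/

set_option autoImplicit false
open Finset

namespace Crest.Agent.R63

/-- Fourier coefficient -/
noncomputable def coef {m r : ℕ} (w : X m r → ℝ) (α : X m r) : ℝ :=
  (∑ x, w x * chi α x) / 2 ^ (r * m)

lemma add_eq_zero_X {m r : ℕ} (y x : X m r) : y + x = 0 ↔ y = x := by
  have h2 : ∀ s t : ZMod 2, s + t = 0 ↔ s = t := by decide
  constructor
  · intro h
    funext i j
    have h3 := congrFun (congrFun h i) j
    exact (h2 _ _).1 h3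
  · intro h
    funext i j
    exact (h2 _ _).2 (by rw [h])

lemma inversion {m r : ℕ} (w : X m r → ℝ) (x : X m r) :
    w x = ∑ α, coef w α * chi α x := by
  have h1 : ∀ α : X m r, coef w α * chi α x =
      ∑ y, w y / 2 ^ (r * m) * chi (y + x) α := by
    intro α
    unfold coef
    rw [div_mul_eq_mul_div, Finset.sum_mul, Finset.sum_div]
    refine Finset.sum_congr rfl fun y _ => ?_
    rw [chi_add_left, chi_comm α y, chi_comm α x]
    push_cast
    ring
  rw [Finset.sum_congr rfl fun α _ => h1 α, Finset.sum_comm]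
  have h2 : ∀ y : X m r, ∑ α : X m r, w y / 2 ^ (r * m) * (chi (y + x) α : ℝ) =
      if y = x then w y else 0 := by
    intro y
    rw [← Finset.mul_sum, sum_chi]
    by_cases h : y = x
    · rw [if_pos h, if_pos ((add_eq_zero_X y x).2 h)]
      field_simp
    · rw [if_neg h, if_neg (fun h' => h ((add_eq_zero_X y x).1 h'))]
      ring
  rw [Finset.sum_congr rfl fun y _ => h2 y]
  simp

end Crest.Agent.R63
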