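import Crest.Agent.R63.Ch3
import Crest.Agent.R63.Ch4

/-! ROW 63: characters of `X = (F_2^r)^m`, part Ch5. -/

set_option autoImplicit false
open Finset

namespace Crest.Agent.R63

lemma coef_zero_of_isW {m r f : ℕ} (hf : f ≤ m) (w : X m r → ℝ) (hw : IsW f w) (α : X m r)
    (h : α ∉ AA m r f) : coef w α = 0 := by
  classical
  have hz : f ≤ (univ.filter fun i => α i = 0).card := by
    simp only [AA, mem_filter, mem_univ, true_and, not_lt] at h
    exact h
  obtain ⟨I, hI, hIc⟩ := Finset.exists_subset_card_eq hz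
  have hI0 : ∀ i ∈ I, α i = 0 := by
    intro i hi
    have := hI hi
    simpa using this
  -- the translations
  let T : Finset (X m r) := univ.filter fun t => ∀ i, i ∉ I → t i = 0
  have hT0 : (0 : X m r) ∈ T := by simp [T]
  have hchi : ∀ t ∈ T, chi α t = 1 := by
    intro t ht
    have ht' : ∀ i, i ∉ I → t i = 0 := by simpa [T] using ht
    have : (∑ i, ∑ j, α i j * t i j) = 0 := by
      apply Finset.sum_eq_zero
      intro i _
      apply Finset.sum_eq_zero
      intro j _
      by_cases hi : i ∈ I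
      · rw [hI0 i hi]; simp
      · rw [ht' i hi]; simp
    unfold chi
    rw [this]
    simp [sg]
  have hshift : ∀ t ∈ T, ∑ x, w (x + t) * (chi α x : ℝ) = ∑ x, w x * (chi α x : ℝ) := by
    intro t ht
    have h1 : ∑ x, w (x + t) * (chi α (x + t) : ℝ) = ∑ x, w x * (chi α x : ℝ) :=
      Equiv.sum_comp (Equiv.addRight t) (fun x : X m r => w x * (chi α x : ℝ))
    rw [← h1]
    apply Finset.sum_congr rfl
    intro x _
    rw [chi_add, hchi t ht, mul_one]
  have hcube : ∀ x, ∑ t ∈ T, w (x + t) = 0 := by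
    intro x
    rw [← hw I hIc x]
    apply Finset.sum_bij' (fun t _ => x + t) (fun z _ => z - x)
    · intro t ht
      have ht' : ∀ i, i ∉ I → t i = 0 := by simpa [T] using ht
      simp only [cube, mem_filter, mem_univ, true_and]
      intro i hi
      simp [ht' i hi]
    · intro z hz'
      have hz2 : ∀ i, i ∉ I → z i = x i := by simpa [cube] using hz'
      simp only [T, mem_filter, mem_univ, true_and]
      intro i hi
      simp [hz2 i hi]
    · intro t _
      simp
    · intro z _
      simp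
    · intro t _
      rfl
  have hsum : (T.card : ℝ) * ∑ x, w x * (chi α x : ℝ) = 0 := by
    calc (T.card : ℝ) * ∑ x, w x * (chi α x : ℝ)
        = ∑ t ∈ T, ∑ x, w x * (chi α x : ℝ) := by rw [Finset.sum_const, nsmul_eq_mul]
      _ = ∑ t ∈ T, ∑ x, w (x + t) * (chi α x : ℝ) :=
          Finset.sum_congr rfl fun t ht => (hshift t ht).symm
      _ = ∑ x, ∑ t ∈ T, w (x + t) * (chi α x : ℝ) := Finset.sum_comm
      _ = ∑ x, (∑ t ∈ T, w (x + t)) * (chi α x : ℝ) := by
          apply Finset.sum_congr rfl; intro x _; rw [Finset.sum_mul]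
      _ = 0 := by
          apply Finset.sum_eq_zero; intro x _; rw [hcube x, zero_mul]
  have hTc : (T.card : ℝ) ≠ 0 := by
    have : 0 < T.card := Finset.card_pos.mpr ⟨0, hT0⟩
    positivity
  have h0 : ∑ x, w x * (chi α x : ℝ) = 0 := by
    rcases mul_eq_zero.mp hsum with h1 | h1
    · exact absurd h1 hTc
    · exact h1
  unfold coef
  rw [h0, zero_div]

lemma coef_zero_of_isL {m r f : ℕ} (g : X m r → ℝ) (hg : IsL f g) (α : X m r)
    (h : α ∈ AA m r f) : coef g α = 0 := by
  unfold coef
  rw [hg _ (isW_chi α h), zero_div]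

/-- the expansion of an element of `W` -/
lemma expand_isW {m r f : ℕ} (hf : f ≤ m) (w : X m r → ℝ) (hw : IsW f w) (x : X m r) :
    w x = ∑ α ∈ AA m r f, coef w α * chi α x := by
  rw [inversion w x]
  symm
  apply Finset.sum_subset (Finset.subset_univ _)
  intro α _ hα
  rw [coef_zero_of_isW hf w hw α hα, zero_mul]

lemma isW_add {m r f : ℕ} (w v : X m r → ℝ) (hw : IsW f w) (hv : IsW f v) :
    IsW f (fun x => w x + v x) := by
  intro I hI x
  rw [Finset.sum_add_distrib, hw I hI x, hv I hI x, add_zero]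

lemma isW_smul {m r f : ℕ} (c : ℝ) (w : X m r → ℝ) (hw : IsW f w) :
    IsW f (fun x => c * w x) := by
  intro I hI x
  rw [← Finset.mul_sum, hw I hI x, mul_zero]

lemma isL_add {m r f : ℕ} (w v : X m r → ℝ) (hw : IsL f w) (hv : IsL f v) :
    IsL f (fun x => w x + v x) := by
  intro u hu
  simp only [add_mul]
  rw [Finset.sum_add_distrib, hw u hu, hv u hu, add_zero]

lemma isL_smul {m r f : ℕ} (c : ℝ) (w : X m r → ℝ) (hw : IsL f w) :
    IsL f (fun x => c * w x) := by
  intro u hu
  simp only [mul_assoc]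
  rw [← Finset.mul_sum, hw u hu, mul_zero]

/-- linear combinations of the characters in `AA` are in `W` -/
lemma isW_comb {m r f : ℕ} (S : Finset (X m r)) (hS : S ⊆ AA m r f) (c : X m r → ℝ) :
    IsW f (fun x => ∑ α ∈ S, c α * (chi α x : ℝ)) := by
  intro I hI x
  rw [Finset.sum_comm]
  apply Finset.sum_eq_zero
  intro α hα
  rw [← Finset.mul_sum, isW_chi α (hS hα) I hI x, mul_zero]

end Crest.Agent.R63
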