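import Crest.Agent.R63.Defs

/-! ROW 63: characters of `X = (F_2^r)^m`, part Ch6. -/

set_option autoImplicit false
open Finset

namespace Crest.Agent.R63

/-- a function of `m - f` coordinates is orthogonal to `W` -/
lemma isL_of_dep {m r f : ℕ} (hf : f ≤ m) (I : Finset (Fin m)) (hI : I.card = m - f)
    (g : X m r → ℝ) (hg : ∀ x y, (∀ i ∈ I, x i = y i) → g x = g y) : IsL f g := by
  classical
  intro w hw
  let ρ : X m r → (I → Fin r → ZMod 2) := fun x i => x i
  rw [← Finset.sum_fiberwise univ ρ (fun x => g x * w x)]
  refine Finset.sum_eq_zero fun y _ => ?_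
  rcases (univ.filter fun x => ρ x = y).eq_empty_or_nonempty with h | ⟨x0, h0⟩
  · rw [h, Finset.sum_empty]
  · have hx0 : ρ x0 = y := (Finset.mem_filter.1 h0).2
    have hcard : Iᶜ.card = f := by
      rw [Finset.card_compl, Fintype.card_fin, hI]; omega
    have hfib : (univ.filter fun x => ρ x = y) = cube Iᶜ x0 := by
      ext z
      simp only [cube, Finset.mem_filter, Finset.mem_univ, true_and, Finset.mem_compl, not_not]
      rw [← hx0]
      constructor
      · intro h i hi
        exact congrFun h ⟨i, hi⟩
      · intro h
        funext i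
        exact h i.1 i.2
    have hconst : ∀ x ∈ (univ.filter fun x => ρ x = y), g x * w x = g x0 * w x := by
      intro x hx
      rw [hfib] at hx
      simp only [cube, Finset.mem_filter, Finset.mem_univ, true_and, Finset.mem_compl, not_not] at hx
      rw [hg x x0 hx]
    rw [Finset.sum_congr rfl hconst, ← Finset.mul_sum, hfib, hw _ hcard, mul_zero]

/-- indicators of `f`-cubes are orthogonal to `W` -/
lemma isL_cube {m r f : ℕ} (I : Finset (Fin m)) (hI : I.card = f) (u : X m r) :
    IsL f (fun x => if x ∈ cube I u then (1 : ℝ) else 0) := by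
  intro w hw
  refine Eq.trans ?_ (hw I hI u)
  simp only [ite_mul, one_mul, zero_mul]
  rw [Finset.sum_ite_mem, Finset.univ_inter]

end Crest.Agent.R63
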