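import Crest.Agent.R63.Ch5

/-! ROW 63: characters of `X = (F_2^r)^m`, part Ch7. -/

set_option autoImplicit false
open Finset

namespace Crest.Agent.R63

private lemma ch7_exists {m r f : ℕ} (hf : f ≤ m) (α : X m r) (h : α ∉ AA m r f) :
    ∃ I ∈ powersetCard (m - f) (univ : Finset (Fin m)), ∀ i, i ∉ I → α i = 0 := by
  classical
  have hz : f ≤ (univ.filter fun i => α i = 0).card := by
    simp only [AA, mem_filter, mem_univ, true_and, not_lt] at h
    exact h
  have h1 : (univ.filter fun i => α i = 0).card + (univ.filter fun i => ¬ α i = 0).card =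
      (univ : Finset (Fin m)).card := Finset.card_filter_add_card_filter_not _
  rw [Finset.card_univ, Fintype.card_fin] at h1
  obtain ⟨I, hI1, hI2, hI3⟩ := Finset.exists_subsuperset_card_eq
    (Finset.subset_univ (univ.filter fun i => ¬ α i = 0)) (n := m - f) (by omega)
    (by rw [Finset.card_univ, Fintype.card_fin]; omega)
  refine ⟨I, Finset.mem_powersetCard.2 ⟨hI2, hI3⟩, fun i hi => ?_⟩
  by_contra hcon
  exact hi (hI1 (by simpa using hcon))

/-- a function orthogonal to `W` is a sum of functions of `m - f` coordinates -/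
theorem junta_of_isL {m r f : ℕ} (hf : f ≤ m) (c : X m r → ℝ) (hc : IsL f c) :
    ∃ h : Finset (Fin m) → X m r → ℝ,
      (∀ I x y, (∀ i ∈ I, x i = y i) → h I x = h I y) ∧
      ∀ x, c x = ∑ I ∈ powersetCard (m - f) univ, h I x := by
  classical
  have hex : ∀ α : X m r, ∃ I : Finset (Fin m), α ∉ AA m r f →
      I ∈ powersetCard (m - f) (univ : Finset (Fin m)) ∧ ∀ i, i ∉ I → α i = 0 := by
    intro α
    by_cases h : α ∈ AA m r f
    · exact ⟨∅, fun h' => absurd h h'⟩
    · obtain ⟨I, hI1, hI2⟩ := ch7_exists hf α h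
      exact ⟨I, fun _ => ⟨hI1, hI2⟩⟩
  choose J hJ using hex
  let A : Finset (X m r) := univ.filter fun α => α ∉ AA m r f
  refine ⟨fun I x => ∑ α ∈ A with J α = I, coef c α * (chi α x : ℝ), ?_, ?_⟩
  · intro I x y hxy
    refine Finset.sum_congr rfl fun α hα => ?_
    obtain ⟨hα1, hα2⟩ := Finset.mem_filter.1 hα
    have hα3 : α ∉ AA m r f := (Finset.mem_filter.1 hα1).2
    have hchi : chi α x = chi α y := by
      unfold chi
      congr 1
      refine Finset.sum_congr rfl fun i _ => ?_
      by_cases hi : i ∈ I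
      · rw [hxy i hi]
      · rw [← hα2] at hi
        rw [(hJ α hα3).2 i hi]
        simp
    rw [hchi]
  · intro x
    rw [Finset.sum_fiberwise_of_maps_to (s := A) (t := powersetCard (m - f) univ) (g := J)
      (fun α hα => (hJ α (Finset.mem_filter.1 hα).2).1) (fun α => coef c α * (chi α x : ℝ)),
      inversion c x]
    symm
    refine Finset.sum_subset (Finset.subset_univ _) ?_
    intro α _ hα
    have hα' : α ∈ AA m r f := by
      by_contra hcon
      exact hα (Finset.mem_filter.2 ⟨Finset.mem_univ _, hcon⟩)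
    rw [coef_zero_of_isL c hc α hα', zero_mul]

end Crest.Agent.R63
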