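import Crest.Agent.R63.Ch5
import Crest.Agent.R63.Ch6
import Crest.Agent.R63.Ch7

/-! ROW 63: characters (collects Ch1 .. Ch7). -/
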