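import Mathlib

/-! ROW 63 (S0085), definitions.  Paper proof: ideas 456 (helper2). -/

set_option autoImplicit false
open Finset MeasureTheory ProbabilityTheory

namespace Crest.Agent.R63

/-- alphabet `F_2^r`, `q = 2^r` letters -/
abbrev G (r : ℕ) := Fin r → ZMod 2

/-- the space `X = G^m`, `N = 2^(r*m)` points -/
abbrev X (m r : ℕ) := Fin m → Fin r → ZMod 2

variable {m r : ℕ}

/-- the cube through `x` in the directions `I` -/
def cube (I : Finset (Fin m)) (x : X m r) : Finset (X m r) :=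
  univ.filter fun z => ∀ i, i ∉ I → z i = x i

/-- `W`: all `f`-cube sums vanish -/
def IsW (f : ℕ) (w : X m r → ℝ) : Prop :=
  ∀ I : Finset (Fin m), I.card = f → ∀ x, ∑ z ∈ cube I x, w z = 0

/-- orthogonal complement of `W` -/
def IsL (f : ℕ) (g : X m r → ℝ) : Prop :=
  ∀ w : X m r → ℝ, IsW f w → ∑ x, g x * w x = 0

/-- distance to the nearest integer -/
noncomputable def nrm (t : ℝ) : ℝ := |t - round t|

/-- energy -/
noncomputable def En (w : X m r → ℝ) : ℝ := ∑ x, nrm (w x) ^ 2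

/-- l1 size -/
noncomputable def L1 (w : X m r → ℝ) : ℝ := ∑ x, nrm (w x)

/-- number of zero letters -/
def zs (α : X m r) : ℕ := (univ.filter fun i => α i = 0).card

/-- the characters spanning `W` -/
def AA (m r f : ℕ) : Finset (X m r) := univ.filter fun α => zs α < f

/-- `D = dim W` -/
def Dn (m r f : ℕ) : ℕ := (AA m r f).card

/-- `Θ = D / N` -/
noncomputable def Th (m r f : ℕ) : ℝ := (Dn m r f : ℝ) / 2 ^ (r * m)

/-- sign of an element of `F_2` -/
def sg (t : ZMod 2) : ℤ := if t = 0 then 1 else -1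

/-- the character `chi_α` (values `±1`) -/
def chi (α x : X m r) : ℤ := sg (∑ i, ∑ j, α i j * x i j)

/-- size of a Hamming ball of radius `k` in `X` -/
def Ball (m r k : ℕ) : ℕ := (univ.filter fun z : X m r => hammingDist z 0 ≤ k).card

/-- the weight `φ(x) = E[(f - (Y_1+..+Y_m)^2) 1(Qz Y = x)]`, `Y_i` iid standard Gaussian -/
noncomputable def phi {Γ : Type} (m : ℕ) (f : ℕ) (Qz : ℝ → Γ) (x : Fin m → Γ) : ℝ :=
  ∫ Y in {Y : Fin m → ℝ | ∀ i, Qz (Y i) = x i}, ((f : ℝ) - (∑ i, Y i) ^ 2)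
    ∂(Measure.pi fun _ : Fin m => gaussianReal 0 1)

/-- The combinatorial object needed for the amplification (part A). -/
def Good : Prop :=
  ∃ (Γ : Type) (_ : Fintype Γ) (_ : DecidableEq Γ) (Qz : ℝ → Γ) (m f : ℕ) (c : (Fin m → Γ) → ℝ),
    (∀ a, MeasurableSet (Qz ⁻¹' {a}) ∧ (frontier (Qz ⁻¹' {a})).Finite) ∧
    1 ≤ m ∧ f ≤ m ∧
    (∀ x, c x = 0 ∨ c x = 1) ∧
    (∃ h : Finset (Fin m) → (Fin m → Γ) → ℝ,
      (∀ I x y, (∀ i ∈ I, x i = y i) → h I x = h I y) ∧
      ∀ x, c x = ∑ I ∈ powersetCard (m - f) univ, h I x) ∧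
    0 < ∑ x, phi m f Qz x * c x

/-- the statement S0085 for a fixed constant `C` -/
def Target (C : ℝ) : Prop :=
  ∃ n : ℕ, ∃ f : (Fin n → Bool) → Bool, ∃ d : ℕ,
      (∃ x y, f x ≠ f y) ∧
      (∀ S : Finset (Fin n), d < S.card →
        ∑ x : Fin n → Bool, ((if f x then (1 : ℝ) else -1) * ∏ i ∈ S, (if x i then (1 : ℝ) else -1)) = 0) ∧
      C * Real.sqrt d <
        ∑ i : Fin n, (∑ x : Fin n → Bool, ((if f x then (1 : ℝ) else -1) * (if x i then (1 : ℝ) else -1))) / 2 ^ n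

end Crest.Agent.R63
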