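import Crest.Agent.R63.N1

/-! ROW 63: params.  PROOF: J = r*m, lam = 16 r f + 40 r (say), delta1 = 1/m^4 (or 1/(4 m^3)); m <= 2^(2r) for large r,
Ball m r (4f) <= (2m)^(4f) 2^(4rf) <= 2^(4f(2r+1)) 2^(4rf) <= 2^(16 r f); Th <= exp(f - r^5/2) <= 2^(-r^5/2) 2^(2f);
all conditions become: (polynomial of degree 3 in r with coefficients depending on kappa) <= r^5/2 * 0.7;
choose f <= m: kappa r^2 <= 2^r.  m.choose f <= 2^m <= 2^(r m)/m^3. -/

set_option autoImplicit false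
open Finset MeasureTheory ProbabilityTheory

namespace Crest.Agent.R63

private theorem pow5_le {r : ℕ} (hr : 24 ≤ r) : 2 * r ^ 5 ≤ 2 ^ r := by
  induction r, hr using Nat.le_induction with
  | base => norm_num
  | succ r hr ih =>
    have h1 : 24 * r ≤ r ^ 2 := by rw [pow_two]; exact Nat.mul_le_mul_right r hr
    have h2 : 24 * r ^ 2 ≤ r ^ 3 := by
      rw [pow_succ r 2, mul_comm (r ^ 2)]; exact Nat.mul_le_mul_right _ hr
    have h3 : 24 * r ^ 3 ≤ r ^ 4 := by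
      rw [pow_succ r 3, mul_comm (r ^ 3)]; exact Nat.mul_le_mul_right _ hr
    have h4 : 24 * r ^ 4 ≤ r ^ 5 := by
      rw [pow_succ r 4, mul_comm (r ^ 4)]; exact Nat.mul_le_mul_right _ hr
    have e : (r + 1) ^ 5 = r ^ 5 + 5 * r ^ 4 + 10 * r ^ 3 + 10 * r ^ 2 + 5 * r + 1 := by ring
    rw [e, pow_succ 2 r]
    omega

private theorem cube_le {m : ℕ} (hm : 10 ≤ m) : m ^ 3 ≤ 2 ^ m := by
  induction m, hm using Nat.le_induction with
  | base => norm_num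
  | succ m hm ih =>
    have h1 : 10 * m ≤ m ^ 2 := by rw [pow_two]; exact Nat.mul_le_mul_right m hm
    have h2 : 10 * m ^ 2 ≤ m ^ 3 := by
      rw [pow_succ m 2, mul_comm (m ^ 2)]; exact Nat.mul_le_mul_right _ hm
    have e : (m + 1) ^ 3 = m ^ 3 + 3 * m ^ 2 + 3 * m + 1 := by ring
    rw [e, pow_succ 2 m]
    omega

/-- the parameters: `m = 2^r r^5`, `f = κ r^2`, `J = r m`, some `lam`, `δ1` -/
theorem params (κ : ℕ) (hκ : 1 ≤ κ) : ∃ r1 : ℕ, ∀ r, r1 ≤ r →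
    ∀ m f : ℕ, m = 2 ^ r * r ^ 5 → f = κ * r ^ 2 →
    ∃ (lam J : ℕ) (δ0 δ1 : ℝ), f ≤ m ∧ 1 ≤ r * m ∧ 1 ≤ J ∧ J ≤ r * m ∧
      δ0 = 1 / (200 * 2 ^ (r * f)) ∧ 0 < δ1 ∧ 1 / (m : ℝ) ^ 3 ≤ 1 / 10 ∧
      2 * δ1 ≤ 1 / (m : ℝ) ^ 3 ∧
      (m.choose f : ℝ) ≤ 2 ^ J * (1 / (m : ℝ) ^ 3) ∧
      Th m r f * 2 ^ 50 * ((r * m : ℕ) : ℝ) ^ 5 * 2 ^ lam * (Ball m r (4 * f) : ℝ) ≤ δ0 ^ 2 ∧
      128 * ((r * m : ℕ) : ℝ) * J ≤ 2 ^ lam * δ1 ∧
      2 * (J : ℝ) * (Ball m r (4 * f) : ℝ) ≤ 2 ^ lam ∧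
      (2 * δ1 + 4 * J / 2 ^ lam + (m.choose f : ℝ) / 2 ^ J) * ((f : ℝ) + m) < 1 / m := by
  refine ⟨κ + 100, fun r hr m f hm hf => ?_⟩
  have hr100 : 100 ≤ r := by omega
  have hκr : κ ≤ r := by omega
  have hr5 : 2 * r ^ 5 ≤ 2 ^ r := pow5_le (by omega)
  have hr1 : r ≤ r ^ 5 := Nat.le_self_pow (by norm_num) r
  have h2r : 1 ≤ 2 ^ r := Nat.one_le_two_pow
  have hmr : r ^ 5 ≤ m := by rw [hm]; exact Nat.le_mul_of_pos_left _ (by omega)
  have hm100 : 100 ≤ m := by omega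
  have hfm : f ≤ m := by
    have h1 : κ * r ^ 2 ≤ r * r ^ 2 := Nat.mul_le_mul_right _ hκr
    have h2 : r * r ^ 2 = r ^ 3 := by ring
    have h3 : r ^ 3 ≤ r ^ 5 := Nat.pow_le_pow_right (by omega) (by norm_num)
    rw [hf]
    omega
  have hm2 : 2 * m ≤ 2 ^ (2 * r) := by
    rw [hm, two_mul r, pow_add]
    calc 2 * (2 ^ r * r ^ 5) = 2 ^ r * (2 * r ^ 5) := by ring
      _ ≤ 2 ^ r * 2 ^ r := Nat.mul_le_mul_left _ hr5
  have hrlt : r ≤ 2 ^ r := Nat.lt_two_pow_self.le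
  -- real versions
  have R2m : ((2 * m : ℕ) : ℝ) ≤ 2 ^ (2 * r) := by exact_mod_cast hm2
  have Rm : (m : ℝ) ≤ 2 ^ (2 * r) := by
    have : m ≤ 2 ^ (2 * r) := by omega
    exact_mod_cast this
  have Rr : (r : ℝ) ≤ 2 ^ r := by exact_mod_cast hrlt
  have Rrm : ((r * m : ℕ) : ℝ) ≤ 2 ^ (3 * r) := by
    have : r * m ≤ 2 ^ (3 * r) := by
      calc r * m ≤ 2 ^ r * 2 ^ (2 * r) := Nat.mul_le_mul hrlt (by omega)
        _ = 2 ^ (3 * r) := by rw [← pow_add]; congr 1; ring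
    exact_mod_cast this
  have m0 : (0 : ℝ) < m := by
    have : 0 < m := by omega
    exact_mod_cast this
  have m100 : (100 : ℝ) ≤ m := by exact_mod_cast hm100
  have hBall : (Ball m r (4 * f) : ℝ) ≤ 2 ^ (12 * (r * f)) := by
    refine (Ball_le m r (4 * f) (by omega)).trans ?_
    calc ((2 * m : ℕ) : ℝ) ^ (4 * f) * 2 ^ (r * (4 * f)) ≤
        (2 ^ (2 * r)) ^ (4 * f) * 2 ^ (r * (4 * f)) := by gcongr
      _ = 2 ^ (12 * (r * f)) := by
        rw [← pow_mul, ← pow_add]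
        congr 1
        ring
  have hTh : Th m r f ≤ 1 / 2 ^ (66 + 35 * r + 26 * (r * f)) := by
    refine (Th_le' m r f).trans ?_
    have e1 : (m : ℝ) / 2 ^ (r + 1) = (r : ℝ) ^ 5 / 2 := by
      rw [hm]
      push_cast
      rw [div_eq_div_iff (by positivity) (by norm_num)]
      ring
    have e2 : 2 * ((66 + 35 * r + 26 * (r * f)) + f) ≤ r ^ 5 := by
      rw [hf]
      have h1 : r * (κ * r ^ 2) ≤ r ^ 4 := by
        calc r * (κ * r ^ 2) ≤ r * (r * r ^ 2) := by gcongr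
          _ = r ^ 4 := by ring
      have h2 : κ * r ^ 2 ≤ r ^ 4 := by
        calc κ * r ^ 2 ≤ r * r ^ 2 := by gcongr
          _ = r ^ 3 := by ring
          _ ≤ r ^ 4 := Nat.pow_le_pow_right (by omega) (by norm_num)
      have h3 : r ≤ r ^ 4 := Nat.le_self_pow (by norm_num) r
      have h4 : 100 * r ^ 4 ≤ r ^ 5 := by
        rw [pow_succ r 4, mul_comm (r ^ 4)]; exact Nat.mul_le_mul_right _ hr100
      have h5 : 100 ≤ r ^ 4 := by omega
      have h6 : 70 * r + 132 ≤ 2 * r ^ 4 := by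
        have h7 : 100 * r ≤ r ^ 2 := by rw [pow_two]; exact Nat.mul_le_mul_right r hr100
        have h8 : r ^ 2 ≤ r ^ 4 := Nat.pow_le_pow_right (by omega) (by norm_num)
        omega
      omega
    have e3 : (f : ℝ) - (m : ℝ) / 2 ^ (r + 1) ≤ -((66 + 35 * r + 26 * (r * f) : ℕ) : ℝ) := by
      rw [e1]
      have : (2 : ℝ) * (((66 + 35 * r + 26 * (r * f) : ℕ) : ℝ) + f) ≤ (r : ℝ) ^ 5 := by
        exact_mod_cast e2
      linarith
    calc Real.exp ((f : ℝ) - (m : ℝ) / 2 ^ (r + 1)) ≤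
        Real.exp (-((66 + 35 * r + 26 * (r * f) : ℕ) : ℝ)) := Real.exp_le_exp.2 e3
      _ = (Real.exp (-1)) ^ (66 + 35 * r + 26 * (r * f)) := by
        rw [← Real.exp_nat_mul]
        congr 1
        ring
      _ ≤ (1 / 2) ^ (66 + 35 * r + 26 * (r * f)) := by
        apply pow_le_pow_left₀ (Real.exp_pos _).le
        rw [Real.exp_neg, one_div]
        apply inv_anti₀ (by norm_num)
        have := Real.exp_one_gt_d9
        linarith
      _ = 1 / 2 ^ (66 + 35 * r + 26 * (r * f)) := by rw [one_div_pow]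
  have hcub : (m : ℝ) ^ 3 ≤ 2 ^ m := by exact_mod_cast cube_le (by omega : 10 ≤ m)
  have hch : (m.choose f : ℝ) ≤ 2 ^ m := by exact_mod_cast Nat.choose_le_two_pow m f
  have hTh0 : 0 ≤ Th m r f := by unfold Th; positivity
  have m3pos : (0 : ℝ) < (m : ℝ) ^ 3 := by positivity
  -- m^3 * choose <= 2^(r m)
  have hmain : (m.choose f : ℝ) * (m : ℝ) ^ 3 ≤ 2 ^ (r * m) := by
    calc (m.choose f : ℝ) * (m : ℝ) ^ 3 ≤ 2 ^ m * 2 ^ m := mul_le_mul hch hcub (by positivity)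
          (by positivity)
      _ = 2 ^ (2 * m) := by rw [← pow_add]; congr 1; ring
      _ ≤ 2 ^ (r * m) := pow_le_pow_right₀ (by norm_num) (Nat.mul_le_mul_right _ (by omega))
  have m3le : (m : ℝ) ^ 3 ≤ 2 ^ (6 * r) := by
    calc (m : ℝ) ^ 3 ≤ (2 ^ (2 * r)) ^ 3 := pow_le_pow_left₀ m0.le Rm 3
      _ = 2 ^ (6 * r) := by rw [← pow_mul]; congr 1; ring
  refine ⟨12 * (r * f) + 20 * r, r * m, 1 / (200 * 2 ^ (r * f)), 1 / (4 * (m : ℝ) ^ 3), hfm,
    Nat.mul_pos (by omega) (by omega), Nat.mul_pos (by omega) (by omega), le_rfl, rfl,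
    by positivity, ?_, ?_, ?_, ?_, ?_, ?_, ?_⟩
  · apply one_div_le_one_div_of_le (by norm_num)
    calc (10 : ℝ) ≤ m := by linarith
      _ ≤ (m : ℝ) ^ 3 := le_self_pow₀ (by linarith) (by norm_num)
  · have : 2 * (1 / (4 * (m : ℝ) ^ 3)) = (1 / 2) * (1 / (m : ℝ) ^ 3) := by
      field_simp
      norm_num
    rw [this]
    have h0 : 0 ≤ 1 / (m : ℝ) ^ 3 := by positivity
    linarith
  · rw [mul_one_div, le_div_iff₀ m3pos]
    exact hmain
  · have e5 : ((r * m : ℕ) : ℝ) ^ 5 ≤ 2 ^ (15 * r) := by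
      calc ((r * m : ℕ) : ℝ) ^ 5 ≤ (2 ^ (3 * r)) ^ 5 :=
            pow_le_pow_left₀ (by positivity) Rrm 5
        _ = 2 ^ (15 * r) := by rw [← pow_mul]; congr 1; ring
    calc Th m r f * 2 ^ 50 * ((r * m : ℕ) : ℝ) ^ 5 * 2 ^ (12 * (r * f) + 20 * r) *
          (Ball m r (4 * f) : ℝ) ≤
        (1 / 2 ^ (66 + 35 * r + 26 * (r * f))) * 2 ^ 50 * 2 ^ (15 * r) *
          2 ^ (12 * (r * f) + 20 * r) * 2 ^ (12 * (r * f)) := by gcongr
      _ = 1 / (2 ^ 16 * 2 ^ (2 * (r * f))) := by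
        rw [eq_div_iff (by positivity)]
        have : (2 : ℝ) ^ (66 + 35 * r + 26 * (r * f)) =
            2 ^ 50 * 2 ^ (15 * r) * 2 ^ (12 * (r * f) + 20 * r) * 2 ^ (12 * (r * f)) *
              (2 ^ 16 * 2 ^ (2 * (r * f))) := by
          simp only [← pow_add]
          congr 1
          ring
        rw [this]
        field_simp
      _ ≤ (1 / (200 * 2 ^ (r * f))) ^ 2 := by
        have e6 : (1 / (200 * 2 ^ (r * f)) : ℝ) ^ 2 = 1 / (40000 * 2 ^ (2 * (r * f))) := by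
          rw [one_div_pow, mul_pow, ← pow_mul, mul_comm (r * f) 2]
          norm_num
        rw [e6]
        apply one_div_le_one_div_of_le (by positivity)
        apply mul_le_mul_of_nonneg_right (by norm_num) (by positivity)
  · have e7 : 128 * ((r * m : ℕ) : ℝ) * ((r * m : ℕ) : ℝ) * (4 * (m : ℝ) ^ 3) ≤
        2 ^ (12 * (r * f) + 20 * r) := by
      calc 128 * ((r * m : ℕ) : ℝ) * ((r * m : ℕ) : ℝ) * (4 * (m : ℝ) ^ 3) ≤
          128 * 2 ^ (3 * r) * 2 ^ (3 * r) * (4 * 2 ^ (6 * r)) := by gcongr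
        _ = 2 ^ (9 + 12 * r) := by
          have : (2 : ℝ) ^ (9 + 12 * r) = 2 ^ 7 * 2 ^ (3 * r) * 2 ^ (3 * r) * (2 ^ 2 * 2 ^ (6 * r)) := by
            simp only [← pow_add]
            congr 1
            ring
          rw [this]
          norm_num
        _ ≤ 2 ^ (12 * (r * f) + 20 * r) := pow_le_pow_right₀ (by norm_num) (by omega)
    rw [mul_one_div, le_div_iff₀ (by positivity)]
    exact e7
  · calc 2 * ((r * m : ℕ) : ℝ) * (Ball m r (4 * f) : ℝ) ≤ 2 * 2 ^ (3 * r) * 2 ^ (12 * (r * f)) := by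
          gcongr
      _ = 2 ^ (1 + 3 * r + 12 * (r * f)) := by
        rw [pow_add, pow_add, pow_one]
      _ ≤ 2 ^ (12 * (r * f) + 20 * r) := pow_le_pow_right₀ (by norm_num) (by omega)
  · have a1 : 2 * (1 / (4 * (m : ℝ) ^ 3)) ≤ 1 / (8 * (m : ℝ) ^ 2) := by
      rw [mul_one_div, div_le_div_iff₀ (by positivity) (by positivity)]
      have : (m : ℝ) ^ 3 = m * (m : ℝ) ^ 2 := by ring
      rw [this]
      have h2 : 0 ≤ (m : ℝ) ^ 2 := by positivity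
      nlinarith
    have a2 : 4 * ((r * m : ℕ) : ℝ) / 2 ^ (12 * (r * f) + 20 * r) ≤ 1 / (8 * (m : ℝ) ^ 2) := by
      rw [div_le_div_iff₀ (by positivity) (by positivity), one_mul]
      calc 4 * ((r * m : ℕ) : ℝ) * (8 * (m : ℝ) ^ 2) ≤
          4 * 2 ^ (3 * r) * (8 * (2 ^ (2 * r)) ^ 2) := by gcongr
        _ = 2 ^ (5 + 7 * r) := by
          have : (2 : ℝ) ^ (5 + 7 * r) = 2 ^ 2 * 2 ^ (3 * r) * (2 ^ 3 * (2 ^ (2 * r)) ^ 2) := by
            simp only [← pow_mul, ← pow_add]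
            congr 1
            ring
          rw [this]
          norm_num
        _ ≤ 2 ^ (12 * (r * f) + 20 * r) := pow_le_pow_right₀ (by norm_num) (by omega)
    have a3 : (m.choose f : ℝ) / 2 ^ (r * m) ≤ 1 / (8 * (m : ℝ) ^ 2) := by
      have h1 : (m.choose f : ℝ) / 2 ^ (r * m) ≤ 1 / (m : ℝ) ^ 3 := by
        rw [div_le_div_iff₀ (by positivity) (by positivity), one_mul]
        exact hmain
      refine h1.trans ?_
      apply one_div_le_one_div_of_le (by positivity)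
      have : (m : ℝ) ^ 3 = m * (m : ℝ) ^ 2 := by ring
      rw [this]
      have h2 : 0 ≤ (m : ℝ) ^ 2 := by positivity
      nlinarith
    have a4 : (f : ℝ) + m ≤ 2 * m := by
      have : (f : ℝ) ≤ m := by exact_mod_cast hfm
      linarith
    calc (2 * (1 / (4 * (m : ℝ) ^ 3)) + 4 * ((r * m : ℕ) : ℝ) / 2 ^ (12 * (r * f) + 20 * r) +
          (m.choose f : ℝ) / 2 ^ (r * m)) * ((f : ℝ) + m) ≤
        (1 / (8 * (m : ℝ) ^ 2) + 1 / (8 * (m : ℝ) ^ 2) + 1 / (8 * (m : ℝ) ^ 2)) * (2 * m) := by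
          gcongr
      _ = (3 / 4) * (1 / (m : ℝ)) := by
        field_simp
        norm_num
      _ < 1 / (m : ℝ) := by
        have : 0 < 1 / (m : ℝ) := by positivity
        linarith

end Crest.Agent.R63
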