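import Crest.Agent.R63.WMass

/-! ROW 63: phi_mass.  PROOF: |phi x| <= int over {Qz Y = x} of (f + (sum Y)^2); the sets {Qz Y = x} partition Fin m -> R;
int (f + (sum Y)^2) = f + m (independent standard Gaussians).  (Proof in `WMass.lean`, helper22.) -/

set_option autoImplicit false
open Finset MeasureTheory ProbabilityTheory

namespace Crest.Agent.R63

/-- total mass of `|phi|` -/
theorem phi_mass {Γ : Type} [Fintype Γ] [DecidableEq Γ] (m f : ℕ) (Qz : ℝ → Γ)
    (hQ : ∀ a, MeasurableSet (Qz ⁻¹' {a})) :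
    ∑ x, |phi m f Qz x| ≤ (f : ℝ) + m :=
  phi_mass_pf m f Qz hQ

end Crest.Agent.R63
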