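import Crest.Agent.R63.W1
import Crest.Agent.R63.W2
import Crest.Agent.R63.N2

/-! ROW 63: collects W1, W2, N2. -/
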