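import Crest.Agent.R63.P0
import Crest.Agent.R63.Chi
import Crest.Agent.R63.W0
import Crest.Agent.R63.A0

/-! ROW 63: assembly. -/

set_option autoImplicit false
open Finset

namespace Crest.Agent.R63

theorem good : Good := by
  obtain ⟨κ, hκ, r0, hW⟩ := window
  obtain ⟨r1, hP⟩ := params κ hκ
  obtain ⟨r, hr0, hr1⟩ : ∃ r, r0 ≤ r ∧ r1 ≤ r := ⟨max r0 r1, le_max_left _ _, le_max_right _ _⟩
  obtain ⟨Qz, hQ, P1, hL, h01, hsum⟩ := hW r hr0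
  obtain ⟨lam, J, δ0, δ1, hf, hn, hJ, hJn, hδ0, h1, h10, h1p, hbin, hN1, hN2, hN3, hm⟩ :=
    hP r hr1 _ _ rfl rfl
  have hmpos : 0 < 2 ^ r * r ^ 5 := by
    by_contra hcon
    have h0 : 2 ^ r * r ^ 5 = 0 := by omega
    rw [h0] at hn
    omega
  have hmpos' : (0 : ℝ) < ((2 ^ r * r ^ 5 : ℕ) : ℝ) := by exact_mod_cast hmpos
  have hmass := phi_mass (2 ^ r * r ^ 5) (κ * r ^ 2) Qz (fun a => (hQ a).1)
  have hcoef : 0 ≤ 2 * δ1 + 4 * (J : ℝ) / 2 ^ lam +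
      (((2 ^ r * r ^ 5).choose (κ * r ^ 2) : ℕ) : ℝ) / 2 ^ J := by positivity
  obtain ⟨c, hc01, hcL, hcpos⟩ := code_main hf hn hJ hJn δ0 δ1
    (1 / ((2 ^ r * r ^ 5 : ℕ) : ℝ) ^ 3) hδ0 h1 (by positivity) h10 h1p hbin hN1 hN2 hN3 P1
    (phi (2 ^ r * r ^ 5) (κ * r ^ 2) Qz) hL
    (fun x => ⟨by have := (h01 x).1; linarith [this, show 2 * (1 / ((2 ^ r * r ^ 5 : ℕ) : ℝ) ^ 3) =
      2 / ((2 ^ r * r ^ 5 : ℕ) : ℝ) ^ 3 by ring], (h01 x).2⟩)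
    (lt_of_le_of_lt (mul_le_mul_of_nonneg_left hmass hcoef) (lt_of_lt_of_le hm hsum))
  refine ⟨G r, inferInstance, inferInstance, Qz, 2 ^ r * r ^ 5, κ * r ^ 2, c, hQ, hmpos, hf, hc01,
    junta_of_isL hf c hcL, hcpos⟩

theorem target (C : ℝ) (hC : 0 < C) : Target C := amplify good C hC

end Crest.Agent.R63
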