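import Crest.Agent.R63.Ch5

/-! ROW 63, module H (helper84): a `ℤ`-basis of the lattice `W ∩ ℤ^X`. -/

set_option autoImplicit false
open Finset

namespace Crest.Agent.R63.HU

variable {m r : ℕ}

/-- `W` as a real subspace -/
def WS (m r f : ℕ) : Submodule ℝ (X m r → ℝ) where
  carrier := {w | IsW f w}
  add_mem' := fun {w v} hw hv => isW_add w v hw hv
  zero_mem' := fun I _ x => by simp
  smul_mem' := fun c w hw => isW_smul c w hw

/-- the integral points of `W` -/
def LZ (m r f : ℕ) : Submodule ℤ (WS m r f) where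
  carrier := {w | ∀ x, ∃ n : ℤ, (w : X m r → ℝ) x = n}
  add_mem' := by
    intro w v hw hv x
    obtain ⟨a, ha⟩ := hw x
    obtain ⟨b, hb⟩ := hv x
    exact ⟨a + b, by push_cast; rw [← ha, ← hb]; rfl⟩
  zero_mem' := fun x => ⟨0, by simp⟩
  smul_mem' := by
    intro c w hw x
    obtain ⟨a, ha⟩ := hw x
    refine ⟨c * a, ?_⟩
    have : ((c • w : WS m r f) : X m r → ℝ) x = (c : ℝ) * (w : X m r → ℝ) x := by
      simp
    rw [this, ha]
    push_cast
    ring

instance (m r f : ℕ) : DiscreteTopology (LZ m r f) := by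
  rw [discreteTopology_iff_isOpen_singleton_zero, Metric.isOpen_singleton_iff]
  refine ⟨1, one_pos, fun y hy => ?_⟩
  have h1 : ‖((y : WS m r f) : X m r → ℝ)‖ < 1 := by
    have : dist y 0 = ‖((y : WS m r f) : X m r → ℝ)‖ := by
      rw [dist_zero_right]; rfl
    rwa [this] at hy
  have h2 : ∀ x, ((y : WS m r f) : X m r → ℝ) x = 0 := by
    intro x
    obtain ⟨n, hn⟩ := y.2 x
    have h3 : |((y : WS m r f) : X m r → ℝ) x| < 1 :=
      lt_of_le_of_lt (norm_le_pi_norm ((y : WS m r f) : X m r → ℝ) x) h1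
    rw [hn] at h3 ⊢
    have h4 : |n| < 1 := by exact_mod_cast h3
    have h5 : n = 0 := Int.abs_lt_one_iff.1 h4
    rw [h5]
    simp
  exact Subtype.ext (Subtype.ext (funext h2))

lemma zsmul_coe {f : ℕ} (n : ℤ) (u : WS m r f) (x : X m r) :
    ((n • u : WS m r f) : X m r → ℝ) x = (n : ℝ) * (u : X m r → ℝ) x := by
  simp

/-- the characters as elements of `W` -/
noncomputable def chW {f : ℕ} (α : X m r) (h : α ∈ AA m r f) : WS m r f :=
  ⟨fun x => (chi α x : ℝ), isW_chi α h⟩

lemma span_LZ (f : ℕ) (hf : f ≤ m) : Submodule.span ℝ (LZ m r f : Set (WS m r f)) = ⊤ := by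
  rw [eq_top_iff]
  intro w _
  have h1 : w = ∑ α : {α // α ∈ AA m r f}, coef (w : X m r → ℝ) α.1 • chW α.1 α.2 := by
    apply Subtype.ext
    funext x
    rw [expand_isW hf (w : X m r → ℝ) w.2 x, ← Finset.sum_coe_sort (AA m r f)]
    simp [chW, Finset.sum_apply]
  rw [h1]
  refine Submodule.sum_mem _ fun α _ => Submodule.smul_mem _ _ (Submodule.subset_span ?_)
  intro x
  exact ⟨chi α.1 x, rfl⟩

/-- a `ℤ`-basis of `W ∩ ℤ^X`, which is also a real basis of `W` -/
theorem exists_basis (m r f : ℕ) (hf : f ≤ m) :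
    ∃ (D : ℕ) (b : Fin D → X m r → ℤ),
      (∀ i, IsW f (fun x => (b i x : ℝ))) ∧
      (∀ w : X m r → ℝ, IsW f w → ∃ θ : Fin D → ℝ, ∀ x, w x = ∑ i, θ i * (b i x : ℝ)) ∧
      (∀ θ : Fin D → ℝ, (∀ x, ∑ i, θ i * (b i x : ℝ) = 0) → θ = 0) ∧
      (∀ v : X m r → ℤ, IsW f (fun x => (v x : ℝ)) →
        ∃ k : Fin D → ℤ, ∀ x, v x = ∑ i, k i * b i x) := by
  classical
  have : IsZLattice ℝ (LZ m r f) := ⟨span_LZ f hf⟩
  have : Module.Finite ℤ (LZ m r f) := ZLattice.module_finite ℝ _
  have : Module.Free ℤ (LZ m r f) := ZLattice.module_free ℝ _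
  let B := Module.finBasis ℤ (LZ m r f)
  let C := B.ofZLatticeBasis ℝ (LZ m r f)
  have hCB : ∀ i, C i = (B i : WS m r f) := fun i => B.ofZLatticeBasis_apply ℝ (LZ m r f) i
  have hint : ∀ i x, ∃ n : ℤ, ((B i : WS m r f) : X m r → ℝ) x = n := fun i x => (B i).2 x
  choose b hb using hint
  refine ⟨_, b, ?_, ?_, ?_, ?_⟩
  · intro i
    have : (fun x => (b i x : ℝ)) = ((B i : WS m r f) : X m r → ℝ) := funext fun x => (hb i x).symm
    rw [this]
    exact (B i : WS m r f).2
  · intro w hw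
    refine ⟨fun i => C.repr ⟨w, hw⟩ i, fun x => ?_⟩
    have h1 := C.sum_repr ⟨w, hw⟩
    have h2 := congrArg (fun v : WS m r f => (v : X m r → ℝ) x) h1
    simp only [Submodule.coe_sum, Finset.sum_apply, Submodule.coe_smul, Pi.smul_apply,
      smul_eq_mul] at h2
    rw [← h2]
    refine Finset.sum_congr rfl fun i _ => ?_
    rw [hCB, hb]
  · intro θ hθ
    have h1 : ∑ i, θ i • C i = 0 := by
      apply Subtype.ext
      funext x
      simp only [Submodule.coe_sum, Finset.sum_apply, Submodule.coe_smul, Pi.smul_apply,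
        smul_eq_mul, Submodule.coe_zero, Pi.zero_apply]
      rw [← hθ x]
      refine Finset.sum_congr rfl fun i _ => ?_
      rw [hCB, hb]
    have h2 := Fintype.linearIndependent_iff.1 C.linearIndependent θ h1
    exact funext h2
  · intro v hv
    let V : LZ m r f := ⟨⟨fun x => (v x : ℝ), hv⟩, fun x => ⟨v x, rfl⟩⟩
    refine ⟨fun i => B.repr V i, fun x => ?_⟩
    have h1 := B.sum_repr V
    have h2 := congrArg (fun u : LZ m r f => ((u : WS m r f) : X m r → ℝ) x) h1
    simp only [Submodule.coe_sum, Finset.sum_apply, Submodule.coe_smul] at h2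
    have h3 : ((∑ i, B.repr V i * b i x : ℤ) : ℝ) = (v x : ℝ) := by
      push_cast
      refine Eq.trans (Finset.sum_congr rfl fun i _ => ?_) h2
      have h4 := zsmul_coe (B.repr V i) (B i : WS m r f) x
      rw [hb] at h4
      exact h4.symm
    exact_mod_cast h3.symm

end Crest.Agent.R63.HU
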