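import Crest.Agent.R63.Defs

/-! ROW 63, module H, counting half: the final sum.  PROOF: group by j = floor(e K) >= 4 : at most exp(3(j+1)) elements, each term <= exp(-4.9 j)
(pi > 3.14); sum_{j>=4} exp(3 - 1.9 j) < 1. -/

set_option autoImplicit false
open Finset

namespace Crest.Agent.R63

theorem sum_lt_one {κ : Type} (R : Finset κ) (e : κ → ℝ) (h4 : ∀ K ∈ R, 10 ≤ e K)
    (hc : ∀ t : ℝ, 0 ≤ t → ((R.filter fun K => e K ≤ t).card : ℝ) ≤ Real.exp (3 * t)) :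
    ∑ K ∈ R, Real.exp (-(Real.pi ^ 2 / 2) * e K) < 1 := by
  classical
  have hpi : 4.9 ≤ Real.pi ^ 2 / 2 := by
    have := Real.pi_gt_d2
    nlinarith
  set M : ℕ := R.sup (fun K => ⌈e K⌉₊) with hM
  -- pointwise bound
  have h1 : ∀ K ∈ R, Real.exp (-(Real.pi ^ 2 / 2) * e K) ≤
      ∑ j ∈ Ico 10 (M + 1), (if e K ≤ (j : ℝ) then Real.exp (-4.9 * ((j : ℝ) - 1)) else 0) := by
    intro K hK
    have hjM : ⌈e K⌉₊ ≤ M := Finset.le_sup (f := fun K => ⌈e K⌉₊) hK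
    have hj10 : 10 ≤ ⌈e K⌉₊ := by
      have h := (h4 K hK).trans (Nat.le_ceil (e K))
      exact_mod_cast h
    have hmem : ⌈e K⌉₊ ∈ Ico 10 (M + 1) := Finset.mem_Ico.2 ⟨hj10, by omega⟩
    refine le_trans ?_ (Finset.single_le_sum (fun j _ => ?_) hmem)
    · rw [if_pos (Nat.le_ceil _)]
      apply Real.exp_le_exp.2
      have h2 : ((⌈e K⌉₊ : ℕ) : ℝ) < e K + 1 := Nat.ceil_lt_add_one (by linarith [h4 K hK])
      have h3 : 4.9 * e K ≤ Real.pi ^ 2 / 2 * e K :=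
        mul_le_mul_of_nonneg_right hpi (by linarith [h4 K hK])
      linarith
    · split_ifs
      · exact (Real.exp_pos _).le
      · exact le_rfl
  have h2 : ∑ K ∈ R, Real.exp (-(Real.pi ^ 2 / 2) * e K) ≤
      ∑ j ∈ Ico 10 (M + 1), Real.exp (-4.9 * ((j : ℝ) - 1)) * Real.exp (3 * j) := by
    refine (Finset.sum_le_sum h1).trans ?_
    rw [Finset.sum_comm]
    refine Finset.sum_le_sum fun j _ => ?_
    rw [← Finset.sum_filter, Finset.sum_const, nsmul_eq_mul, mul_comm]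
    exact mul_le_mul_of_nonneg_left (hc j (Nat.cast_nonneg j)) (Real.exp_pos _).le
  have hr : Real.exp (-1.9) ≤ 1 / 4 := by
    have h3 := Real.quadratic_le_exp_of_nonneg (show (0 : ℝ) ≤ 1.9 by norm_num)
    rw [Real.exp_neg, one_div]
    exact inv_anti₀ (by norm_num) (by norm_num at h3 ⊢; linarith)
  have h5 : Real.exp 4.9 ≤ 149 := by
    have h6 : Real.exp 4.9 ≤ Real.exp 1 ^ 5 := by
      rw [← Real.exp_nat_mul]
      exact Real.exp_le_exp.2 (by norm_num)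
    have h7 : Real.exp 1 ≤ 2.72 := by
      have := Real.exp_one_lt_d9
      linarith
    calc Real.exp 4.9 ≤ Real.exp 1 ^ 5 := h6
      _ ≤ 2.72 ^ 5 := by gcongr
      _ ≤ 149 := by norm_num
  have h8 : ∀ j ∈ Ico 10 (M + 1), Real.exp (-4.9 * ((j : ℝ) - 1)) * Real.exp (3 * j) ≤
      149 * (1 / 1024) * (1 / 2) ^ j := by
    intro j hj
    have hj10 : 10 ≤ j := (Finset.mem_Ico.1 hj).1
    have e1 : Real.exp (-4.9 * ((j : ℝ) - 1)) * Real.exp (3 * j) =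
        Real.exp 4.9 * Real.exp (-1.9) ^ j := by
      rw [← Real.exp_nat_mul, ← Real.exp_add, ← Real.exp_add]
      congr 1
      ring
    rw [e1]
    have e2 : Real.exp (-1.9) ^ j ≤ (1 / 4) ^ j :=
      pow_le_pow_left₀ (Real.exp_pos _).le hr j
    have e3 : ((1 : ℝ) / 4) ^ j = (1 / 2) ^ j * (1 / 2) ^ j := by
      rw [← mul_pow]; norm_num
    have e4 : ((1 : ℝ) / 2) ^ j ≤ (1 / 2) ^ 10 :=
      pow_le_pow_of_le_one (by norm_num) (by norm_num) hj10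
    have e5 : ((1 : ℝ) / 2) ^ 10 = 1 / 1024 := by norm_num
    rw [e5] at e4
    calc Real.exp 4.9 * Real.exp (-1.9) ^ j ≤ 149 * ((1 / 2) ^ j * (1 / 2) ^ j) := by
          rw [← e3]; gcongr
      _ ≤ 149 * ((1 / 1024) * (1 / 2) ^ j) := by gcongr
      _ = _ := by ring
  have h9 : ∑ j ∈ Ico 10 (M + 1), ((1 : ℝ) / 2) ^ j ≤ 2 := by
    refine le_trans (Finset.sum_le_sum_of_subset_of_nonneg ?_ ?_) (sum_geometric_two_le (M + 1))
    · intro j hj
      exact Finset.mem_range.2 (Finset.mem_Ico.1 hj).2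
    · intro j _ _; positivity
  calc ∑ K ∈ R, Real.exp (-(Real.pi ^ 2 / 2) * e K) ≤ _ := h2
    _ ≤ ∑ j ∈ Ico 10 (M + 1), 149 * (1 / 1024) * (1 / 2) ^ j := Finset.sum_le_sum h8
    _ = 149 * (1 / 1024) * ∑ j ∈ Ico 10 (M + 1), ((1 : ℝ) / 2) ^ j := by rw [Finset.mul_sum]
    _ ≤ 149 * (1 / 1024) * 2 := by gcongr
    _ < 1 := by norm_num

end Crest.Agent.R63
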