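import Crest.Agent.R63.HCb

/-! ROW 63, module H, counting half: representatives.  PROOF: equivalence K ~ K' iff InL (K - K') on functions {x // x in A} -> Z.  If |wv b θ x - K x| <= 1/2 on A, subtract
k i = floor (θ i): K' = K - sum k i b i satisfies |K' x| <= sum_i |b i x| + 1: finitely many K'.  R = image of this finite set
(with cell nonempty and not InL) under the map K -> representative of its class. -/

set_option autoImplicit false
open Finset

namespace Crest.Agent.R63

variable {m r f D : ℕ}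

private theorem InL_zero (A : Finset (X m r)) (b : Fin D → X m r → ℤ) :
    InL A b (fun _ => 0) := ⟨fun _ => 0, fun x => by simp⟩

private theorem InL_neg (A : Finset (X m r)) (b : Fin D → X m r → ℤ) (K : {x // x ∈ A} → ℤ)
    (h : InL A b K) : InL A b (fun x => - K x) := by
  obtain ⟨k, hk⟩ := h
  refine ⟨fun i => - k i, fun x => ?_⟩
  simp only [neg_mul, Finset.sum_neg_distrib]
  rw [hk x]

private theorem InL_add (A : Finset (X m r)) (b : Fin D → X m r → ℤ) (K K' : {x // x ∈ A} → ℤ)
    (h : InL A b K) (h' : InL A b K') : InL A b (fun x => K x + K' x) := by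
  obtain ⟨k, hk⟩ := h
  obtain ⟨k', hk'⟩ := h'
  refine ⟨fun i => k i + k' i, fun x => ?_⟩
  simp only [add_mul, Finset.sum_add_distrib]
  rw [hk x, hk' x]

private def repSetoid (A : Finset (X m r)) (b : Fin D → X m r → ℤ) :
    Setoid ({x // x ∈ A} → ℤ) where
  r K K' := InL A b (fun x => K x - K' x)
  iseqv := by
    constructor
    · intro K
      have h := InL_zero A b
      simpa using h
    · intro K K' h
      have h2 := InL_neg A b _ h
      have e : (fun x => K' x - K x) = fun x => -(K x - K' x) := by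
        funext x
        ring
      show InL A b (fun x => K' x - K x)
      rw [e]
      exact h2
    · intro K K' K'' h h'
      have h2 := InL_add A b _ _ h h'
      have e : (fun x => K x - K'' x) = fun x => (K x - K' x) + (K' x - K'' x) := by
        funext x
        ring
      show InL A b (fun x => K x - K'' x)
      rw [e]
      exact h2

private theorem near_shift (A : Finset (X m r)) (b : Fin D → X m r → ℤ)
    (K K' : {x // x ∈ A} → ℤ) (k : Fin D → ℤ) (hk : ∀ x : {x // x ∈ A}, K' x = K x - ∑ i, k i * b i x)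
    (θ : Fin D → ℝ) (h : ∀ x : {x // x ∈ A}, |wv b θ x - K x| ≤ 1 / 2) :
    ∀ x : {x // x ∈ A}, |wv b (fun i => θ i - k i) x - K' x| ≤ 1 / 2 := by
  intro x
  have e : wv b (fun i => θ i - k i) x - K' x = wv b θ x - K x := by
    rw [hk x]
    unfold wv
    push_cast
    simp only [sub_mul, Finset.sum_sub_distrib]
    ring
  rw [e]
  exact h x

theorem exists_reps (A : Finset (X m r)) (b : Fin D → X m r → ℤ) :
    ∃ R : Finset ({x // x ∈ A} → ℤ),
      (∀ K ∈ R, (∃ θ : Fin D → ℝ, ∀ x : {x // x ∈ A}, |wv b θ x - K x| ≤ 1 / 2) ∧ ¬ InL A b K) ∧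
      (∀ K ∈ R, ∀ K' ∈ R, InL A b (fun x => K x - K' x) → K = K') ∧
      ∀ K : {x // x ∈ A} → ℤ, (∃ θ : Fin D → ℝ, ∀ x : {x // x ∈ A}, |wv b θ x - K x| ≤ 1 / 2) →
        InL A b K ∨ ∃ k : Fin D → ℤ, (fun x : {x // x ∈ A} => K x - ∑ i, k i * b i x) ∈ R := by
  classical
  let s : Setoid ({x // x ∈ A} → ℤ) := repSetoid A b
  set B : ℤ := 1 + ∑ i, ∑ x : {x // x ∈ A}, |b i x| with hB
  set rep : ({x // x ∈ A} → ℤ) → ({x // x ∈ A} → ℤ) := fun K => Quotient.out (s := s) ⟦K⟧ with hrep
  have hrep1 : ∀ K, InL A b (fun x => rep K x - K x) := by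
    intro K
    exact Quotient.mk_out (s := s) K
  have hrep2 : ∀ K, rep (rep K) = rep K := by
    intro K
    simp only [hrep, Quotient.out_eq]
  have hrep3 : ∀ K K', InL A b (fun x => K x - K' x) → rep K = rep K' := by
    intro K K' h
    have h2 : (⟦K⟧ : Quotient s) = ⟦K'⟧ := Quotient.sound h
    simp only [hrep, h2]
  have hrepk : ∀ K, ∃ k : Fin D → ℤ, ∀ x : {x // x ∈ A}, rep K x = K x - ∑ i, k i * b i x := by
    intro K
    obtain ⟨k, hk⟩ := hrep1 K
    refine ⟨fun i => - k i, fun x => ?_⟩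
    have h := hk x
    simp only [neg_mul, Finset.sum_neg_distrib]
    linarith
  set F : Finset ({x // x ∈ A} → ℤ) := Fintype.piFinset (fun _ => Finset.Icc (-B) B) with hF
  refine ⟨(F.filter (fun K => (∃ θ : Fin D → ℝ, ∀ x : {x // x ∈ A}, |wv b θ x - K x| ≤ 1 / 2) ∧
    ¬ InL A b K)).image rep, ?_, ?_, ?_⟩
  · intro K hK
    rw [Finset.mem_image] at hK
    obtain ⟨K1, hK1, rfl⟩ := hK
    rw [Finset.mem_filter] at hK1
    obtain ⟨-, ⟨θ, hθ⟩, hn⟩ := hK1
    obtain ⟨k, hk⟩ := hrepk K1
    refine ⟨⟨_, near_shift A b K1 (rep K1) k hk θ hθ⟩, ?_⟩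
    intro h
    apply hn
    have h2 := InL_add A b _ _ h (InL_neg A b _ (hrep1 K1))
    have e : (fun x => rep K1 x + -(rep K1 x - K1 x)) = K1 := by
      funext x
      ring
    rw [e] at h2
    exact h2
  · intro K hK K' hK' h
    rw [Finset.mem_image] at hK hK'
    obtain ⟨K1, -, rfl⟩ := hK
    obtain ⟨K2, -, rfl⟩ := hK'
    have h2 := hrep3 _ _ h
    rw [hrep2, hrep2] at h2
    exact h2
  · intro K hK
    obtain ⟨θ, hθ⟩ := hK
    by_cases hin : InL A b K
    · exact Or.inl hin
    · right
      set K1 : {x // x ∈ A} → ℤ := fun x => K x - ∑ i, ⌊θ i⌋ * b i x with hK1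
      have hnear := near_shift A b K K1 (fun i => ⌊θ i⌋) (fun x => rfl) θ hθ
      have hKin : ¬ InL A b K1 := by
        intro h
        apply hin
        have h3 : InL A b (fun x => ∑ i, ⌊θ i⌋ * b i x) := ⟨fun i => ⌊θ i⌋, fun x => rfl⟩
        have h2 := InL_add A b _ _ h h3
        have e : (fun x => K1 x + ∑ i, ⌊θ i⌋ * b i x) = K := by
          funext x
          simp only [hK1]
          ring
        rw [e] at h2
        exact h2
      have hbd : ∀ x : {x // x ∈ A}, |K1 x| ≤ B := by
        intro x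
        have h1 := hnear x
        have h2 : |wv b (fun i => θ i - (⌊θ i⌋ : ℝ)) x| ≤ ∑ i, |(b i x : ℝ)| := by
          unfold wv
          refine (Finset.abs_sum_le_sum_abs _ _).trans (Finset.sum_le_sum fun i _ => ?_)
          rw [abs_mul]
          have h3 : |θ i - (⌊θ i⌋ : ℝ)| ≤ 1 := by
            have h4 := Int.fract_nonneg (θ i)
            have h5 := (Int.fract_lt_one (θ i)).le
            unfold Int.fract at h4 h5
            rw [abs_of_nonneg h4]
            exact h5
          calc |θ i - (⌊θ i⌋ : ℝ)| * |(b i x : ℝ)| ≤ 1 * |(b i x : ℝ)| :=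
                mul_le_mul_of_nonneg_right h3 (abs_nonneg _)
            _ = |(b i x : ℝ)| := one_mul _
        have h3 : ∑ i, |(b i x : ℝ)| ≤ ∑ i, ∑ x : {x // x ∈ A}, |(b i x : ℝ)| := by
          refine Finset.sum_le_sum fun i _ => ?_
          exact Finset.single_le_sum (f := fun x : {x // x ∈ A} => |(b i x : ℝ)|)
            (fun y _ => abs_nonneg _) (Finset.mem_univ x)
        have h4 : ((|K1 x| : ℤ) : ℝ) ≤ (B : ℝ) := by
          rw [hB]
          push_cast
          have h5 : |(K1 x : ℝ)| ≤ |wv b (fun i => θ i - (⌊θ i⌋ : ℝ)) x| + 1 / 2 := by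
            have h6 : (K1 x : ℝ) = wv b (fun i => θ i - (⌊θ i⌋ : ℝ)) x -
                (wv b (fun i => θ i - (⌊θ i⌋ : ℝ)) x - K1 x) := by ring
            rw [h6]
            refine (abs_sub _ _).trans ?_
            linarith
          linarith
        exact_mod_cast h4
      have hF1 : K1 ∈ F := by
        rw [hF, Fintype.mem_piFinset]
        intro x
        rw [Finset.mem_Icc]
        exact abs_le.mp (hbd x)
      obtain ⟨k, hk⟩ := hrepk K1
      refine ⟨fun i => ⌊θ i⌋ + k i, ?_⟩
      rw [Finset.mem_image]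
      refine ⟨K1, ?_, ?_⟩
      · rw [Finset.mem_filter]
        exact ⟨hF1, ⟨_, hnear⟩, hKin⟩
      · funext x
        rw [hk x]
        simp only [hK1, add_mul, Finset.sum_add_distrib]
        ring

end Crest.Agent.R63
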