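import Crest.Agent.R63.HCc
import Crest.Agent.R63.HCd
import Crest.Agent.R63.HCe

/-! ROW 63, module H, counting half: assembly: R from exists_reps, for K in R a minimiser θ K from HU.exists_min (b restricted to A), eK K = the minimum;
low gives eK >= 10, count applied to R.filter (eK <= t) gives the hypothesis of sum_lt_one. -/

set_option autoImplicit false
open Finset

namespace Crest.Agent.R63

variable {m r f D : ℕ}

theorem count_main (hf : f ≤ m) (hn : 1 ≤ r * m) (δ0 η : ℝ)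
    (hδ0 : δ0 = 1 / (200 * 2 ^ (r * f))) (hη : 0 < η) (hη1 : η ≤ 1)
    (hnum : Th m r f * 2 ^ 22 * ((r * m : ℕ) : ℝ) ^ 3 ≤ η * δ0 ^ 2)
    (A : Finset (X m r))
    (hG : ∀ w : X m r → ℝ, IsW f w → (∃ x, δ0 ≤ nrm (w x)) → η * En w ≤ ∑ x ∈ A, nrm (w x) ^ 2)
    (b : Fin D → X m r → ℤ) (hb : ∀ i, IsW f (fun x => (b i x : ℝ)))
    (hint : ∀ v : X m r → ℤ, IsW f (fun x => (v x : ℝ)) → ∃ k : Fin D → ℤ, ∀ x, v x = ∑ i, k i * b i x) :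
    ∃ (R : Finset ({x // x ∈ A} → ℤ)) (eK : ({x // x ∈ A} → ℤ) → ℝ),
      (∀ K : {x // x ∈ A} → ℤ,
        (∃ θ : Fin D → ℝ, ∀ x, |HU.Hf (fun i (x : {x // x ∈ A}) => b i x) θ x - K x| ≤ 1 / 2) →
        (∃ k : Fin D → ℤ, ∀ x : {x // x ∈ A}, K x = ∑ i, k i * b i x) ∨
        (∃ k : Fin D → ℤ, (fun x : {x // x ∈ A} => K x - ∑ i, k i * b i x) ∈ R)) ∧
      (∀ K ∈ R, ∀ θ : Fin D → ℝ,
        (∀ x, |HU.Hf (fun i (x : {x // x ∈ A}) => b i x) θ x - K x| ≤ 1 / 2) →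
        eK K ≤ ∑ x, (HU.Hf (fun i (x : {x // x ∈ A}) => b i x) θ x - K x) ^ 2) ∧
      ∑ K ∈ R, Real.exp (-(Real.pi ^ 2 / 2) * eK K) < 1 := by
  classical
  obtain ⟨R, hR1, hR2, hR3⟩ := exists_reps A b
  have hmin : ∀ K : {x // x ∈ A} → ℤ, ∃ θ₀ : Fin D → ℝ,
      (∃ θ : Fin D → ℝ, ∀ x : {x // x ∈ A}, |wv b θ x - K x| ≤ 1 / 2) →
      (∀ x : {x // x ∈ A}, |wv b θ₀ x - K x| ≤ 1 / 2) ∧
      (∀ θ : Fin D → ℝ, (∀ x : {x // x ∈ A}, |wv b θ x - K x| ≤ 1 / 2) →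
        ∑ x : {x // x ∈ A}, (wv b θ₀ x - K x) ^ 2 ≤ ∑ x : {x // x ∈ A}, (wv b θ x - K x) ^ 2) := by
    intro K
    by_cases h : ∃ θ : Fin D → ℝ, ∀ x : {x // x ∈ A}, |wv b θ x - K x| ≤ 1 / 2
    · obtain ⟨θ₀, h1, h2, -⟩ := HU.exists_min (fun i (x : {x // x ∈ A}) => b i x)
        (fun x => (K x : ℝ)) h
      exact ⟨θ₀, fun _ => ⟨h1, h2⟩⟩
    · exact ⟨0, fun h' => absurd h' h⟩
  choose θm hθm using hmin
  refine ⟨R, fun K => ∑ x : {x // x ∈ A}, (wv b (θm K) x - K x) ^ 2, fun K hK => hR3 K hK,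
    fun K hK θ hθ => (hθm K ⟨θ, hθ⟩).2 θ hθ, ?_⟩
  refine sum_lt_one R _ (fun K hK => ?_) (fun t ht => ?_)
  · exact low hf hn δ0 η hδ0 hη hη1 hnum A hG b hb hint K (θm K) (hθm K (hR1 K hK).1).1 (hR1 K hK).2
  · refine count hf hn δ0 η hδ0 hη hη1 hnum A hG b hb hint _ θm ?_ ?_ ?_ t ?_
    · intro K hK
      exact (hθm K (hR1 K (mem_filter.1 hK).1).1).1
    · intro K hK
      exact (hR1 K (mem_filter.1 hK).1).2
    · intro K hK K' hK' h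
      exact hR2 K (mem_filter.1 hK).1 K' (mem_filter.1 hK').1 h
    · intro K hK
      exact (mem_filter.1 hK).2

end Crest.Agent.R63
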