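import Crest.Agent.R63.C0
import Crest.Agent.R63.HC0
import Crest.Agent.R63.HB

/-! ROW 63, module H (stage lemma, B5 of ideas 456): assembly from `HU.stage_abs` (analysis),
`HU.exists_basis` (lattice) and `count_main` (counting). -/

set_option autoImplicit false
open Finset

namespace Crest.Agent.R63

/-- integers at distance less than `1/2` from an integer ... : `nrm (t) = |t|` for `|t| ≤ 1/2` -/
lemma nrm_eq_abs {t : ℝ} (h : |t| ≤ 1 / 2) : nrm t = |t| := by
  unfold nrm
  by_cases h1 : t < 1 / 2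
  · have h2 : round t = 0 := by
      rw [round_eq_zero_iff]
      rw [abs_le] at h
      exact ⟨by linarith [h.1], h1⟩
    rw [h2]
    simp
  · have h2 : t = 1 / 2 := le_antisymm ((le_abs_self t).trans h) (not_lt.1 h1)
    subst h2
    have h3 : round (1 / 2 : ℝ) = 1 := by
      rw [round_eq]
      norm_num
    rw [h3]
    norm_num

theorem stage {m r f : ℕ} (hf : f ≤ m) (hn : 1 ≤ r * m) (δ0 η : ℝ)
    (hδ0 : δ0 = 1 / (200 * 2 ^ (r * f))) (hη : 0 < η) (hη1 : η ≤ 1)
    (hnum : Th m r f * 2 ^ 22 * ((r * m : ℕ) : ℝ) ^ 3 ≤ η * δ0 ^ 2)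
    (M : X m r → ℤ) (hM : IsL f (fun x => (M x : ℝ)))
    (hG : ∀ w : X m r → ℝ, IsW f w → (∃ x, δ0 ≤ nrm (w x)) →
      η * En w ≤ ∑ x ∈ univ.filter (fun x => Odd (M x)), nrm (w x) ^ 2) :
    ∃ e : X m r → ℤ, IsL f (fun x => (e x : ℝ)) ∧
      ∀ x, (Odd (M x) → e x = 1 ∨ e x = -1) ∧ (¬ Odd (M x) → e x = 0) := by
  classical
  obtain ⟨D, b, hbW, hbs, hbi, hbz⟩ := HU.exists_basis m r f hf
  set A : Finset (X m r) := univ.filter (fun x => Odd (M x)) with hA
  have hAm : ∀ x, x ∈ A ↔ Odd (M x) := fun x => by simp [hA]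
  obtain ⟨R, eK, hR, heK, hsum⟩ :=
    count_main hf hn δ0 η hδ0 hη hη1 hnum A hG b hbW hbz
  have hδ0p : 0 < δ0 := by rw [hδ0]; positivity
  have hδ0h : δ0 ≤ 1 / 2 := by
    rw [hδ0]
    have h1 : (1 : ℝ) ≤ 2 ^ (r * f) := one_le_pow₀ (by norm_num)
    rw [div_le_div_iff₀ (by positivity) (by norm_num)]
    linarith
  -- injectivity on the odd set
  have hinj : ∀ θ : Fin D → ℝ,
      (∀ x : {x : X m r // x ∈ A},
        HU.Hf (fun i (x : {x : X m r // x ∈ A}) => b i x.1) θ x = 0) → θ = 0 := by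
    intro θ hθ
    by_contra hne
    apply hne
    apply hbi
    by_contra hex
    push Not at hex
    obtain ⟨x0, hx0⟩ := hex
    -- the maximal value of `|w|`
    let w : X m r → ℝ := fun x => ∑ i, θ i * (b i x : ℝ)
    have hwW : IsW f w := by
      intro I hI x
      calc ∑ z ∈ cube I x, w z = ∑ i, θ i * ∑ z ∈ cube I x, (b i z : ℝ) := by
            rw [Finset.sum_comm]
            exact Finset.sum_congr rfl fun i _ => by rw [Finset.mul_sum]
        _ = 0 := Finset.sum_eq_zero fun i _ => by rw [hbW i I hI x, mul_zero]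
    obtain ⟨x1, -, hx1⟩ := Finset.exists_max_image univ (fun x => |w x|) ⟨x0, Finset.mem_univ _⟩
    have hpos : 0 < |w x1| := lt_of_lt_of_le (abs_pos.2 hx0) (hx1 x0 (Finset.mem_univ _))
    let c : ℝ := 1 / (2 * |w x1|)
    have hcpos : 0 < c := by positivity
    have hle : ∀ x, |c * w x| ≤ 1 / 2 := by
      intro x
      rw [abs_mul, abs_of_pos hcpos]
      calc c * |w x| ≤ c * |w x1| := mul_le_mul_of_nonneg_left (hx1 x (Finset.mem_univ _)) hcpos.le
        _ = 1 / 2 := by
          show 1 / (2 * |w x1|) * |w x1| = 1 / 2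
          field_simp
    have hW2 : IsW f (fun x => c * w x) := isW_smul c w hwW
    have h1 := hG _ hW2 ⟨x1, by
      rw [nrm_eq_abs (hle x1), abs_mul, abs_of_pos hcpos]
      have : c * |w x1| = 1 / 2 := by
        show 1 / (2 * |w x1|) * |w x1| = 1 / 2
        field_simp
      rw [this]
      exact hδ0h⟩
    have h2 : ∑ x ∈ A, nrm (c * w x) ^ 2 = 0 := by
      refine Finset.sum_eq_zero fun x hx => ?_
      have h3 : w x = 0 := hθ ⟨x, hx⟩
      rw [h3, mul_zero, nrm_eq_abs (by norm_num)]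
      simp
    rw [h2] at h1
    have h4 : 0 < En (fun x => c * w x) := by
      unfold En
      refine Finset.sum_pos' (fun x _ => sq_nonneg _) ⟨x1, Finset.mem_univ _, ?_⟩
      rw [nrm_eq_abs (hle x1)]
      have : 0 < |c * w x1| := by
        rw [abs_mul]
        exact mul_pos (abs_pos.2 hcpos.ne') hpos
      positivity
    nlinarith
  -- parity
  have hpar : ∀ i, Even (∑ x : {x : X m r // x ∈ A}, b i x.1) := by
    intro i
    have h1 : ∑ x, (M x : ℝ) * (b i x : ℝ) = 0 := hM _ (hbW i)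
    have h2 : ∑ x, M x * b i x = 0 := by exact_mod_cast h1
    rw [Finset.sum_coe_sort A (fun x => b i x)]
    have h4 : ∑ x ∈ A, b i x
        = ∑ x, M x * b i x - (∑ x ∈ A, (M x - 1) * b i x
          + ∑ x ∈ univ.filter (fun x => ¬ Odd (M x)), M x * b i x) := by
      rw [← Finset.sum_filter_add_sum_filter_not univ (fun x => Odd (M x)) (fun x => M x * b i x)]
      have : ∑ x ∈ A, (M x - 1) * b i x
          = ∑ x ∈ A, M x * b i x - ∑ x ∈ A, b i x := by
        rw [← Finset.sum_sub_distrib]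
        exact Finset.sum_congr rfl fun x _ => by ring
      rw [this]
      ring
    rw [h4, h2, zero_sub, even_neg]
    refine Even.add (Finset.even_sum _ fun x hx => ?_) (Finset.even_sum _ fun x hx => ?_)
    · exact (((hAm x).1 hx).sub_odd odd_one).mul_right _
    · exact (Int.not_odd_iff_even.1 (Finset.mem_filter.1 hx).2).mul_right _
  obtain ⟨e, he1, he2⟩ := HU.stage_abs (fun i (x : {x : X m r // x ∈ A}) => b i x.1)
    hinj hpar R eK hR heK hsum
  refine ⟨fun x => if h : x ∈ A then e ⟨x, h⟩ else 0, ?_, fun x => ⟨fun h => ?_, fun h => ?_⟩⟩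
  · intro w hw
    obtain ⟨θ, hθ⟩ := hbs w hw
    have h5 : ∀ i, ∑ x, (((if h : x ∈ A then e ⟨x, h⟩ else 0 : ℤ) : ℝ)) * (b i x : ℝ) = 0 := by
      intro i
      have h6 : ∑ x, (if h : x ∈ A then e ⟨x, h⟩ else 0 : ℤ) * b i x = 0 := by
        have h7 : ∑ x, (if h : x ∈ A then e ⟨x, h⟩ else 0 : ℤ) * b i x
            = ∑ x ∈ A, (if h : x ∈ A then e ⟨x, h⟩ else 0 : ℤ) * b i x := by
          symm
          refine Finset.sum_subset (Finset.subset_univ _) fun x _ hx => ?_
          rw [dif_neg hx, zero_mul]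
        rw [h7, ← Finset.sum_coe_sort A, ← he2 i]
        refine Finset.sum_congr rfl fun x _ => ?_
        rw [dif_pos x.2]
      exact_mod_cast h6
    calc ∑ x, (((if h : x ∈ A then e ⟨x, h⟩ else 0 : ℤ) : ℝ)) * w x
        = ∑ i, θ i * ∑ x, (((if h : x ∈ A then e ⟨x, h⟩ else 0 : ℤ) : ℝ)) * (b i x : ℝ) := by
          simp_rw [hθ, Finset.mul_sum]
          rw [Finset.sum_comm]
          refine Finset.sum_congr rfl fun i _ => Finset.sum_congr rfl fun x _ => ?_
          ring
      _ = 0 := Finset.sum_eq_zero fun i _ => by rw [h5 i, mul_zero]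
  · simp only [dif_pos ((hAm x).2 h)]
    exact he1 ⟨x, _⟩
  · simp only [dif_neg fun h' => h ((hAm x).1 h')]

end Crest.Agent.R63
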