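import Crest.Agent.R63.C0

/-! ROW 63, module H, counting half: rounding in W.  PROOF: v x = round (w x - w' x), p = w - w' - v, |p| = nrm <= d.  For an f-cube Q (2^(r f) points):
sum_Q p = - sum_Q v is an integer of absolute value <= 2^(rf) d < 1, so it is 0: IsW v. -/

set_option autoImplicit false
open Finset

namespace Crest.Agent.R63

lemma card_cube {m r : ℕ} (I : Finset (Fin m)) (x : X m r) : (cube I x).card = 2 ^ (r * I.card) := by
  classical
  have h1 : cube I x = Fintype.piFinset
      (fun i => if i ∈ I then (univ : Finset (Fin r → ZMod 2)) else {x i}) := by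
    ext z
    simp only [cube, Finset.mem_filter, Finset.mem_univ, true_and, Fintype.mem_piFinset]
    constructor
    · intro h i
      by_cases hi : i ∈ I
      · simp [hi]
      · simp [hi, h i hi]
    · intro h i hi
      have := h i
      simpa [hi] using this
  rw [h1, Fintype.card_piFinset]
  have h2 : ∀ i : Fin m, (if i ∈ I then (univ : Finset (Fin r → ZMod 2)) else {x i}).card
      = if i ∈ I then 2 ^ r else 1 := by
    intro i
    by_cases hi : i ∈ I
    · simp [hi, ZMod.card]
    · simp [hi]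
  rw [Finset.prod_congr rfl fun i _ => h2 i, Finset.prod_ite_mem, Finset.univ_inter,
    Finset.prod_const, ← pow_mul]

theorem round_W {m r f : ℕ} (d : ℝ) (hd : 2 ^ (r * f) * d < 1) (w w' : X m r → ℝ) (hw : IsW f w)
    (hw' : IsW f w') (h : ∀ x, nrm (w x - w' x) ≤ d) :
    ∃ v : X m r → ℤ, IsW f (fun x => (v x : ℝ)) ∧ ∀ x, |w x - w' x - v x| ≤ d := by
  refine ⟨fun x => round (w x - w' x), ?_, fun x => h x⟩
  intro I hI x
  have hp : ∀ z, |w z - w' z - ((round (w z - w' z) : ℤ) : ℝ)| ≤ d := fun z => h z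
  have h1 : ∑ z ∈ cube I x, (w z - w' z - ((round (w z - w' z) : ℤ) : ℝ))
      = - ∑ z ∈ cube I x, ((round (w z - w' z) : ℤ) : ℝ) := by
    rw [Finset.sum_sub_distrib, Finset.sum_sub_distrib, hw I hI x, hw' I hI x]
    ring
  have h2 : |∑ z ∈ cube I x, (w z - w' z - ((round (w z - w' z) : ℤ) : ℝ))|
      ≤ 2 ^ (r * f) * d := by
    calc _ ≤ ∑ z ∈ cube I x, |w z - w' z - ((round (w z - w' z) : ℤ) : ℝ)| :=
          Finset.abs_sum_le_sum_abs _ _
      _ ≤ ∑ _z ∈ cube I x, d := Finset.sum_le_sum fun z _ => hp z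
      _ = 2 ^ (r * f) * d := by
          rw [Finset.sum_const, card_cube, hI, nsmul_eq_mul]
          push_cast
          ring
  have h3 : |((∑ z ∈ cube I x, round (w z - w' z) : ℤ) : ℝ)| < 1 := by
    push_cast
    rw [← abs_neg, ← h1]
    exact lt_of_le_of_lt h2 hd
  have h4 : |(∑ z ∈ cube I x, round (w z - w' z) : ℤ)| < 1 := by
    exact_mod_cast h3
  have h5 : (∑ z ∈ cube I x, round (w z - w' z) : ℤ) = 0 := Int.abs_lt_one_iff.mp h4
  have h6 : ((∑ z ∈ cube I x, round (w z - w' z) : ℤ) : ℝ) = 0 := by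
    rw [h5]; simp
  push_cast at h6
  exact h6

end Crest.Agent.R63
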