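import Crest.Agent.R63.HU2

/-! ROW 63, module H, analytic half, part 3 (helper84): `stage_abs`. -/

set_option autoImplicit false
open Finset MeasureTheory
open scoped ENNReal

namespace Crest.Agent.R63.HU

variable {D : ℕ} {ι : Type} [Fintype ι]

/-- the sign of a Boolean as an integer -/
def sb (t : Bool) : ℤ := if t then 1 else -1

lemma sb_cases (t : Bool) : sb t = 1 ∨ sb t = -1 := by
  cases t <;> simp [sb]

lemma two_cos_eq (z : ℝ) :
    ((2 * Real.cos z : ℝ) : ℂ) = ∑ t : Bool, Complex.exp (((sb t : ℤ) : ℂ) * z * Complex.I) := by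
  rw [Fintype.sum_bool]
  simp only [sb, if_true, Bool.false_eq_true, if_false]
  push_cast
  rw [Complex.cos]
  ring_nf

lemma exp_sum_aux (b : Fin D → ι → ℤ) (θ : Fin D → ℝ) [DecidableEq ι] :
    (((2 : ℝ) ^ Fintype.card ι * FF b θ : ℝ) : ℂ) = ∑ e : ι → Bool, ∏ i : Fin D,
      Complex.exp (((∑ x, sb (e x) * b i x : ℤ) : ℂ) * (Real.pi * Complex.I) * (θ i)) := by
  have h1 : (((2 : ℝ) ^ Fintype.card ι * FF b θ : ℝ) : ℂ)
      = ∏ x : ι, ((2 * Real.cos (Real.pi * Hf b θ x) : ℝ) : ℂ) := by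
    unfold FF
    push_cast
    rw [Finset.prod_mul_distrib, Finset.prod_const, Finset.card_univ]
  rw [h1]
  simp_rw [two_cos_eq]
  rw [Fintype.prod_sum]
  refine Finset.sum_congr rfl fun e _ => ?_
  rw [← Complex.exp_sum, ← Complex.exp_sum]
  congr 1
  have h2 : ∀ x, ((Real.pi * Hf b θ x : ℝ) : ℂ)
      = ∑ i, (Real.pi : ℂ) * ((θ i : ℂ) * (b i x : ℂ)) := by
    intro x
    unfold Hf
    push_cast
    rw [Finset.mul_sum]
  simp_rw [h2]
  push_cast
  simp_rw [Finset.mul_sum, Finset.sum_mul]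
  rw [Finset.sum_comm]
  refine Finset.sum_congr rfl fun i _ => Finset.sum_congr rfl fun x _ => ?_
  ring

lemma integral_exp_even {c : ℤ} (hc : Even c) (hc0 : c ≠ 0) :
    ∫ t in Set.Ico (0 : ℝ) 1, Complex.exp ((c : ℂ) * (Real.pi * Complex.I) * (t : ℂ)) = 0 := by
  obtain ⟨m, hm⟩ := hc
  rw [integral_Ico_eq_integral_Ioo, ← integral_Ioc_eq_integral_Ioo,
    ← intervalIntegral.integral_of_le zero_le_one]
  have hne : (c : ℂ) * (Real.pi * Complex.I) ≠ 0 := by
    refine mul_ne_zero (by exact_mod_cast hc0) (mul_ne_zero ?_ Complex.I_ne_zero)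
    exact_mod_cast Real.pi_ne_zero
  rw [integral_exp_mul_complex hne]
  have h1 : (c : ℂ) * (Real.pi * Complex.I) * ((1 : ℝ) : ℂ) = (m : ℂ) * (2 * Real.pi * Complex.I) := by
    rw [hm]; push_cast; ring
  rw [h1, Complex.exp_int_mul_two_pi_mul_I]
  simp

theorem exists_sign (b : Fin D → ι → ℤ) (hpar : ∀ i, Even (∑ x, b i x))
    (hpos : 0 < ∫ θ in Qc D, FF b θ) :
    ∃ e : ι → ℤ, (∀ x, e x = 1 ∨ e x = -1) ∧ ∀ i, ∑ x, e x * b i x = 0 := by
  classical
  by_contra hno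
  push Not at hno
  have hev : ∀ (e : ι → Bool) (i : Fin D), Even (∑ x, sb (e x) * b i x) := by
    intro e i
    have h1 : ∑ x, sb (e x) * b i x = ∑ x, b i x + ∑ x, (sb (e x) - 1) * b i x := by
      rw [← Finset.sum_add_distrib]
      exact Finset.sum_congr rfl fun x _ => by ring
    rw [h1]
    refine (hpar i).add (Finset.even_sum _ fun x _ => ?_)
    refine Even.mul_right ?_ _
    rcases sb_cases (e x) with h | h <;> rw [h] <;> decide
  have h0 : ∫ θ in Qc D, (((2 : ℝ) ^ Fintype.card ι * FF b θ : ℝ) : ℂ) = 0 := by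
    simp_rw [exp_sum_aux b]
    have hQ : (volume : Measure (Fin D → ℝ)).restrict (Qc D)
        = Measure.pi fun _ : Fin D => (volume : Measure ℝ).restrict (Set.Ico (0 : ℝ) 1) := by
      unfold Qc
      rw [volume_pi, Measure.restrict_pi_pi]
    rw [hQ, integral_finsetSum]
    · refine Finset.sum_eq_zero fun e _ => ?_
      rw [integral_fintype_prod_eq_prod (𝕜 := ℂ) (fun (i : Fin D) (t : ℝ) =>
        Complex.exp (((∑ x, sb (e x) * b i x : ℤ) : ℂ) * (Real.pi * Complex.I) * (t : ℂ)))]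
      obtain ⟨i, hi⟩ := hno (fun x => sb (e x)) (fun x => sb_cases (e x))
      exact Finset.prod_eq_zero (Finset.mem_univ i) (integral_exp_even (hev e i) hi)
    · intro e _
      refine Integrable.fintype_prod (𝕜 := ℂ)
        (μ := fun _ : Fin D => (volume : Measure ℝ).restrict (Set.Ico (0 : ℝ) 1))
        (f := fun (i : Fin D) (t : ℝ) =>
          Complex.exp (((∑ x, sb (e x) * b i x : ℤ) : ℂ) * (Real.pi * Complex.I) * (t : ℂ)))
        fun i => ?_
      have hc : Continuous fun t : ℝ =>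
        Complex.exp (((∑ x, sb (e x) * b i x : ℤ) : ℂ) * (Real.pi * Complex.I) * (t : ℂ)) := by
        fun_prop
      exact (hc.integrableOn_Icc (a := 0) (b := 1)).mono_set Set.Ico_subset_Icc_self
  rw [integral_complex_ofReal, integral_const_mul] at h0
  have h1 : (2 : ℝ) ^ Fintype.card ι * ∫ θ in Qc D, FF b θ = 0 := by exact_mod_cast h0
  have h2 : 0 < (2 : ℝ) ^ Fintype.card ι * ∫ θ in Qc D, FF b θ := by positivity
  linarith

/-- the analytic half of the stage lemma -/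
theorem stage_abs (b : Fin D → ι → ℤ)
    (hinj : ∀ θ : Fin D → ℝ, (∀ x, Hf b θ x = 0) → θ = 0)
    (hpar : ∀ i, Even (∑ x, b i x))
    (R : Finset (ι → ℤ)) (eK : (ι → ℤ) → ℝ)
    (hR : ∀ K : ι → ℤ, (∃ θ : Fin D → ℝ, ∀ x, |Hf b θ x - K x| ≤ 1 / 2) →
      (∃ k : Fin D → ℤ, ∀ x, K x = ∑ i, k i * b i x) ∨
      (∃ k : Fin D → ℤ, (fun x => K x - ∑ i, k i * b i x) ∈ R))
    (heK : ∀ K ∈ R, ∀ θ : Fin D → ℝ, (∀ x, |Hf b θ x - K x| ≤ 1 / 2) →
      eK K ≤ ∑ x, (Hf b θ x - K x) ^ 2)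
    (hsum : ∑ K ∈ R, Real.exp (-(Real.pi ^ 2 / 2) * eK K) < 1) :
    ∃ e : ι → ℤ, (∀ x, e x = 1 ∨ e x = -1) ∧ ∀ i, ∑ x, e x * b i x = 0 :=
  exists_sign b hpar (integral_FF_pos b hpar hinj R eK hR heK hsum)

end Crest.Agent.R63.HU
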