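import Crest.Agent.R63.HCa
import Crest.Agent.R63.HU

/-! ROW 63, module H, counting half: wA θ = the restriction; `nontriv`: round_W with w' = 0 gives integer v in W with |w - v| <= d < 1/2, so v = K on A
(|v - K| <= |v - w| + |w - K| < 1), hint gives the coefficients k.
`fiber`: fix K0 in F.  For K in F, round_W gives v_K with |w_K0 - w_K - v_K| <= d; K' = K + v_K satisfies |K' - K0| <= 1 + d < 2 and
K'(x) != K0(x) only if |w_K0(x) - K0(x)| >= 1/2 - d, and then K'(x) = K0(x) + sign(w_K0(x) - K0(x)); so K -> {x : K'(x) != K0(x)} is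
injective on F (same set => K1' = K2' => K1 - K2 = integer combination of the b i => K1 = K2) with values in the subsets of
B = {x : 1/2 - d <= |w_K0 x - K0 x|}, #B (1/2-d)^2 <= e. -/

set_option autoImplicit false
open Finset

namespace Crest.Agent.R63

variable {m r f D : ℕ}

/-- `K` is an integer combination of the `b i` on `A` -/
def InL (A : Finset (X m r)) (b : Fin D → X m r → ℤ) (K : {x // x ∈ A} → ℤ) : Prop :=
  ∃ k : Fin D → ℤ, ∀ x : {x // x ∈ A}, K x = ∑ i, k i * b i x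

/-- the real combination -/
def wv (b : Fin D → X m r → ℤ) (θ : Fin D → ℝ) (x : X m r) : ℝ := ∑ i, θ i * (b i x : ℝ)

lemma isW_wv (b : Fin D → X m r → ℤ) (hb : ∀ i, IsW f (fun x => (b i x : ℝ))) (θ : Fin D → ℝ) :
    IsW f (wv b θ) := by
  intro I hI x
  unfold wv
  rw [Finset.sum_comm]
  refine Finset.sum_eq_zero fun i _ => ?_
  rw [← Finset.mul_sum, hb i I hI x, mul_zero]


theorem nontriv (d : ℝ) (hd0 : 0 < d) (hd : 2 ^ (r * f) * d < 1) (hd2 : d ≤ 1 / 200)
    (A : Finset (X m r)) (b : Fin D → X m r → ℤ) (hb : ∀ i, IsW f (fun x => (b i x : ℝ)))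
    (hint : ∀ v : X m r → ℤ, IsW f (fun x => (v x : ℝ)) → ∃ k : Fin D → ℤ, ∀ x, v x = ∑ i, k i * b i x)
    (K : {x // x ∈ A} → ℤ) (θ : Fin D → ℝ) (hθ : ∀ x : {x // x ∈ A}, |wv b θ x - K x| ≤ 1 / 2)
    (hK : ¬ InL A b K) : ∃ x, d ≤ nrm (wv b θ x) := by
  by_contra hcon
  push Not at hcon
  have h0 : IsW f (0 : X m r → ℝ) := fun I _ x => by simp
  obtain ⟨v, hvW, hv⟩ := round_W d hd (wv b θ) 0 (isW_wv b hb θ) h0 fun x => by
    simpa using (hcon x).le
  obtain ⟨k, hk⟩ := hint v hvW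
  refine hK ⟨k, fun x => ?_⟩
  rw [← hk]
  have h1 := hv x
  have h2 := hθ x
  simp only [Pi.zero_apply, sub_zero] at h1
  rw [abs_le] at h1 h2
  have h3 : ((K x - v x : ℤ) : ℝ) < 1 := by
    push_cast
    linarith [h1.1, h1.2, h2.1, h2.2]
  have h4 : (-1 : ℝ) < ((K x - v x : ℤ) : ℝ) := by
    push_cast
    linarith [h1.1, h1.2, h2.1, h2.2]
  have h5 : K x - v x < 1 := by exact_mod_cast h3
  have h6 : -1 < K x - v x := by exact_mod_cast h4
  omega


theorem fiber (d : ℝ) (hd0 : 0 < d) (hd : 2 ^ (r * f) * d < 1) (hd2 : d ≤ 1 / 200)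
    (A : Finset (X m r)) (b : Fin D → X m r → ℤ) (hb : ∀ i, IsW f (fun x => (b i x : ℝ)))
    (hint : ∀ v : X m r → ℤ, IsW f (fun x => (v x : ℝ)) → ∃ k : Fin D → ℤ, ∀ x, v x = ∑ i, k i * b i x)
    (F : Finset ({x // x ∈ A} → ℤ)) (θ : ({x // x ∈ A} → ℤ) → Fin D → ℝ)
    (hθ : ∀ K ∈ F, ∀ x : {x // x ∈ A}, |wv b (θ K) x - K x| ≤ 1 / 2)
    (hineq : ∀ K ∈ F, ∀ K' ∈ F, InL A b (fun x => K x - K' x) → K = K')
    (hclose : ∀ K ∈ F, ∀ K' ∈ F, ∀ x, nrm (wv b (θ K) x - wv b (θ K') x) ≤ d)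
    (e : ℝ) (he : ∀ K ∈ F, ∑ x : {x // x ∈ A}, (wv b (θ K) x - K x) ^ 2 ≤ e) :
    (F.card : ℝ) ≤ Real.exp (283 / 100 * e) := by
  classical
  rcases F.eq_empty_or_nonempty with rfl | ⟨K0, hK0⟩
  · rw [Finset.card_empty, Nat.cast_zero]
    exact (Real.exp_pos _).le
  have hv : ∀ K ∈ F, ∃ v : X m r → ℤ, IsW f (fun x => (v x : ℝ)) ∧
      ∀ x, |wv b (θ K0) x - wv b (θ K) x - v x| ≤ d := fun K hK =>
    round_W d hd _ _ (isW_wv b hb _) (isW_wv b hb _) (hclose K0 hK0 K hK)
  choose! v hvW hvd using hv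
  let P : ({x // x ∈ A} → ℤ) → ({x // x ∈ A} → ℤ) := fun K x => K x + v K x
  let B : Finset {x // x ∈ A} := univ.filter fun x => 1 / 2 - d ≤ |wv b (θ K0) x - K0 x|
  have hkey : ∀ K ∈ F, ∀ x, P K x = K0 x ∨
      (x ∈ B ∧ P K x = K0 x + (if 0 < wv b (θ K0) x - K0 x then 1 else -1)) := by
    intro K hK x
    have h1 := hvd K hK x
    have h2 := hθ K hK x
    have h3 := hθ K0 hK0 x
    have hP : P K x = K x + v K x := rfl
    rw [abs_le] at h1 h2 h3
    obtain ⟨n, hn⟩ : ∃ n : ℤ, n = P K x - K0 x := ⟨_, rfl⟩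
    have hnR : (n : ℝ) = K x + v K x - K0 x := by
      rw [hn, hP]
      push_cast
      ring
    have h4 : (n : ℝ) < 2 := by rw [hnR]; linarith [h1.1, h1.2, h2.1, h2.2, h3.1, h3.2]
    have h5 : (-2 : ℝ) < n := by rw [hnR]; linarith [h1.1, h1.2, h2.1, h2.2, h3.1, h3.2]
    have h6 : n < 2 := by exact_mod_cast h4
    have h7 : -2 < n := by exact_mod_cast h5
    have h8 : n = 0 ∨ n = 1 ∨ n = -1 := by omega
    rcases h8 with h8 | h8 | h8
    · left
      omega
    · right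
      rw [h8] at hnR
      push_cast at hnR
      have h9 : 1 / 2 - d ≤ wv b (θ K0) x - K0 x := by
        linarith [h1.1, h1.2, h2.1, h2.2, h3.1, h3.2]
      have h10 : 0 < wv b (θ K0) x - K0 x := by linarith
      refine ⟨Finset.mem_filter.2 ⟨Finset.mem_univ _, h9.trans (le_abs_self _)⟩, ?_⟩
      rw [if_pos h10]
      omega
    · right
      rw [h8] at hnR
      push_cast at hnR
      have h9 : wv b (θ K0) x - K0 x ≤ -(1 / 2 - d) := by
        linarith [h1.1, h1.2, h2.1, h2.2, h3.1, h3.2]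
      have h10 : ¬ 0 < wv b (θ K0) x - K0 x := by linarith
      refine ⟨Finset.mem_filter.2 ⟨Finset.mem_univ _, ?_⟩, ?_⟩
      · have := neg_le_abs (wv b (θ K0) x - K0 x)
        linarith
      rw [if_neg h10]
      omega
  have hcard : F.card ≤ 2 ^ B.card := by
    rw [← Finset.card_powerset]
    refine Finset.card_le_card_of_injOn (fun K => univ.filter fun x => P K x ≠ K0 x) ?_ ?_
    · intro K hK
      rw [Finset.mem_coe, Finset.mem_powerset]
      intro x hx
      rcases hkey K hK x with h | h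
      · exact absurd h (Finset.mem_filter.1 hx).2
      · exact h.1
    · intro K1 hK1 K2 hK2 h12
      have hPP : ∀ x, P K1 x = P K2 x := by
        intro x
        have h3 : P K1 x ≠ K0 x ↔ P K2 x ≠ K0 x := by
          have h4 : x ∈ (univ.filter fun x => P K1 x ≠ K0 x) ↔
              x ∈ (univ.filter fun x => P K2 x ≠ K0 x) := by
            simp only at h12
            rw [h12]
          simpa using h4
        rcases hkey K1 hK1 x with h | h <;> rcases hkey K2 hK2 x with h' | h'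
        · rw [h, h']
        · by_cases h5 : P K2 x = K0 x
          · rw [h, h5]
          · exact absurd h (h3.2 h5)
        · by_cases h5 : P K1 x = K0 x
          · rw [h', h5]
          · exact absurd h' (h3.1 h5)
        · rw [h.2, h'.2]
      obtain ⟨k1, hk1⟩ := hint (v K1) (hvW K1 hK1)
      obtain ⟨k2, hk2⟩ := hint (v K2) (hvW K2 hK2)
      refine hineq K1 hK1 K2 hK2 ⟨fun i => k2 i - k1 i, fun x => ?_⟩
      have h6 : K1 x + v K1 x = K2 x + v K2 x := hPP x
      simp only [sub_mul, Finset.sum_sub_distrib]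
      rw [← hk1, ← hk2]
      omega
  have hBe : (B.card : ℝ) * (99 / 200) ^ 2 ≤ e := by
    refine le_trans ?_ (he K0 hK0)
    calc (B.card : ℝ) * (99 / 200) ^ 2 = ∑ x ∈ B, ((99 : ℝ) / 200) ^ 2 := by
          rw [Finset.sum_const, nsmul_eq_mul]
      _ ≤ ∑ x ∈ B, (wv b (θ K0) x - K0 x) ^ 2 := by
          refine Finset.sum_le_sum fun x hx => ?_
          have h1 : 1 / 2 - d ≤ |wv b (θ K0) x - K0 x| := (Finset.mem_filter.1 hx).2
          rw [← sq_abs (wv b (θ K0) x - K0 x)]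
          exact pow_le_pow_left₀ (by norm_num) (by linarith) 2
      _ ≤ _ := Finset.sum_le_sum_of_subset_of_nonneg (Finset.subset_univ _)
          fun x _ _ => sq_nonneg _
  have h1 : (F.card : ℝ) ≤ 2 ^ B.card := by exact_mod_cast hcard
  refine h1.trans ?_
  have h2 : (2 : ℝ) ^ B.card = Real.exp (B.card * Real.log 2) := by
    rw [mul_comm, Real.exp_mul, Real.exp_log (by norm_num), Real.rpow_natCast]
  rw [h2]
  refine Real.exp_le_exp.2 ?_
  have h3 := Real.log_two_lt_d9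
  have h4 : (0 : ℝ) ≤ B.card := Nat.cast_nonneg _
  have h5 := mul_le_mul_of_nonneg_left h3.le h4
  norm_num at hBe h5 ⊢
  linarith


end Crest.Agent.R63
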