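import Crest.Agent.R63.HCb

/-! ROW 63, module H, counting half: count.  PROOF: if R is empty trivial.  For K in R: w_K = wv b (θ K) has some nrm >= δ0 (nontriv), so by sup2
(contrapositive) δ0^2 2^(rm) <= 8 D En w_K, i.e. δ0^2 <= 8 Th En, and η En w_K <= sum_A nrm^2 <= sum_A (w_K - K)^2 <= e.
Hence (numbers) : 2^19 n^3 <= e, with E = e/η >= 1: exponent of code2 (E, δ0): 4 n^3 <= e/20 and
8192 n Th (E/δ0^2)(n + log(3/δ0)) <= 8192*9 n^2 Th e/(η δ0^2) <= e * (8192*9/2^22) <= e/10 (log(600*2^(rf)) <= 7+rf <= 8n).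
card R <= #codes * max fiber <= exp(3/20 e) exp(2.83 e) <= exp(3 e). -/

set_option autoImplicit false
open Finset

namespace Crest.Agent.R63

variable {m r f D : ℕ}

theorem hcc_core (hf : f ≤ m) (hn : 1 ≤ r * m) (δ0 η : ℝ)
    (hδ0 : δ0 = 1 / (200 * 2 ^ (r * f))) (hη : 0 < η) (hη1 : η ≤ 1)
    (hnum : Th m r f * 2 ^ 22 * ((r * m : ℕ) : ℝ) ^ 3 ≤ η * δ0 ^ 2)
    (A : Finset (X m r))
    (hG : ∀ w : X m r → ℝ, IsW f w → (∃ x, δ0 ≤ nrm (w x)) → η * En w ≤ ∑ x ∈ A, nrm (w x) ^ 2)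
    (b : Fin D → X m r → ℤ) (hb : ∀ i, IsW f (fun x => (b i x : ℝ)))
    (hint : ∀ v : X m r → ℤ, IsW f (fun x => (v x : ℝ)) → ∃ k : Fin D → ℤ, ∀ x, v x = ∑ i, k i * b i x)
    (K : {x // x ∈ A} → ℤ) (θ : Fin D → ℝ)
    (hθ : ∀ x : {x // x ∈ A}, |wv b θ x - K x| ≤ 1 / 2) (hnon : ¬ InL A b K) :
    η * En (wv b θ) ≤ ∑ x : {x // x ∈ A}, (wv b θ x - K x) ^ 2 ∧
      2 ^ 19 * ((r * m : ℕ) : ℝ) ^ 3 ≤ ∑ x : {x // x ∈ A}, (wv b θ x - K x) ^ 2 := by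
  have h2 : (1 : ℝ) ≤ 2 ^ (r * f) := one_le_pow₀ (by norm_num)
  have hδpos : 0 < δ0 := by rw [hδ0]; positivity
  have hd : 2 ^ (r * f) * δ0 < 1 := by
    rw [hδ0]
    have : (2 : ℝ) ^ (r * f) * (1 / (200 * 2 ^ (r * f))) = 1 / 200 := by field_simp
    rw [this]; norm_num
  have hd2 : δ0 ≤ 1 / 200 := by
    rw [hδ0]
    apply one_div_le_one_div_of_le (by norm_num)
    linarith
  have hW : IsW f (wv b θ) := isW_wv b hb θ
  obtain ⟨x, hx⟩ := nontriv δ0 hδpos hd hd2 A b hb hint K θ hθ hnon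
  have hE : η * En (wv b θ) ≤ ∑ x : {x // x ∈ A}, (wv b θ x - K x) ^ 2 := by
    refine (hG _ hW ⟨x, hx⟩).trans ?_
    rw [← Finset.sum_coe_sort A (fun x => nrm (wv b θ x) ^ 2)]
    refine Finset.sum_le_sum fun x _ => ?_
    have h3 : nrm (wv b θ x) ≤ |wv b θ x - K x| := round_le _ _
    have h4 : 0 ≤ nrm (wv b θ x) := abs_nonneg _
    calc nrm (wv b θ x) ^ 2 ≤ |wv b θ x - K x| ^ 2 := pow_le_pow_left₀ h4 h3 2
      _ = _ := sq_abs _
  refine ⟨hE, ?_⟩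
  have hs : δ0 ^ 2 * 2 ^ (r * m) ≤ 8 * (Dn m r f : ℝ) * En (wv b θ) := by
    by_contra hc
    push Not at hc
    exact absurd (sup2 hf _ hW δ0 hδpos hc x) (not_lt.2 hx)
  have hN : (0 : ℝ) < 2 ^ (r * m) := by positivity
  have hs2 : δ0 ^ 2 ≤ 8 * Th m r f * En (wv b θ) := by
    have e1 : 8 * Th m r f * En (wv b θ) = 8 * (Dn m r f : ℝ) * En (wv b θ) / 2 ^ (r * m) := by
      unfold Th; ring
    rw [e1, le_div_iff₀ hN]
    exact hs
  set S := ∑ x : {x // x ∈ A}, (wv b θ x - K x) ^ 2 with hS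
  have hTh0 : 0 ≤ Th m r f := by unfold Th; positivity
  have h5 : η * δ0 ^ 2 ≤ 8 * Th m r f * S := by
    calc η * δ0 ^ 2 ≤ η * (8 * Th m r f * En (wv b θ)) := mul_le_mul_of_nonneg_left hs2 hη.le
      _ = 8 * Th m r f * (η * En (wv b θ)) := by ring
      _ ≤ 8 * Th m r f * S := mul_le_mul_of_nonneg_left hE (by positivity)
  have hTh : 0 < Th m r f := by
    rcases eq_or_lt_of_le hTh0 with h | h
    · exfalso
      rw [← h] at h5
      have : 0 < η * δ0 ^ 2 := by positivity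
      linarith
    · exact h
  have h6 : Th m r f * (2 ^ 22 * ((r * m : ℕ) : ℝ) ^ 3) ≤ Th m r f * (8 * S) := by
    calc Th m r f * (2 ^ 22 * ((r * m : ℕ) : ℝ) ^ 3) = Th m r f * 2 ^ 22 * ((r * m : ℕ) : ℝ) ^ 3 := by ring
      _ ≤ η * δ0 ^ 2 := hnum
      _ ≤ 8 * Th m r f * S := h5
      _ = Th m r f * (8 * S) := by ring
  have h7 := le_of_mul_le_mul_left h6 hTh
  linarith

theorem count (hf : f ≤ m) (hn : 1 ≤ r * m) (δ0 η : ℝ)
    (hδ0 : δ0 = 1 / (200 * 2 ^ (r * f))) (hη : 0 < η) (hη1 : η ≤ 1)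
    (hnum : Th m r f * 2 ^ 22 * ((r * m : ℕ) : ℝ) ^ 3 ≤ η * δ0 ^ 2)
    (A : Finset (X m r))
    (hG : ∀ w : X m r → ℝ, IsW f w → (∃ x, δ0 ≤ nrm (w x)) → η * En w ≤ ∑ x ∈ A, nrm (w x) ^ 2)
    (b : Fin D → X m r → ℤ) (hb : ∀ i, IsW f (fun x => (b i x : ℝ)))
    (hint : ∀ v : X m r → ℤ, IsW f (fun x => (v x : ℝ)) → ∃ k : Fin D → ℤ, ∀ x, v x = ∑ i, k i * b i x)
    (R : Finset ({x // x ∈ A} → ℤ)) (θ : ({x // x ∈ A} → ℤ) → Fin D → ℝ)
    (hθ : ∀ K ∈ R, ∀ x : {x // x ∈ A}, |wv b (θ K) x - K x| ≤ 1 / 2)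
    (hnon : ∀ K ∈ R, ¬ InL A b K)
    (hineq : ∀ K ∈ R, ∀ K' ∈ R, InL A b (fun x => K x - K' x) → K = K')
    (e : ℝ) (he : ∀ K ∈ R, ∑ x : {x // x ∈ A}, (wv b (θ K) x - K x) ^ 2 ≤ e) :
    (R.card : ℝ) ≤ Real.exp (3 * e) := by
  classical
  rcases R.eq_empty_or_nonempty with h0 | ⟨K0, hK0⟩
  · rw [h0]
    simp only [Finset.card_empty, Nat.cast_zero]
    exact (Real.exp_pos _).le
  have hcore := fun K (hK : K ∈ R) =>
    hcc_core hf hn δ0 η hδ0 hη hη1 hnum A hG b hb hint K (θ K) (hθ K hK) (hnon K hK)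
  have h2 : (1 : ℝ) ≤ 2 ^ (r * f) := one_le_pow₀ (by norm_num)
  have hδpos : 0 < δ0 := by rw [hδ0]; positivity
  have hd : 2 ^ (r * f) * δ0 < 1 := by
    rw [hδ0]
    have : (2 : ℝ) ^ (r * f) * (1 / (200 * 2 ^ (r * f))) = 1 / 200 := by field_simp
    rw [this]; norm_num
  have hd2 : δ0 ≤ 1 / 200 := by
    rw [hδ0]
    apply one_div_le_one_div_of_le (by norm_num)
    linarith
  set n : ℝ := ((r * m : ℕ) : ℝ) with hndef
  have hn1 : (1 : ℝ) ≤ n := by rw [hndef]; exact_mod_cast hn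
  have hen : 2 ^ 19 * n ^ 3 ≤ e := (hcore K0 hK0).2.trans (he K0 hK0)
  have hn3 : (1 : ℝ) ≤ n ^ 3 := one_le_pow₀ hn1
  have he1 : (1 : ℝ) ≤ e := by linarith
  have hE1 : 1 ≤ e / η := by
    rw [le_div_iff₀ hη]
    linarith
  obtain ⟨Kc, code, hKc, hcode⟩ := code2 (m := m) (r := r) (f := f) hf hn (e / η) δ0 hE1 hδpos (by linarith)
  have hEn : ∀ K ∈ R, En (wv b (θ K)) ≤ e / η := by
    intro K hK
    rw [le_div_iff₀ hη]
    have := (hcore K hK).1.trans (he K hK)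
    linarith
  have hfib : ∀ c : Fin Kc, (((R.filter fun K => code (wv b (θ K)) = c).card : ℕ) : ℝ) ≤
      Real.exp (283 / 100 * e) := by
    intro c
    refine fiber δ0 hδpos hd hd2 A b hb hint (R.filter fun K => code (wv b (θ K)) = c) θ
      (fun K hK => hθ K (Finset.mem_filter.1 hK).1)
      (fun K hK K' hK' => hineq K (Finset.mem_filter.1 hK).1 K' (Finset.mem_filter.1 hK').1)
      (fun K hK K' hK' => ?_) e (fun K hK => he K (Finset.mem_filter.1 hK).1)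
    have h3 := Finset.mem_filter.1 hK
    have h4 := Finset.mem_filter.1 hK'
    exact hcode _ _ (isW_wv b hb _) (isW_wv b hb _) (hEn K h3.1) (hEn K' h4.1) (h3.2.trans h4.2.symm)
  have hcard : R.card = ∑ c : Fin Kc, (R.filter fun K => code (wv b (θ K)) = c).card :=
    Finset.card_eq_sum_card_fiberwise (fun K _ => Finset.mem_coe.2 (Finset.mem_univ _))
  have h5 : (R.card : ℝ) ≤ Kc * Real.exp (283 / 100 * e) := by
    rw [hcard]
    push_cast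
    calc ∑ c : Fin Kc, ((R.filter fun K => code (wv b (θ K)) = c).card : ℝ)
        ≤ ∑ c : Fin Kc, Real.exp (283 / 100 * e) := Finset.sum_le_sum fun c _ => hfib c
      _ = _ := by rw [Finset.sum_const, Finset.card_univ, Fintype.card_fin, nsmul_eq_mul]
  -- the exponent
  have hTh0 : 0 ≤ Th m r f := by unfold Th; positivity
  have hlog : Real.log (3 / δ0) ≤ 8 * n := by
    have e1 : 3 / δ0 = 600 * 2 ^ (r * f) := by
      rw [hδ0]; field_simp; norm_num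
    have h7 : (600 : ℝ) ≤ Real.exp 7 := by
      have h8 := Real.exp_one_gt_d9
      have h9 : Real.exp 7 = Real.exp 1 ^ 7 := by
        rw [← Real.exp_nat_mul]; norm_num
      rw [h9]
      calc (600 : ℝ) ≤ 2.7 ^ 7 := by norm_num
        _ ≤ Real.exp 1 ^ 7 := pow_le_pow_left₀ (by norm_num) (by linarith) 7
    have h8 : (2 : ℝ) ^ (r * f) ≤ Real.exp n := by
      have h9 : (2 : ℝ) ^ (r * f) ≤ Real.exp 1 ^ (r * m) := by
        calc (2 : ℝ) ^ (r * f) ≤ 2 ^ (r * m) := pow_le_pow_right₀ (by norm_num) (Nat.mul_le_mul_left r hf)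
          _ ≤ Real.exp 1 ^ (r * m) := pow_le_pow_left₀ (by norm_num) (by linarith [Real.exp_one_gt_d9]) _
      rw [hndef]
      rw [← Real.exp_nat_mul, mul_one] at h9
      exact h9
    have h10 : 3 / δ0 ≤ Real.exp (7 + n) := by
      rw [e1, Real.exp_add]
      exact mul_le_mul h7 h8 (by positivity) (Real.exp_pos _).le
    calc Real.log (3 / δ0) ≤ Real.log (Real.exp (7 + n)) := Real.log_le_log (by positivity) h10
      _ = 7 + n := Real.log_exp _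
      _ ≤ 8 * n := by linarith
  have hT : Th m r f * (e / η / δ0 ^ 2) * n ^ 3 * 2 ^ 22 ≤ e := by
    have h6 : Th m r f * (e / η / δ0 ^ 2) * n ^ 3 * 2 ^ 22 =
        (Th m r f * 2 ^ 22 * n ^ 3) * (e / (η * δ0 ^ 2)) := by
      field_simp
    rw [h6]
    calc (Th m r f * 2 ^ 22 * n ^ 3) * (e / (η * δ0 ^ 2)) ≤ (η * δ0 ^ 2) * (e / (η * δ0 ^ 2)) :=
          mul_le_mul_of_nonneg_right hnum (by positivity)
      _ = e := by field_simp
  have hT2 : 8192 * n * Th m r f * (e / η / δ0 ^ 2) * (n + Real.log (3 / δ0)) ≤ 9 / 512 * e := by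
    have hA : 0 ≤ Th m r f * (e / η / δ0 ^ 2) := by positivity
    have hn2 : n * n ≤ n ^ 3 := by nlinarith
    calc 8192 * n * Th m r f * (e / η / δ0 ^ 2) * (n + Real.log (3 / δ0))
        ≤ 8192 * n * Th m r f * (e / η / δ0 ^ 2) * (9 * n) := by
          refine mul_le_mul_of_nonneg_left (by linarith) ?_
          have : 0 ≤ n := by linarith
          positivity
      _ = 8192 * 9 * (Th m r f * (e / η / δ0 ^ 2)) * (n * n) := by ring
      _ ≤ 8192 * 9 * (Th m r f * (e / η / δ0 ^ 2)) * n ^ 3 :=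
          mul_le_mul_of_nonneg_left hn2 (by positivity)
      _ = 9 / 512 * (Th m r f * (e / η / δ0 ^ 2) * n ^ 3 * 2 ^ 22) := by ring
      _ ≤ 9 / 512 * e := mul_le_mul_of_nonneg_left hT (by norm_num)
  have hexp : (Kc : ℝ) ≤ Real.exp (17 / 100 * e) := by
    refine hKc.trans (Real.exp_le_exp.2 ?_)
    have h12 : 4 * n ^ 3 ≤ 1 / 100 * e := by linarith
    rw [← hndef]
    linarith
  calc (R.card : ℝ) ≤ Kc * Real.exp (283 / 100 * e) := h5
    _ ≤ Real.exp (17 / 100 * e) * Real.exp (283 / 100 * e) :=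
        mul_le_mul_of_nonneg_right hexp (Real.exp_pos _).le
    _ = Real.exp (3 * e) := by rw [← Real.exp_add]; congr 1; ring

/-- lower bound for the energy -/
theorem low (hf : f ≤ m) (hn : 1 ≤ r * m) (δ0 η : ℝ)
    (hδ0 : δ0 = 1 / (200 * 2 ^ (r * f))) (hη : 0 < η) (hη1 : η ≤ 1)
    (hnum : Th m r f * 2 ^ 22 * ((r * m : ℕ) : ℝ) ^ 3 ≤ η * δ0 ^ 2)
    (A : Finset (X m r))
    (hG : ∀ w : X m r → ℝ, IsW f w → (∃ x, δ0 ≤ nrm (w x)) → η * En w ≤ ∑ x ∈ A, nrm (w x) ^ 2)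
    (b : Fin D → X m r → ℤ) (hb : ∀ i, IsW f (fun x => (b i x : ℝ)))
    (hint : ∀ v : X m r → ℤ, IsW f (fun x => (v x : ℝ)) → ∃ k : Fin D → ℤ, ∀ x, v x = ∑ i, k i * b i x)
    (K : {x // x ∈ A} → ℤ) (θ : Fin D → ℝ)
    (hθ : ∀ x : {x // x ∈ A}, |wv b θ x - K x| ≤ 1 / 2) (hnon : ¬ InL A b K) :
    10 ≤ ∑ x : {x // x ∈ A}, (wv b θ x - K x) ^ 2 := by
  have h := (hcc_core hf hn δ0 η hδ0 hη hη1 hnum A hG b hb hint K θ hθ hnon).2
  have hn1 : (1 : ℝ) ≤ ((r * m : ℕ) : ℝ) := by exact_mod_cast hn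
  have hn3 : (1 : ℝ) ≤ ((r * m : ℕ) : ℝ) ^ 3 := one_le_pow₀ hn1
  linarith

end Crest.Agent.R63
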