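import Crest.Agent.R82.PL

/-! ROW 63, module H, analytic half, part 1 (helper84): the cell inequality by Prekopa-Leindler. -/

set_option autoImplicit false
open Finset MeasureTheory
open scoped ENNReal

namespace Crest.Agent.R63.HU

lemma cos_mul_exp_le {v : ℝ} (h0 : 0 ≤ v) (h1 : v ≤ Real.pi / 2) :
    Real.cos v * Real.exp (v ^ 2 / 2) ≤ 1 := by
  have hanti : AntitoneOn (fun v : ℝ => Real.cos v * Real.exp (v ^ 2 / 2))
      (Set.Icc 0 (Real.pi / 2)) := by
    apply antitoneOn_of_deriv_nonpos (convex_Icc _ _)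
    · fun_prop
    · fun_prop
    · intro x hx
      rw [interior_Icc] at hx
      have hd : HasDerivAt (fun v : ℝ => Real.cos v * Real.exp (v ^ 2 / 2))
          (-Real.sin x * Real.exp (x ^ 2 / 2)
            + Real.cos x * (Real.exp (x ^ 2 / 2) * (((2 : ℕ) : ℝ) * x ^ (2 - 1) / 2))) x :=
        (Real.hasDerivAt_cos x).mul (((hasDerivAt_pow 2 x).div_const 2).exp)
      rw [hd.deriv]
      have h3 : x * Real.cos x ≤ Real.sin x := by
        have := Real.le_tan hx.1.le hx.2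
        rwa [Real.tan_eq_sin_div_cos,
          le_div_iff₀ (Real.cos_pos_of_mem_Ioo ⟨by linarith [hx.1], hx.2⟩)] at this
      have h4 := Real.exp_pos (x ^ 2 / 2)
      have h5 : -Real.sin x * Real.exp (x ^ 2 / 2)
            + Real.cos x * (Real.exp (x ^ 2 / 2) * (((2 : ℕ) : ℝ) * x ^ (2 - 1) / 2))
          = Real.exp (x ^ 2 / 2) * (x * Real.cos x - Real.sin x) := by
        push_cast
        ring
      rw [h5]
      exact mul_nonpos_of_nonneg_of_nonpos h4.le (by linarith)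
  have hpi := Real.pi_pos
  have h := hanti (a := 0) (b := v) ⟨le_rfl, by positivity⟩ ⟨h0, h1⟩ h0
  simpa using h

/-- `cos (π t)` on `(-1/2, 1/2)`, extended by `0` -/
noncomputable def c1 (t : ℝ) : ℝ := if |t| < 1 / 2 then Real.cos (Real.pi * t) else 0

/-- `cos (π t) e^{π² t² / 2}` on `(-1/2, 1/2)`, extended by `0`; even and log-concave -/
noncomputable def g1 (t : ℝ) : ℝ :=
  if |t| < 1 / 2 then Real.cos (Real.pi * t) * Real.exp (Real.pi ^ 2 * t ^ 2 / 2) else 0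

lemma cos_pos_of {t : ℝ} (h : |t| < 1 / 2) : 0 < Real.cos (Real.pi * t) := by
  rw [abs_lt] at h
  have := Real.pi_pos
  refine Real.cos_pos_of_mem_Ioo ⟨?_, ?_⟩ <;> nlinarith

lemma c1_nonneg (t : ℝ) : 0 ≤ c1 t := by
  unfold c1
  split_ifs with h
  · exact (cos_pos_of h).le
  · exact le_rfl

lemma g1_nonneg (t : ℝ) : 0 ≤ g1 t := by
  unfold g1
  split_ifs with h
  · exact mul_nonneg (cos_pos_of h).le (Real.exp_pos _).le
  · exact le_rfl

lemma g1_neg (t : ℝ) : g1 (-t) = g1 t := by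
  unfold g1
  rw [abs_neg, mul_neg, Real.cos_neg, neg_sq]

lemma c1_eq (t : ℝ) : c1 t = Real.exp (-(Real.pi ^ 2 / 2) * t ^ 2) * g1 t := by
  unfold c1 g1
  split_ifs with h
  · have : Real.exp (-(Real.pi ^ 2 / 2) * t ^ 2) * Real.exp (Real.pi ^ 2 * t ^ 2 / 2) = 1 := by
      rw [← Real.exp_add]
      have : -(Real.pi ^ 2 / 2) * t ^ 2 + Real.pi ^ 2 * t ^ 2 / 2 = 0 := by ring
      rw [this, Real.exp_zero]
    linear_combination (-Real.cos (Real.pi * t)) * this
  · simp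

lemma g1_mid (s t : ℝ) : g1 s * g1 t ≤ g1 ((s + t) / 2) ^ 2 := by
  by_cases hs : |s| < 1 / 2
  · by_cases ht : |t| < 1 / 2
    · have hst : |(s + t) / 2| < 1 / 2 := by
        rw [abs_lt] at hs ht ⊢
        constructor <;> linarith [hs.1, hs.2, ht.1, ht.2]
      unfold g1
      rw [if_pos hs, if_pos ht, if_pos hst]
      have hcs := cos_pos_of hs
      have hct := cos_pos_of ht
      have hc := cos_pos_of hst
      have hpi := Real.pi_pos
      set u := Real.pi * ((s + t) / 2) with hu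
      set v := Real.pi * ((s - t) / 2) with hv
      have e1 : Real.pi * s = u + v := by rw [hu, hv]; ring
      have e2 : Real.pi * t = u - v := by rw [hu, hv]; ring
      have e3 : Real.exp (Real.pi ^ 2 * s ^ 2 / 2) * Real.exp (Real.pi ^ 2 * t ^ 2 / 2)
          = Real.exp (u ^ 2) * (Real.exp (v ^ 2 / 2)) ^ 2 := by
        rw [← Real.exp_add, ← Real.exp_nat_mul, ← Real.exp_add]
        congr 1
        rw [hu, hv]
        push_cast
        ring
      have e4 : Real.exp (Real.pi ^ 2 * ((s + t) / 2) ^ 2 / 2) ^ 2 = Real.exp (u ^ 2) := by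
        rw [← Real.exp_nat_mul]
        congr 1
        rw [hu]
        push_cast
        ring
      have habs : |v| ≤ Real.pi / 2 := by
        rw [hv, abs_mul, abs_of_pos hpi]
        have : |(s - t) / 2| ≤ 1 / 2 := by
          rw [abs_lt] at hs ht
          rw [abs_le]
          constructor <;> linarith [hs.1, hs.2, ht.1, ht.2]
        nlinarith
      have h6 : Real.cos v * Real.exp (v ^ 2 / 2) ≤ 1 := by
        have := cos_mul_exp_le (abs_nonneg v) habs
        rwa [Real.cos_abs, sq_abs] at this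
      have h6' : 0 ≤ Real.cos v := by
        rw [abs_le] at habs
        exact Real.cos_nonneg_of_mem_Icc ⟨by linarith [habs.1], habs.2⟩
      have h7 : Real.cos (u + v) * Real.cos (u - v) ≤ Real.cos u ^ 2 * Real.cos v ^ 2 := by
        rw [Real.cos_add, Real.cos_sub]
        nlinarith [sq_nonneg (Real.sin u * Real.sin v)]
      have h8 : (Real.cos v * Real.exp (v ^ 2 / 2)) ^ 2 ≤ 1 := by
        have h0 : 0 ≤ Real.cos v * Real.exp (v ^ 2 / 2) := mul_nonneg h6' (Real.exp_pos _).le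
        nlinarith
      calc Real.cos (Real.pi * s) * Real.exp (Real.pi ^ 2 * s ^ 2 / 2) *
            (Real.cos (Real.pi * t) * Real.exp (Real.pi ^ 2 * t ^ 2 / 2))
          = (Real.cos (u + v) * Real.cos (u - v)) *
            (Real.exp (Real.pi ^ 2 * s ^ 2 / 2) * Real.exp (Real.pi ^ 2 * t ^ 2 / 2)) := by
            rw [e1, e2]; ring
        _ ≤ (Real.cos u ^ 2 * Real.cos v ^ 2) *
            (Real.exp (Real.pi ^ 2 * s ^ 2 / 2) * Real.exp (Real.pi ^ 2 * t ^ 2 / 2)) :=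
            mul_le_mul_of_nonneg_right h7 (by positivity)
        _ = (Real.cos u ^ 2 * Real.exp (u ^ 2)) * (Real.cos v * Real.exp (v ^ 2 / 2)) ^ 2 := by
            rw [e3]; ring
        _ ≤ (Real.cos u ^ 2 * Real.exp (u ^ 2)) * 1 :=
            mul_le_mul_of_nonneg_left h8 (by positivity)
        _ = (Real.cos u * Real.exp (Real.pi ^ 2 * ((s + t) / 2) ^ 2 / 2)) ^ 2 := by
            rw [mul_one, mul_pow (Real.cos u), e4]
    · have : g1 t = 0 := by unfold g1; rw [if_neg ht]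
      rw [this, mul_zero]
      positivity
  · have : g1 s = 0 := by unfold g1; rw [if_neg hs]
    rw [this, zero_mul]
    positivity

lemma measurable_c1 : Measurable c1 := by
  unfold c1
  refine Measurable.ite ?_ (by fun_prop) measurable_const
  exact measurableSet_lt (by fun_prop) measurable_const

lemma measurable_g1 : Measurable g1 := by
  unfold g1
  refine Measurable.ite ?_ (by fun_prop) measurable_const
  exact measurableSet_lt (by fun_prop) measurable_const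

variable {D : ℕ} {ι : Type} [Fintype ι]

/-- the linear forms -/
def Hf (b : Fin D → ι → ℤ) (θ : Fin D → ℝ) (x : ι) : ℝ := ∑ i, θ i * (b i x : ℝ)

lemma Hf_add (b : Fin D → ι → ℤ) (θ θ' : Fin D → ℝ) (x : ι) :
    Hf b (θ + θ') x = Hf b θ x + Hf b θ' x := by
  simp [Hf, add_mul, Finset.sum_add_distrib]

lemma Hf_smul (b : Fin D → ι → ℤ) (c : ℝ) (θ : Fin D → ℝ) (x : ι) :
    Hf b (c • θ) x = c * Hf b θ x := by
  simp [Hf, Finset.mul_sum, mul_assoc]

lemma Hf_neg (b : Fin D → ι → ℤ) (θ : Fin D → ℝ) (x : ι) : Hf b (-θ) x = -Hf b θ x := by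
  simp [Hf]

lemma Hf_sub (b : Fin D → ι → ℤ) (θ θ' : Fin D → ℝ) (x : ι) :
    Hf b (θ - θ') x = Hf b θ x - Hf b θ' x := by
  rw [sub_eq_add_neg, Hf_add, Hf_neg]; ring

lemma measurable_Hf (b : Fin D → ι → ℤ) (x : ι) : Measurable fun θ => Hf b θ x := by
  unfold Hf
  fun_prop

lemma continuous_Hf (b : Fin D → ι → ℤ) (x : ι) : Continuous fun θ => Hf b θ x := by
  unfold Hf
  fun_prop

/-- `Ψ_a` of the proof -/
noncomputable def Psi (b : Fin D → ι → ℤ) (a : ι → ℝ) (θ : Fin D → ℝ) : ℝ≥0∞ :=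
  ENNReal.ofReal (Real.exp (-(Real.pi ^ 2 / 2) * ∑ x, Hf b θ x ^ 2) * ∏ x, g1 (a x + Hf b θ x))

lemma measurable_Psi (b : Fin D → ι → ℤ) (a : ι → ℝ) : Measurable (Psi b a) := by
  unfold Psi
  refine ENNReal.measurable_ofReal.comp ?_
  refine Measurable.mul ?_ ?_
  · refine Real.measurable_exp.comp (Measurable.const_mul ?_ _)
    exact Finset.measurable_sum _ fun x _ => (measurable_Hf b x).pow_const 2
  · exact Finset.measurable_prod _ fun x _ => measurable_g1.comp ((measurable_Hf b x).const_add _)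

lemma Psi_mid (b : Fin D → ι → ℤ) (a : ι → ℝ) (θ θ' : Fin D → ℝ) :
    Psi b a θ * Psi b (-a) θ' ≤ Psi b 0 ((1 / 2 : ℝ) • (θ + θ')) ^ 2 := by
  unfold Psi
  rw [← ENNReal.ofReal_mul (mul_nonneg (Real.exp_pos _).le (prod_nonneg fun x _ => g1_nonneg _)),
    ← ENNReal.ofReal_pow (mul_nonneg (Real.exp_pos _).le (prod_nonneg fun x _ => g1_nonneg _))]
  refine ENNReal.ofReal_le_ofReal ?_
  have h1 : (∏ x, g1 (a x + Hf b θ x)) * ∏ x, g1 ((-a) x + Hf b θ' x)
      ≤ (∏ x, g1 ((0 : ι → ℝ) x + Hf b ((1 / 2 : ℝ) • (θ + θ')) x)) ^ 2 := by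
    rw [← Finset.prod_mul_distrib, ← Finset.prod_pow]
    refine Finset.prod_le_prod (fun x _ => mul_nonneg (g1_nonneg _) (g1_nonneg _)) fun x _ => ?_
    refine (g1_mid _ _).trans_eq ?_
    congr 2
    rw [Hf_smul, Hf_add]
    simp only [Pi.neg_apply, Pi.zero_apply]
    ring
  have h2 : Real.exp (-(Real.pi ^ 2 / 2) * ∑ x, Hf b θ x ^ 2)
      * Real.exp (-(Real.pi ^ 2 / 2) * ∑ x, Hf b θ' x ^ 2)
      ≤ Real.exp (-(Real.pi ^ 2 / 2) * ∑ x, Hf b ((1 / 2 : ℝ) • (θ + θ')) x ^ 2) ^ 2 := by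
    rw [← Real.exp_add, ← Real.exp_nat_mul]
    refine Real.exp_le_exp.2 ?_
    have h3 : 2 * ∑ x, Hf b ((1 / 2 : ℝ) • (θ + θ')) x ^ 2
        ≤ ∑ x, Hf b θ x ^ 2 + ∑ x, Hf b θ' x ^ 2 := by
      rw [Finset.mul_sum, ← Finset.sum_add_distrib]
      refine Finset.sum_le_sum fun x _ => ?_
      rw [Hf_smul, Hf_add]
      nlinarith [sq_nonneg (Hf b θ x - Hf b θ' x)]
    have h4 : 0 ≤ Real.pi ^ 2 / 2 := by positivity
    push_cast
    nlinarith
  calc _ = (Real.exp (-(Real.pi ^ 2 / 2) * ∑ x, Hf b θ x ^ 2)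
      * Real.exp (-(Real.pi ^ 2 / 2) * ∑ x, Hf b θ' x ^ 2)) *
        ((∏ x, g1 (a x + Hf b θ x)) * ∏ x, g1 ((-a) x + Hf b θ' x)) := by ring
    _ ≤ (Real.exp (-(Real.pi ^ 2 / 2) * ∑ x, Hf b ((1 / 2 : ℝ) • (θ + θ')) x ^ 2) ^ 2) *
        ((∏ x, g1 ((0 : ι → ℝ) x + Hf b ((1 / 2 : ℝ) • (θ + θ')) x)) ^ 2) := by
        refine mul_le_mul h2 h1 ?_ (by positivity)
        exact mul_nonneg (prod_nonneg fun x _ => g1_nonneg _) (prod_nonneg fun x _ => g1_nonneg _)
    _ = _ := by ring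

lemma Psi_neg (b : Fin D → ι → ℤ) (a : ι → ℝ) (θ : Fin D → ℝ) :
    Psi b (-a) (-θ) = Psi b a θ := by
  unfold Psi
  simp only [Hf_neg, neg_sq, Pi.neg_apply]
  congr 2
  refine Finset.prod_congr rfl fun x _ => ?_
  rw [← neg_add, g1_neg]

lemma lintegral_Psi_le (b : Fin D → ι → ℤ) (a : ι → ℝ) :
    ∫⁻ θ, Psi b a θ ≤ ∫⁻ θ, Psi b 0 θ := by
  have h := Crest.Agent.R82.PL.PLp_fin D (Psi b a) (Psi b (-a)) (Psi b 0) (measurable_Psi b a)
    (measurable_Psi b (-a)) (measurable_Psi b 0) (Psi_mid b a)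
  have h2 : ∫⁻ θ, Psi b (-a) θ = ∫⁻ θ, Psi b a θ := by
    rw [← lintegral_neg_eq_self (μ := (volume : Measure (Fin D → ℝ))) (Psi b (-a))]
    exact lintegral_congr fun θ => Psi_neg b a θ
  rw [h2, ← sq] at h
  exact (ENNReal.pow_le_pow_left_iff two_ne_zero).1 h

/-- the integrand on the cell of `K` in absolute value: `∏ c1 (H_θ - K)` -/
noncomputable def CI (b : Fin D → ι → ℤ) (K : ι → ℝ) : ℝ≥0∞ :=
  ∫⁻ θ, ENNReal.ofReal (∏ x, c1 (Hf b θ x - K x))

lemma CI_zero (b : Fin D → ι → ℤ) : CI b 0 = ∫⁻ θ, Psi b 0 θ := by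
  unfold CI Psi
  refine lintegral_congr fun θ => ?_
  congr 1
  simp only [Pi.zero_apply, sub_zero, zero_add]
  simp_rw [c1_eq]
  rw [Finset.prod_mul_distrib, ← Real.exp_sum, ← Finset.mul_sum]

/-- the cell inequality, for `θ₀` satisfying the first order optimality condition -/
theorem CI_le (b : Fin D → ι → ℤ) (K : ι → ℝ) (θ₀ : Fin D → ℝ)
    (hopt : ∀ θ : Fin D → ℝ, (∀ x, |Hf b (θ₀ + θ) x - K x| ≤ 1 / 2) →
      0 ≤ ∑ x, (Hf b θ₀ x - K x) * Hf b θ x) :
    CI b K ≤ ENNReal.ofReal (Real.exp (-(Real.pi ^ 2 / 2) * ∑ x, (Hf b θ₀ x - K x) ^ 2)) *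
      CI b 0 := by
  have h1 : CI b K = ∫⁻ θ, ENNReal.ofReal (∏ x, c1 (Hf b (θ₀ + θ) x - K x)) := by
    unfold CI
    exact (lintegral_add_left_eq_self (μ := (volume : Measure (Fin D → ℝ)))
      (fun θ => ENNReal.ofReal (∏ x, c1 (Hf b θ x - K x))) θ₀).symm
  rw [h1, CI_zero]
  set a : ι → ℝ := fun x => Hf b θ₀ x - K x with ha
  have h2 : ∀ θ, ENNReal.ofReal (∏ x, c1 (Hf b (θ₀ + θ) x - K x))
      ≤ ENNReal.ofReal (Real.exp (-(Real.pi ^ 2 / 2) * ∑ x, (a x) ^ 2)) * Psi b a θ := by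
    intro θ
    unfold Psi
    rw [← ENNReal.ofReal_mul (Real.exp_pos _).le]
    refine ENNReal.ofReal_le_ofReal ?_
    by_cases hc : ∀ x, |Hf b (θ₀ + θ) x - K x| ≤ 1 / 2
    · have h3 := hopt θ hc
      have e1 : ∀ x, Hf b (θ₀ + θ) x - K x = a x + Hf b θ x := by
        intro x
        rw [Hf_add, ha]
        ring
      simp_rw [e1, c1_eq]
      rw [Finset.prod_mul_distrib, ← Real.exp_sum, ← Finset.mul_sum, ← mul_assoc, ← Real.exp_add]
      refine mul_le_mul_of_nonneg_right (Real.exp_le_exp.2 ?_)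
        (prod_nonneg fun x _ => g1_nonneg _)
      have h4 : ∑ x, (a x) ^ 2 + ∑ x, Hf b θ x ^ 2 ≤ ∑ x, (a x + Hf b θ x) ^ 2 := by
        have : ∑ x, (a x + Hf b θ x) ^ 2
            = ∑ x, (a x) ^ 2 + 2 * ∑ x, (a x * Hf b θ x) + ∑ x, Hf b θ x ^ 2 := by
          rw [Finset.mul_sum, ← Finset.sum_add_distrib, ← Finset.sum_add_distrib]
          exact Finset.sum_congr rfl fun x _ => by ring
        rw [this]
        linarith
      have h5 : 0 ≤ Real.pi ^ 2 / 2 := by positivity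
      nlinarith
    · push Not at hc
      obtain ⟨x, hx⟩ := hc
      have : c1 (Hf b (θ₀ + θ) x - K x) = 0 := by
        unfold c1
        rw [if_neg (by linarith)]
      rw [Finset.prod_eq_zero (Finset.mem_univ x) this]
      exact mul_nonneg (Real.exp_pos _).le
        (mul_nonneg (Real.exp_pos _).le (prod_nonneg fun x _ => g1_nonneg _))
  refine (lintegral_mono h2).trans ?_
  rw [lintegral_const_mul _ (measurable_Psi b a)]
  exact mul_le_mul_right (lintegral_Psi_le b a) _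

/-- existence of the minimiser on a nonempty closed cell, and the optimality condition -/
theorem exists_min (b : Fin D → ι → ℤ) (K : ι → ℝ)
    (hne : ∃ θ : Fin D → ℝ, ∀ x, |Hf b θ x - K x| ≤ 1 / 2) :
    ∃ θ₀ : Fin D → ℝ, (∀ x, |Hf b θ₀ x - K x| ≤ 1 / 2) ∧
      (∀ θ : Fin D → ℝ, (∀ x, |Hf b θ x - K x| ≤ 1 / 2) →
        ∑ x, (Hf b θ₀ x - K x) ^ 2 ≤ ∑ x, (Hf b θ x - K x) ^ 2) ∧
      ∀ θ : Fin D → ℝ, (∀ x, |Hf b (θ₀ + θ) x - K x| ≤ 1 / 2) →
        0 ≤ ∑ x, (Hf b θ₀ x - K x) * Hf b θ x := by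
  classical
  -- the range of `H` in `ι → ℝ`
  let L : (Fin D → ℝ) →ₗ[ℝ] (ι → ℝ) :=
    { toFun := fun θ x => Hf b θ x
      map_add' := fun θ θ' => by ext x; exact Hf_add b θ θ' x
      map_smul' := fun c θ => by ext x; exact Hf_smul b c θ x }
  have hcl : IsClosed (LinearMap.range L : Set (ι → ℝ)) := Submodule.closed_of_finiteDimensional _
  set S : Set (ι → ℝ) := (LinearMap.range L : Set (ι → ℝ)) ∩
    Set.pi Set.univ (fun x => Set.Icc (K x - 1 / 2) (K x + 1 / 2)) with hS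
  have hcomp : IsCompact S :=
    (isCompact_univ_pi fun x => isCompact_Icc).inter_left hcl
  obtain ⟨θ1, h1⟩ := hne
  have hmemS : ∀ θ : Fin D → ℝ, (∀ x, |Hf b θ x - K x| ≤ 1 / 2) → L θ ∈ S := by
    intro θ hθ
    refine ⟨⟨θ, rfl⟩, fun x _ => ?_⟩
    have := abs_le.1 (hθ x)
    exact ⟨by change K x - 1 / 2 ≤ Hf b θ x; linarith [this.1],
      by change Hf b θ x ≤ K x + 1 / 2; linarith [this.2]⟩
  have hne' : S.Nonempty := ⟨_, hmemS θ1 h1⟩
  obtain ⟨z, hz, hmin⟩ := hcomp.exists_isMinOn hne'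
    (f := fun z : ι → ℝ => ∑ x, (z x - K x) ^ 2) (by fun_prop)
  obtain ⟨⟨θ₀, rfl⟩, hz2⟩ := hz
  have hcell : ∀ x, |Hf b θ₀ x - K x| ≤ 1 / 2 := by
    intro x
    have := hz2 x (Set.mem_univ x)
    rw [abs_le]
    have h3 : K x - 1 / 2 ≤ Hf b θ₀ x := this.1
    have h4 : Hf b θ₀ x ≤ K x + 1 / 2 := this.2
    constructor <;> linarith
  have hmin' : ∀ θ : Fin D → ℝ, (∀ x, |Hf b θ x - K x| ≤ 1 / 2) →
      ∑ x, (Hf b θ₀ x - K x) ^ 2 ≤ ∑ x, (Hf b θ x - K x) ^ 2 :=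
    fun θ hθ => hmin (hmemS θ hθ)
  refine ⟨θ₀, hcell, hmin', fun θ hθ => ?_⟩
  by_contra hneg
  push Not at hneg
  set A := ∑ x, (Hf b θ₀ x - K x) * Hf b θ x with hA
  set B := ∑ x, Hf b θ x ^ 2 with hB
  have hB0 : 0 ≤ B := Finset.sum_nonneg fun x _ => sq_nonneg _
  have key : ∀ t : ℝ, 0 < t → t ≤ 1 → 0 ≤ 2 * A + t * B := by
    intro t ht ht1
    have h5 : ∀ x, |Hf b (θ₀ + t • θ) x - K x| ≤ 1 / 2 := by
      intro x
      have e : Hf b (θ₀ + t • θ) x - K x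
          = (1 - t) * (Hf b θ₀ x - K x) + t * (Hf b (θ₀ + θ) x - K x) := by
        rw [Hf_add, Hf_smul, Hf_add]; ring
      rw [e]
      refine (abs_add_le _ _).trans ?_
      rw [abs_mul, abs_mul, abs_of_nonneg (by linarith : (0 : ℝ) ≤ 1 - t), abs_of_pos ht]
      nlinarith [hcell x, hθ x]
    have h6 := hmin' _ h5
    have e2 : ∑ x, (Hf b (θ₀ + t • θ) x - K x) ^ 2
        = ∑ x, (Hf b θ₀ x - K x) ^ 2 + t * (2 * A + t * B) := by
      rw [hA, hB, Finset.mul_sum, Finset.mul_sum, ← Finset.sum_add_distrib, Finset.mul_sum,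
        ← Finset.sum_add_distrib]
      refine Finset.sum_congr rfl fun x _ => ?_
      rw [Hf_add, Hf_smul]
      ring
    rw [e2] at h6
    have h7 : 0 ≤ t * (2 * A + t * B) := by linarith
    exact nonneg_of_mul_nonneg_right h7 ht
  have hBp : 0 < B + 1 := by linarith
  have h8 := key (min 1 (-A / (B + 1))) (lt_min one_pos (div_pos (by linarith) hBp))
    (min_le_left _ _)
  have h9 : min 1 (-A / (B + 1)) * B ≤ -A := by
    calc min 1 (-A / (B + 1)) * B ≤ (-A / (B + 1)) * B :=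
          mul_le_mul_of_nonneg_right (min_le_right _ _) hB0
      _ ≤ -A := by
          rw [div_mul_eq_mul_div, div_le_iff₀ hBp]
          nlinarith
  linarith

/-- the cell inequality in the final form -/
theorem CI_le' (b : Fin D → ι → ℤ) (K : ι → ℝ) (e : ℝ)
    (he : ∀ θ : Fin D → ℝ, (∀ x, |Hf b θ x - K x| ≤ 1 / 2) → e ≤ ∑ x, (Hf b θ x - K x) ^ 2) :
    CI b K ≤ ENNReal.ofReal (Real.exp (-(Real.pi ^ 2 / 2) * e)) * CI b 0 := by
  by_cases hne : ∃ θ : Fin D → ℝ, ∀ x, |Hf b θ x - K x| ≤ 1 / 2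
  · obtain ⟨θ₀, h1, -, h3⟩ := exists_min b K hne
    refine (CI_le b K θ₀ h3).trans ?_
    refine mul_le_mul_left (ENNReal.ofReal_le_ofReal (Real.exp_le_exp.2 ?_)) _
    have h4 := he θ₀ h1
    have h5 : 0 ≤ Real.pi ^ 2 / 2 := by positivity
    nlinarith
  · push Not at hne
    have : CI b K = 0 := by
      unfold CI
      have : ∀ θ, ENNReal.ofReal (∏ x, c1 (Hf b θ x - K x)) = 0 := by
        intro θ
        obtain ⟨x, hx⟩ := hne θ
        have : c1 (Hf b θ x - K x) = 0 := by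
          unfold c1
          rw [if_neg (by linarith)]
        rw [Finset.prod_eq_zero (Finset.mem_univ x) this, ENNReal.ofReal_zero]
      simp [this]
    rw [this]
    exact zero_le

end Crest.Agent.R63.HU
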