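import Crest.Agent.R63.HU1

/-! ROW 63, module H, analytic half, part 2 (helper84): unfolding of the torus integral. -/

set_option autoImplicit false
open Finset MeasureTheory
open scoped ENNReal

namespace Crest.Agent.R63.HU

variable {D : ℕ} {ι : Type} [Fintype ι]

/-- the unit cube `[0,1)^D` -/
def Qc (D : ℕ) : Set (Fin D → ℝ) := Set.pi Set.univ fun _ => Set.Ico (0 : ℝ) 1

lemma measurableSet_Qc (D : ℕ) : MeasurableSet (Qc D) :=
  MeasurableSet.univ_pi fun _ => measurableSet_Ico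

/-- integer vectors as real vectors -/
def kr (k : Fin D → ℤ) : Fin D → ℝ := fun i => (k i : ℝ)

/-- the lattice function `∑ kᵢ bᵢ` -/
def bk (b : Fin D → ι → ℤ) (k : Fin D → ℤ) (x : ι) : ℤ := ∑ i, k i * b i x

omit [Fintype ι] in
lemma Hf_kr (b : Fin D → ι → ℤ) (k : Fin D → ℤ) (x : ι) : Hf b (kr k) x = (bk b k x : ℝ) := by
  simp [Hf, kr, bk]

/-- tiling of `ℝ^D` by the integer translates of the unit cube -/
lemma lintegral_tile (g : (Fin D → ℝ) → ℝ≥0∞) :
    ∑' k : Fin D → ℤ, ∫⁻ θ in Qc D, g (θ + kr k) = ∫⁻ θ, g θ := by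
  let S : (Fin D → ℤ) → Set (Fin D → ℝ) := fun k => (fun θ i => ⌊θ i⌋) ⁻¹' {k}
  have hSm : ∀ k, MeasurableSet (S k) := by
    intro k
    have : Measurable (fun θ : Fin D → ℝ => fun i => ⌊θ i⌋) := by
      refine measurable_pi_lambda _ fun i => ?_
      exact Int.measurable_floor.comp (measurable_pi_apply i)
    exact this (measurableSet_singleton k)
  have hSd : Pairwise (Function.onFun Disjoint S) := by
    intro k l hkl
    rw [Function.onFun, Set.disjoint_left]
    intro θ h1 h2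
    exact hkl ((Set.mem_singleton_iff.1 h1).symm.trans (Set.mem_singleton_iff.1 h2))
  have hU : (⋃ k, S k) = Set.univ := by
    ext θ
    simp [S]
  have h1 : ∫⁻ θ, g θ = ∑' k, ∫⁻ θ in S k, g θ := by
    rw [← lintegral_iUnion hSm hSd, hU, Measure.restrict_univ]
  rw [h1]
  refine tsum_congr fun k => ?_
  have hmem : ∀ θ : Fin D → ℝ, θ + kr k ∈ S k ↔ θ ∈ Qc D := by
    intro θ
    constructor
    · intro h
      have h' : ∀ i, ⌊(θ + kr k) i⌋ = k i := fun i => congrFun (Set.mem_singleton_iff.1 h) i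
      intro i _
      have h2 := h' i
      rw [Pi.add_apply, kr, Int.floor_add_intCast] at h2
      have h3 : ⌊θ i⌋ = 0 := by omega
      rw [Int.floor_eq_zero_iff] at h3
      exact h3
    · intro h
      refine Set.mem_singleton_iff.2 (funext fun i => ?_)
      have h2 := h i (Set.mem_univ i)
      show ⌊(θ + kr k) i⌋ = k i
      rw [Pi.add_apply, kr, Int.floor_add_intCast, Int.floor_eq_zero_iff.2 h2, zero_add]
  rw [← lintegral_indicator (hSm k), ← lintegral_indicator (measurableSet_Qc D),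
    ← lintegral_add_right_eq_self (μ := (volume : Measure (Fin D → ℝ)))
      ((S k).indicator g) (kr k)]
  refine lintegral_congr fun θ => ?_
  by_cases h : θ ∈ Qc D
  · rw [Set.indicator_of_mem h, Set.indicator_of_mem ((hmem θ).2 h)]
  · rw [Set.indicator_of_notMem h, Set.indicator_of_notMem fun h' => h ((hmem θ).1 h')]

lemma lintegral_tile' (g : (Fin D → ℝ) → ℝ≥0∞) :
    ∑' k : Fin D → ℤ, ∫⁻ θ in Qc D, g (θ - kr k) = ∫⁻ θ, g θ := by
  rw [← lintegral_tile g, ← (Equiv.neg (Fin D → ℤ)).tsum_eq]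
  refine tsum_congr fun k => ?_
  refine lintegral_congr fun θ => ?_
  congr 1
  ext i
  simp [kr]

/-- the integrand -/
noncomputable def FF (b : Fin D → ι → ℤ) (θ : Fin D → ℝ) : ℝ := ∏ x, Real.cos (Real.pi * Hf b θ x)

lemma continuous_FF (b : Fin D → ι → ℤ) : Continuous (FF b) := by
  unfold FF
  refine continuous_finsetProd _ fun x _ => ?_
  exact Real.continuous_cos.comp (continuous_const.mul (continuous_Hf b x))

lemma abs_FF_le (b : Fin D → ι → ℤ) (θ : Fin D → ℝ) : |FF b θ| ≤ 1 := by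
  unfold FF
  rw [Finset.abs_prod]
  exact Finset.prod_le_one (fun x _ => abs_nonneg _) fun x _ => Real.abs_cos_le_one _

omit [Fintype ι] in
lemma prod_neg_one_zpow (s : Finset ι) (K : ι → ℤ) :
    ∏ x ∈ s, (-1 : ℝ) ^ (K x) = (-1 : ℝ) ^ (∑ x ∈ s, K x) := by
  classical
  induction s using Finset.induction_on with
  | empty => simp
  | insert a s ha ih =>
    rw [Finset.prod_insert ha, Finset.sum_insert ha, zpow_add₀ (by norm_num), ih]

/-- `F` on the cell of an integer vector `K` -/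
lemma FF_eq (b : Fin D → ι → ℤ) (θ : Fin D → ℝ) (K : ι → ℤ)
    (hK : ∀ x, |Hf b θ x - K x| < 1 / 2) :
    FF b θ = (-1 : ℝ) ^ (∑ x, K x) * ∏ x, c1 (Hf b θ x - K x) := by
  have h1 : ∀ x, Real.cos (Real.pi * Hf b θ x) = (-1 : ℝ) ^ (K x) * c1 (Hf b θ x - K x) := by
    intro x
    unfold c1
    rw [if_pos (hK x)]
    have : Real.pi * Hf b θ x = Real.pi * (Hf b θ x - K x) + (K x : ℝ) * Real.pi := by ring
    rw [this, Real.cos_add_int_mul_pi]
  unfold FF
  rw [Finset.prod_congr rfl fun x _ => h1 x, Finset.prod_mul_distrib]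
  congr 1
  exact prod_neg_one_zpow univ K

/-- parity: lattice vectors have even sum -/
lemma even_bk (b : Fin D → ι → ℤ) (hpar : ∀ i, Even (∑ x, b i x)) (k : Fin D → ℤ) :
    Even (∑ x, bk b k x) := by
  unfold bk
  rw [Finset.sum_comm]
  refine Finset.even_sum _ fun i _ => ?_
  rw [← Finset.mul_sum]
  exact (hpar i).mul_left _

lemma bk_inj (b : Fin D → ι → ℤ) (hinj : ∀ θ : Fin D → ℝ, (∀ x, Hf b θ x = 0) → θ = 0)
    {k l : Fin D → ℤ} (h : ∀ x, bk b k x = bk b l x) : k = l := by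
  have h1 : kr k - kr l = 0 := by
    refine hinj _ fun x => ?_
    rw [Hf_sub, Hf_kr, Hf_kr, h x, sub_self]
  funext i
  have h2 := congrFun h1 i
  simp only [kr, Pi.sub_apply, Pi.zero_apply, sub_eq_zero] at h2
  exact_mod_cast h2

lemma eq_of_lt_half {t : ℝ} {m n : ℤ} (h1 : |t - m| < 1 / 2) (h2 : |t - n| < 1 / 2) : m = n := by
  rw [abs_lt] at h1 h2
  have h3 : (m : ℝ) < n + 1 := by linarith [h1.1, h2.2]
  have h4 : (n : ℝ) < m + 1 := by linarith [h1.2, h2.1]
  have h5 : m < n + 1 := by exact_mod_cast h3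
  have h6 : n < m + 1 := by exact_mod_cast h4
  omega

lemma prod_c1_nonneg (b : Fin D → ι → ℤ) (K : ι → ℝ) (θ : Fin D → ℝ) :
    0 ≤ ∏ x, c1 (Hf b θ x - K x) := prod_nonneg fun _ _ => c1_nonneg _

lemma lt_half_of_prod_ne {b : Fin D → ι → ℤ} {K : ι → ℝ} {θ : Fin D → ℝ}
    (h : ∏ x, c1 (Hf b θ x - K x) ≠ 0) (x : ι) : |Hf b θ x - K x| < 1 / 2 := by
  by_contra hx
  apply h
  refine Finset.prod_eq_zero (Finset.mem_univ x) ?_
  unfold c1
  rw [if_neg hx]

lemma measurable_prod_c1 (b : Fin D → ι → ℤ) (K : ι → ℝ) :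
    Measurable fun θ => ENNReal.ofReal (∏ x, c1 (Hf b θ x - K x)) := by
  refine ENNReal.measurable_ofReal.comp ?_
  exact Finset.measurable_prod _ fun x _ => measurable_c1.comp ((measurable_Hf b x).sub_const _)

/-- the lattice cells are contained in the positive part -/
lemma tsum_le_pos (b : Fin D → ι → ℤ) (hpar : ∀ i, Even (∑ x, b i x))
    (hinj : ∀ θ : Fin D → ℝ, (∀ x, Hf b θ x = 0) → θ = 0) (θ : Fin D → ℝ) :
    ∑' k : Fin D → ℤ, ENNReal.ofReal (∏ x, c1 (Hf b θ x - (bk b k x : ℝ)))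
      ≤ ENNReal.ofReal (FF b θ) := by
  by_cases h : ∃ k : Fin D → ℤ, ∏ x, c1 (Hf b θ x - (bk b k x : ℝ)) ≠ 0
  · obtain ⟨k, hk⟩ := h
    have h1 := fun x => lt_half_of_prod_ne (K := fun x => (bk b k x : ℝ)) hk x
    rw [tsum_eq_single k]
    · have h2 := FF_eq b θ (bk b k) h1
      rw [(even_bk b hpar k).neg_one_zpow, one_mul] at h2
      rw [h2]
    · intro l hl
      rw [ENNReal.ofReal_eq_zero]
      by_contra hne
      push Not at hne
      apply hl
      refine bk_inj b hinj fun x => ?_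
      exact eq_of_lt_half
        (lt_half_of_prod_ne (K := fun x => (bk b l x : ℝ)) hne.ne' x) (h1 x)
  · push Not at h
    simp [h]

/-- the negative part is contained in the non-lattice cells -/
lemma neg_le_tsum (b : Fin D → ι → ℤ) (hpar : ∀ i, Even (∑ x, b i x))
    (R : Finset (ι → ℤ))
    (hR : ∀ K : ι → ℤ, (∃ θ : Fin D → ℝ, ∀ x, |Hf b θ x - K x| ≤ 1 / 2) →
      (∃ k : Fin D → ℤ, ∀ x, K x = ∑ i, k i * b i x) ∨
      (∃ k : Fin D → ℤ, (fun x => K x - ∑ i, k i * b i x) ∈ R)) (θ : Fin D → ℝ) :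
    ENNReal.ofReal (-FF b θ)
      ≤ ∑ o ∈ R, ∑' k : Fin D → ℤ,
        ENNReal.ofReal (∏ x, c1 (Hf b θ x - ((o x : ℝ) + (bk b k x : ℝ)))) := by
  by_cases h0 : 0 ≤ FF b θ
  · rw [ENNReal.ofReal_of_nonpos (by linarith)]
    exact zero_le
  · have h1 : ∀ x, |Hf b θ x - (round (Hf b θ x) : ℤ)| < 1 / 2 := by
      intro x
      refine lt_of_le_of_ne (abs_sub_round _) fun heq => ?_
      apply h0
      have hc : Real.cos (Real.pi * Hf b θ x) = 0 := by
        have h2 : Real.pi * Hf b θ x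
            = Real.pi * (Hf b θ x - (round (Hf b θ x) : ℤ)) + (round (Hf b θ x) : ℤ) * Real.pi := by
          ring
        rw [h2, Real.cos_add_int_mul_pi, ← Real.cos_abs, abs_mul, heq, abs_of_pos Real.pi_pos]
        have h3 : Real.pi * (1 / 2) = Real.pi / 2 := by ring
        rw [h3, Real.cos_pi_div_two, mul_zero]
      unfold FF
      rw [Finset.prod_eq_zero (Finset.mem_univ x) hc]
    set K : ι → ℤ := fun x => round (Hf b θ x) with hK
    have h2 := FF_eq b θ K h1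
    have h3 : -FF b θ ≤ ∏ x, c1 (Hf b θ x - K x) := by
      have h4 : |FF b θ| = ∏ x, c1 (Hf b θ x - K x) := by
        rw [h2, abs_mul, abs_zpow, abs_neg, abs_one, one_zpow, one_mul,
          abs_of_nonneg (prod_c1_nonneg b (fun x => (K x : ℝ)) θ)]
      rw [← h4]
      exact neg_le_abs _
    rcases hR K ⟨θ, fun x => (h1 x).le⟩ with ⟨k, hk⟩ | ⟨k, hk⟩
    · exfalso
      apply h0
      rw [h2]
      have h5 : K = bk b k := funext fun x => hk x
      rw [h5, (even_bk b hpar k).neg_one_zpow, one_mul]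
      exact prod_c1_nonneg b (fun x => (bk b k x : ℝ)) θ
    · refine le_trans ?_ (Finset.single_le_sum (f := fun o : ι → ℤ => ∑' k : Fin D → ℤ,
        ENNReal.ofReal (∏ x, c1 (Hf b θ x - ((o x : ℝ) + (bk b k x : ℝ)))))
        (fun _ _ => zero_le) hk)
      refine le_trans ?_ (ENNReal.le_tsum k)
      refine ENNReal.ofReal_le_ofReal (h3.trans_eq ?_)
      refine Finset.prod_congr rfl fun x _ => ?_
      congr 2
      simp only [bk]
      push_cast
      ring

lemma lintegral_cells (b : Fin D → ι → ℤ) (o : ι → ℝ) :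
    ∫⁻ θ in Qc D, ∑' k : Fin D → ℤ,
      ENNReal.ofReal (∏ x, c1 (Hf b θ x - (o x + (bk b k x : ℝ)))) = CI b o := by
  rw [lintegral_tsum fun k =>
    (measurable_prod_c1 b (fun x => o x + (bk b k x : ℝ))).aemeasurable]
  unfold CI
  rw [← lintegral_tile' (fun θ => ENNReal.ofReal (∏ x, c1 (Hf b θ x - o x)))]
  refine tsum_congr fun k => lintegral_congr fun θ => ?_
  congr 1
  refine Finset.prod_congr rfl fun x _ => ?_
  rw [Hf_sub, Hf_kr]
  congr 1
  ring

lemma CI_zero_pos (b : Fin D → ι → ℤ) : 0 < CI b 0 := by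
  unfold CI
  have hm := measurable_prod_c1 b 0
  rw [lintegral_pos_iff_support hm]
  have hopen : IsOpen {θ : Fin D → ℝ | ∀ x, |Hf b θ x| < 1 / 2} := by
    have : {θ : Fin D → ℝ | ∀ x, |Hf b θ x| < 1 / 2} = ⋂ x, {θ | |Hf b θ x| < 1 / 2} := by
      ext θ; simp
    rw [this]
    exact isOpen_iInter_of_finite fun x =>
      isOpen_lt (continuous_abs.comp (continuous_Hf b x)) continuous_const
  have hne : {θ : Fin D → ℝ | ∀ x, |Hf b θ x| < 1 / 2}.Nonempty :=
    ⟨0, fun x => by simp [Hf]⟩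
  refine lt_of_lt_of_le (hopen.measure_pos volume hne) (measure_mono fun θ hθ => ?_)
  rw [Function.mem_support]
  have h1 : 0 < ∏ x, c1 (Hf b θ x - (0 : ι → ℝ) x) := by
    refine Finset.prod_pos fun x _ => ?_
    have hx : |Hf b θ x| < 1 / 2 := hθ x
    rw [Pi.zero_apply, sub_zero]
    unfold c1
    rw [if_pos hx]
    exact cos_pos_of hx
  exact (ENNReal.ofReal_pos.2 h1).ne'

lemma volume_Qc (D : ℕ) : (volume : Measure (Fin D → ℝ)) (Qc D) = 1 := by
  unfold Qc
  rw [Real.volume_pi_Ico]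
  simp

/-- positivity of the torus integral -/
theorem integral_FF_pos (b : Fin D → ι → ℤ) (hpar : ∀ i, Even (∑ x, b i x))
    (hinj : ∀ θ : Fin D → ℝ, (∀ x, Hf b θ x = 0) → θ = 0)
    (R : Finset (ι → ℤ)) (eK : (ι → ℤ) → ℝ)
    (hR : ∀ K : ι → ℤ, (∃ θ : Fin D → ℝ, ∀ x, |Hf b θ x - K x| ≤ 1 / 2) →
      (∃ k : Fin D → ℤ, ∀ x, K x = ∑ i, k i * b i x) ∨
      (∃ k : Fin D → ℤ, (fun x => K x - ∑ i, k i * b i x) ∈ R))
    (heK : ∀ K ∈ R, ∀ θ : Fin D → ℝ, (∀ x, |Hf b θ x - K x| ≤ 1 / 2) →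
      eK K ≤ ∑ x, (Hf b θ x - K x) ^ 2)
    (hsum : ∑ K ∈ R, Real.exp (-(Real.pi ^ 2 / 2) * eK K) < 1) :
    0 < ∫ θ in Qc D, FF b θ := by
  have hFm : Measurable (FF b) := (continuous_FF b).measurable
  have hint : IntegrableOn (FF b) (Qc D) := by
    refine Measure.integrableOn_of_bounded (M := 1) ?_ hFm.aestronglyMeasurable ?_
    · rw [volume_Qc]; exact ENNReal.one_ne_top
    · exact Filter.Eventually.of_forall fun θ => abs_FF_le b θ
  have h1 : ∫ θ in Qc D, FF b θ = (∫⁻ θ in Qc D, ENNReal.ofReal (FF b θ)).toReal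
      - (∫⁻ θ in Qc D, ENNReal.ofReal (-FF b θ)).toReal :=
    integral_eq_lintegral_pos_part_sub_lintegral_neg_part hint
  have hP : CI b 0 ≤ ∫⁻ θ in Qc D, ENNReal.ofReal (FF b θ) := by
    rw [← lintegral_cells b 0]
    refine lintegral_mono fun θ => ?_
    refine le_trans (le_of_eq ?_) (tsum_le_pos b hpar hinj θ)
    simp
  have hPfin : ∫⁻ θ in Qc D, ENNReal.ofReal (FF b θ) ≤ 1 := by
    calc ∫⁻ θ in Qc D, ENNReal.ofReal (FF b θ) ≤ ∫⁻ θ in Qc D, 1 := by
          refine lintegral_mono fun θ => ?_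
          rw [← ENNReal.ofReal_one]
          exact ENNReal.ofReal_le_ofReal ((le_abs_self _).trans (abs_FF_le b θ))
      _ = 1 := by rw [setLIntegral_one, volume_Qc]
  have hN : ∫⁻ θ in Qc D, ENNReal.ofReal (-FF b θ)
      ≤ ENNReal.ofReal (∑ K ∈ R, Real.exp (-(Real.pi ^ 2 / 2) * eK K)) * CI b 0 := by
    calc ∫⁻ θ in Qc D, ENNReal.ofReal (-FF b θ)
        ≤ ∫⁻ θ in Qc D, ∑ o ∈ R, ∑' k : Fin D → ℤ,
          ENNReal.ofReal (∏ x, c1 (Hf b θ x - ((o x : ℝ) + (bk b k x : ℝ)))) :=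
          lintegral_mono fun θ => neg_le_tsum b hpar R hR θ
      _ = ∑ o ∈ R, CI b (fun x => (o x : ℝ)) := by
          rw [lintegral_finsetSum']
          · exact Finset.sum_congr rfl fun o _ => lintegral_cells b (fun x => (o x : ℝ))
          · intro o _
            exact (Measurable.ennreal_tsum fun k =>
              measurable_prod_c1 b (fun x => (o x : ℝ) + (bk b k x : ℝ))).aemeasurable
      _ ≤ ∑ o ∈ R, ENNReal.ofReal (Real.exp (-(Real.pi ^ 2 / 2) * eK o)) * CI b 0 :=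
          Finset.sum_le_sum fun o ho => CI_le' b _ (eK o) (heK o ho)
      _ = _ := by
          rw [← Finset.sum_mul, ENNReal.ofReal_sum_of_nonneg fun _ _ => (Real.exp_pos _).le]
  have hC0 := CI_zero_pos b
  have hCt : CI b 0 ≠ ⊤ := ne_top_of_le_ne_top ENNReal.one_ne_top (hP.trans hPfin)
  set s := ∑ K ∈ R, Real.exp (-(Real.pi ^ 2 / 2) * eK K) with hs
  have hs0 : 0 ≤ s := Finset.sum_nonneg fun _ _ => (Real.exp_pos _).le
  have hC0' : 0 < (CI b 0).toReal := ENNReal.toReal_pos hC0.ne' hCt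
  have h2 : (CI b 0).toReal ≤ (∫⁻ θ in Qc D, ENNReal.ofReal (FF b θ)).toReal :=
    ENNReal.toReal_mono (ne_top_of_le_ne_top ENNReal.one_ne_top hPfin) hP
  have h3 : (∫⁻ θ in Qc D, ENNReal.ofReal (-FF b θ)).toReal ≤ s * (CI b 0).toReal := by
    have := ENNReal.toReal_mono (ENNReal.mul_ne_top ENNReal.ofReal_ne_top hCt) hN
    rwa [ENNReal.toReal_mul, ENNReal.toReal_ofReal hs0] at this
  rw [h1]
  nlinarith

end Crest.Agent.R63.HU
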