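import Crest.Agent.R63.Defs

/-! ROW 63: the space `IsL` (orthogonal complement of `W`). -/

set_option autoImplicit false
open Finset

namespace Crest.Agent.R63

variable {m r : ℕ}

theorem mem_cube {I : Finset (Fin m)} {x z : X m r} : z ∈ cube I x ↔ ∀ i, i ∉ I → z i = x i := by
  simp [cube]

theorem self_mem_cube (I : Finset (Fin m)) (x : X m r) : x ∈ cube I x :=
  mem_cube.2 fun _ _ => rfl

theorem cube_congr {I : Finset (Fin m)} {x y : X m r} (h : ∀ i, i ∉ I → x i = y i) :
    cube I x = cube I y := by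
  ext z
  rw [mem_cube, mem_cube]
  exact ⟨fun hz i hi => (hz i hi).trans (h i hi), fun hz i hi => (hz i hi).trans (h i hi).symm⟩

theorem mem_cube_comm {I : Finset (Fin m)} {x z : X m r} : z ∈ cube I x ↔ x ∈ cube I z := by
  rw [mem_cube, mem_cube]
  exact ⟨fun h i hi => (h i hi).symm, fun h i hi => (h i hi).symm⟩

theorem IsL.add {f : ℕ} {g h : X m r → ℝ} (hg : IsL f g) (hh : IsL f h) :
    IsL f (fun x => g x + h x) := by
  intro w hw
  have h1 := hg w hw
  have h2 := hh w hw
  calc ∑ x, (g x + h x) * w x = ∑ x, g x * w x + ∑ x, h x * w x := by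
        rw [← Finset.sum_add_distrib]
        exact Finset.sum_congr rfl fun x _ => by ring
    _ = 0 := by rw [h1, h2, add_zero]

theorem IsL.smul {f : ℕ} {g : X m r → ℝ} (c : ℝ) (hg : IsL f g) :
    IsL f (fun x => c * g x) := by
  intro w hw
  have h1 := hg w hw
  calc ∑ x, (c * g x) * w x = c * ∑ x, g x * w x := by
        rw [Finset.mul_sum]
        exact Finset.sum_congr rfl fun x _ => by ring
    _ = 0 := by rw [h1, mul_zero]

theorem IsL.sum {f : ℕ} {ι : Type} (s : Finset ι) {g : ι → X m r → ℝ}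
    (hg : ∀ i ∈ s, IsL f (g i)) : IsL f (fun x => ∑ i ∈ s, g i x) := by
  intro w hw
  calc ∑ x, (∑ i ∈ s, g i x) * w x = ∑ x, ∑ i ∈ s, g i x * w x := by
        exact Finset.sum_congr rfl fun x _ => by rw [Finset.sum_mul]
    _ = ∑ i ∈ s, ∑ x, g i x * w x := Finset.sum_comm
    _ = 0 := Finset.sum_eq_zero fun i hi => hg i hi w hw

/-- the indicator of an `f`-cube -/
theorem isL_cube {f : ℕ} {I : Finset (Fin m)} (hI : I.card = f) (u : X m r) :
    IsL f (fun x => if x ∈ cube I u then (1 : ℝ) else 0) := by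
  intro w hw
  have h2 : ∀ x : X m r, (if x ∈ cube I u then (1 : ℝ) else 0) * w x =
      if x ∈ cube I u then w x else 0 := by
    intro x
    split_ifs <;> simp
  rw [Finset.sum_congr rfl fun x _ => h2 x, ← Finset.sum_filter]
  refine Eq.trans ?_ (hw I hI u)
  congr 1
  ext x
  simp

/-- a function which does not depend on the `f` coordinates of `I` -/
theorem isL_inv {f : ℕ} {I : Finset (Fin m)} (hI : I.card = f) {g : X m r → ℝ}
    (hg : ∀ x y, (∀ i, i ∉ I → x i = y i) → g x = g y) : IsL f g := by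
  intro w hw
  have hc : ∀ x : X m r, ((cube I x).card : ℝ) ≠ 0 := fun x => by
    have : 0 < (cube I x).card := Finset.card_pos.2 ⟨x, self_mem_cube I x⟩
    exact_mod_cast this.ne'
  have h1 : ∀ x, g x * w x = ∑ u ∈ cube I x, g u * w x / ((cube I u).card : ℝ) := by
    intro x
    have h2 : ∀ u ∈ cube I x, g u * w x / ((cube I u).card : ℝ) =
        g x * w x / ((cube I x).card : ℝ) := by
      intro u hu
      have hu' := mem_cube.1 hu
      rw [hg u x hu', cube_congr hu']
    rw [Finset.sum_congr rfl h2, Finset.sum_const, nsmul_eq_mul, mul_div_cancel₀ _ (hc x)]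
  calc ∑ x, g x * w x = ∑ x, ∑ u ∈ cube I x, g u * w x / ((cube I u).card : ℝ) :=
        Finset.sum_congr rfl fun x _ => h1 x
    _ = ∑ x, ∑ u, if u ∈ cube I x then g u * w x / ((cube I u).card : ℝ) else 0 := by
        refine Finset.sum_congr rfl fun x _ => ?_
        rw [← Finset.sum_filter]
        congr 1
        ext u
        simp
    _ = ∑ u, ∑ x, if u ∈ cube I x then g u * w x / ((cube I u).card : ℝ) else 0 :=
        Finset.sum_comm
    _ = ∑ u, g u / ((cube I u).card : ℝ) * ∑ x ∈ cube I u, w x := by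
        refine Finset.sum_congr rfl fun u _ => ?_
        rw [Finset.mul_sum]
        have h3 : ∀ x : X m r, (if u ∈ cube I x then g u * w x / ((cube I u).card : ℝ) else 0) =
            if x ∈ cube I u then g u / ((cube I u).card : ℝ) * w x else 0 := by
          intro x
          by_cases hx : u ∈ cube I x
          · rw [if_pos hx, if_pos (mem_cube_comm.1 hx)]; ring
          · rw [if_neg hx, if_neg (fun h => hx (mem_cube_comm.1 h))]
        rw [Finset.sum_congr rfl fun x _ => h3 x, ← Finset.sum_filter]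
        congr 1
        ext x
        simp
    _ = 0 := Finset.sum_eq_zero fun u _ => by rw [hw I hI u, mul_zero]

/-- structure of `IsL`: sums of functions which do not depend on `f` coordinates -/
theorem IsL.exists_sum {f : ℕ} {g : X m r → ℝ} (hg : IsL f g) :
    ∃ h : Finset (Fin m) → X m r → ℝ,
      (∀ I x y, (∀ i, i ∉ I → x i = y i) → h I x = h I y) ∧
      ∀ x, g x = ∑ I ∈ powersetCard f univ, h I x := by
  classical
  let ι := {I : Finset (Fin m) // I ∈ powersetCard f (univ : Finset (Fin m))} × X m r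
  let Lf : ι → (X m r → ℝ) →ₗ[ℝ] ℝ := fun p => ∑ z ∈ cube p.1.1 p.2, LinearMap.proj z
  let K : (X m r → ℝ) →ₗ[ℝ] ℝ := ∑ x, g x • LinearMap.proj x
  have hLf : ∀ (p : ι) (w : X m r → ℝ), Lf p w = ∑ z ∈ cube p.1.1 p.2, w z := by
    intro p w
    simp [Lf, LinearMap.sum_apply]
  have hK : ∀ w : X m r → ℝ, K w = ∑ x, g x * w x := by
    intro w
    simp [K, LinearMap.sum_apply]
  have h1 : K ∈ Submodule.span ℝ (Set.range Lf) := by
    refine mem_span_of_iInf_ker_le_ker ?_
    intro w hw
    rw [LinearMap.mem_ker, hK]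
    refine hg w ?_
    intro I hI x
    have h2 := (Submodule.mem_iInf _).1 hw (⟨I, by simp [Finset.mem_powersetCard, hI]⟩, x)
    rw [LinearMap.mem_ker, hLf] at h2
    exact h2
  obtain ⟨c, hc⟩ := (Submodule.mem_span_range_iff_exists_fun ℝ).1 h1
  refine ⟨fun I z => if hI : I ∈ powersetCard f (univ : Finset (Fin m)) then
    ∑ x ∈ cube I z, c (⟨I, hI⟩, x) else 0, ?_, ?_⟩
  · intro I x y hxy
    by_cases hI : I ∈ powersetCard f (univ : Finset (Fin m))
    · simp only [dif_pos hI, cube_congr hxy]
    · simp only [dif_neg hI]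
  · intro z
    have h3 : K (Pi.single z 1) = g z := by
      rw [hK]
      simp [Pi.single_apply]
    rw [← h3, ← hc]
    rw [LinearMap.sum_apply, ← Finset.sum_coe_sort (powersetCard f (univ : Finset (Fin m)))]
    rw [Fintype.sum_prod_type]
    refine Finset.sum_congr rfl fun I _ => ?_
    simp only [LinearMap.smul_apply, smul_eq_mul, hLf]
    rw [dif_pos I.2]
    have h4 : ∀ x : X m r, c (I, x) * ∑ z' ∈ cube (I : Finset (Fin m)) x, (Pi.single z (1 : ℝ) : X m r → ℝ) z' =
        if x ∈ cube (I : Finset (Fin m)) z then c (I, x) else 0 := by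
      intro x
      by_cases hx : x ∈ cube (I : Finset (Fin m)) z
      · rw [if_pos hx]
        have hx' := mem_cube_comm.1 hx
        simp [Pi.single_apply, hx']
      · rw [if_neg hx]
        have hx' : z ∉ cube (I : Finset (Fin m)) x := fun h => hx (mem_cube_comm.1 h)
        simp [Pi.single_apply, hx']
    rw [Finset.sum_congr rfl fun x _ => h4 x, ← Finset.sum_filter]
    congr 1
    ext x
    simp

end Crest.Agent.R63
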