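import Crest.Agent.R63.Defs

/-! ROW 63: numerics.  Th_le: Dn = #{alpha : zs alpha < f} <= sum_alpha exp(f - zs alpha) = e^f (2^r - 1 + e^-1)^m
(product formula over the m letters).  Th_le': 1 - x <= exp(-x), 1 - e^-1 >= 1/2.
Ball_le: choose the support S (card <= k, at most (m+1)^k <= (2m)^k ways, e.g. as the range of a map Fin k -> Option (Fin m))
and the letters on S (at most (2^r)^k ways): surjection from (Fin k -> Option (Fin m)) x (Fin k -> G r). -/

set_option autoImplicit false
open Finset MeasureTheory ProbabilityTheory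

namespace Crest.Agent.R63

private lemma N1_card_G (r : ℕ) : (Fintype.card (Fin r → ZMod 2) : ℝ) = 2 ^ r := by
  rw [Fintype.card_fun, ZMod.card, Fintype.card_fin]; push_cast; rfl

private lemma N1_exp_zs (m r : ℕ) (α : X m r) :
    Real.exp (-(zs α : ℝ)) = ∏ i, (if α i = 0 then Real.exp (-1) else 1) := by
  rw [Finset.prod_ite, Finset.prod_const, Finset.prod_const_one, mul_one, ← Real.exp_nat_mul]
  unfold zs
  congr 1
  ring

private lemma N1_sum_letter (r : ℕ) :
    ∑ a : Fin r → ZMod 2, (if a = 0 then Real.exp (-1) else 1) = 2 ^ r - (1 - Real.exp (-1)) := by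
  have h : ∀ a : Fin r → ZMod 2, (if a = 0 then Real.exp (-1) else 1)
      = 1 + (if a = 0 then Real.exp (-1) - 1 else 0) := by
    intro a; split_ifs <;> ring
  simp_rw [h]
  rw [Finset.sum_add_distrib, Finset.sum_ite_eq' Finset.univ (0 : Fin r → ZMod 2)]
  simp only [Finset.sum_const, Finset.card_univ, Finset.mem_univ, if_true, nsmul_eq_mul, mul_one]
  rw [N1_card_G]
  ring

/-- Chernoff bound -/
theorem Th_le (m r f : ℕ) : Th m r f ≤ Real.exp (f : ℝ) * (1 - (1 - Real.exp (-1)) / 2 ^ r) ^ m := by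
  have h1 : (Dn m r f : ℝ) ≤ ∑ α : X m r, Real.exp ((f : ℝ) - zs α) := by
    unfold Dn AA
    rw [Finset.card_filter]
    push_cast
    apply Finset.sum_le_sum
    intro α _
    split_ifs with h
    · apply Real.one_le_exp
      have : (zs α : ℝ) < f := by exact_mod_cast h
      linarith
    · exact (Real.exp_pos _).le
  have h2 : ∑ α : X m r, Real.exp ((f : ℝ) - zs α)
      = Real.exp (f : ℝ) * (2 ^ r - (1 - Real.exp (-1))) ^ m := by
    have h3 : ∀ α : X m r, Real.exp ((f : ℝ) - zs α)
        = Real.exp (f : ℝ) * ∏ i, (if α i = 0 then Real.exp (-1) else 1) := by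
      intro α
      rw [← N1_exp_zs, ← Real.exp_add]
      congr 1
    simp_rw [h3]
    rw [← Finset.mul_sum, ← N1_sum_letter, Fintype.sum_pow]
  unfold Th
  rw [h2] at h1
  have hq : (0 : ℝ) < 2 ^ r := by positivity
  have h4 : (1 - (1 - Real.exp (-1)) / 2 ^ r) ^ m * (2 : ℝ) ^ (r * m)
      = (2 ^ r - (1 - Real.exp (-1))) ^ m := by
    rw [pow_mul, ← mul_pow]
    congr 1
    field_simp
  rw [div_le_iff₀ (by positivity), mul_assoc, h4]
  exact h1

theorem Th_le' (m r f : ℕ) : Th m r f ≤ Real.exp ((f : ℝ) - (m : ℝ) / 2 ^ (r + 1)) := by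
  refine (Th_le m r f).trans ?_
  have he : Real.exp (-1) ≤ 1 / 2 := by
    rw [Real.exp_neg, inv_eq_one_div]
    apply one_div_le_one_div_of_le (by norm_num)
    have := Real.exp_one_gt_d9
    linarith
  have he0 := Real.exp_pos (-1)
  have hq : (1 : ℝ) ≤ 2 ^ r := one_le_pow₀ (by norm_num)
  have hx1 : (1 - Real.exp (-1)) / 2 ^ r ≤ 1 := by
    rw [div_le_one (by positivity)]
    linarith
  have hx2 : 1 / 2 ^ (r + 1) ≤ (1 - Real.exp (-1)) / 2 ^ r := by
    rw [pow_succ, div_le_div_iff₀ (by positivity) (by positivity)]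
    nlinarith
  have h1 : (1 - (1 - Real.exp (-1)) / 2 ^ r) ^ m ≤ Real.exp (-((m : ℝ) / 2 ^ (r + 1))) := by
    have h2 : 1 - (1 - Real.exp (-1)) / 2 ^ r ≤ Real.exp (-(1 / 2 ^ (r + 1))) := by
      have := Real.add_one_le_exp (-(1 / (2 : ℝ) ^ (r + 1)))
      linarith
    calc (1 - (1 - Real.exp (-1)) / 2 ^ r) ^ m ≤ (Real.exp (-(1 / 2 ^ (r + 1)))) ^ m :=
          pow_le_pow_left₀ (by linarith) h2 m
      _ = Real.exp (-((m : ℝ) / 2 ^ (r + 1))) := by
          rw [← Real.exp_nat_mul]
          congr 1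
          ring
  have h3 : Real.exp ((f : ℝ) - (m : ℝ) / 2 ^ (r + 1))
      = Real.exp (f : ℝ) * Real.exp (-((m : ℝ) / 2 ^ (r + 1))) := by
    rw [← Real.exp_add]
    congr 1
  rw [h3]
  exact mul_le_mul_of_nonneg_left h1 (Real.exp_pos _).le

private lemma N1_ball_succ (m r k : ℕ) (hm : 1 ≤ m) :
    Ball m r (k + 1) ≤ Ball m r k * (m * 2 ^ r) := by
  classical
  unfold Ball
  have hsub : (univ.filter fun z : X m r => hammingDist z 0 ≤ k + 1) ⊆
      ((univ.filter fun z : X m r => hammingDist z 0 ≤ k) ×ˢ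
        ((univ : Finset (Fin m)) ×ˢ (univ : Finset (Fin r → ZMod 2)))).image
        (fun p => Function.update p.1 p.2.1 p.2.2) := by
    intro z hz
    rw [Finset.mem_filter] at hz
    rw [Finset.mem_image]
    by_cases h0 : z = 0
    · refine ⟨(z, (⟨0, by omega⟩, z ⟨0, by omega⟩)), ?_, ?_⟩
      · simp [h0]
      · simp
    · obtain ⟨i, hi⟩ : ∃ i, z i ≠ 0 := by
        by_contra hcon
        push Not at hcon
        exact h0 (funext hcon)
      refine ⟨(Function.update z i 0, (i, z i)), ?_, ?_⟩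
      · simp only [Finset.mem_product, Finset.mem_filter, Finset.mem_univ, true_and, and_true]
        have hlt : hammingDist (Function.update z i 0) 0 < hammingDist z 0 := by
          unfold hammingDist
          apply Finset.card_lt_card
          rw [Finset.ssubset_iff_of_subset]
          · refine ⟨i, ?_, ?_⟩
            · simpa using hi
            · simp
          · intro j hj
            simp only [Finset.mem_filter, Finset.mem_univ, true_and] at hj ⊢
            by_cases hji : j = i
            · subst hji; exact hi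
            · rwa [Function.update_of_ne hji] at hj
        omega
      · simp
  calc _ ≤ _ := Finset.card_le_card hsub
    _ ≤ _ := Finset.card_image_le
    _ = _ := by
      rw [Finset.card_product, Finset.card_product, Finset.card_univ, Finset.card_univ,
        Fintype.card_fin, Fintype.card_fun, ZMod.card, Fintype.card_fin]

theorem Ball_le (m r k : ℕ) (hm : 1 ≤ m) : (Ball m r k : ℝ) ≤ ((2 * m : ℕ) : ℝ) ^ k * 2 ^ (r * k) := by
  have h : Ball m r k ≤ (2 * m) ^ k * 2 ^ (r * k) := by
    induction k with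
    | zero =>
      unfold Ball
      simp [Finset.filter_eq']
    | succ k ih =>
      calc Ball m r (k + 1) ≤ Ball m r k * (m * 2 ^ r) := N1_ball_succ m r k hm
        _ ≤ ((2 * m) ^ k * 2 ^ (r * k)) * ((2 * m) * 2 ^ r) :=
            Nat.mul_le_mul ih (Nat.mul_le_mul (by omega) le_rfl)
        _ = (2 * m) ^ (k + 1) * 2 ^ (r * (k + 1)) := by ring
  exact_mod_cast h

end Crest.Agent.R63
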