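import Crest.Agent.R63.P4

/-! ROW 63, module P: collects P1 .. P4. -/
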