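import Crest.Agent.R63.Chi

/-! ROW 63, module P: exists_P.  PROOF: let v x = 1/2^(j+1) - P1 x on U j (|v| <= 1), 0 elsewhere, Z = complement of the union.
By hs, sum_U |w| <= d/(1-d) sum_Z |w| <= 2 d sum_Z |w| for w in W.  The linear functional
phi(w) = - sum_U v w on the space W restricted to Z (well defined: w = 0 on Z gives w = 0 on U) satisfies
|phi(w)| <= 2 d sum_Z |w|.  Hahn-Banach (e.g. `exists_extension_of_le_sublinear`, with the sublinear
function N(g) = 2 d sum_{x in Z} |g x| on X -> R (or Z -> R)) extends it to g |-> sum_{x in Z} u x g x,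
testing on coordinate vectors gives |u x| <= 2 d on Z.  P = P1 + v on U, P1 + u on Z. -/

set_option autoImplicit false
open Finset

namespace Crest.Agent.R63

/-- B3 (Hahn-Banach in l1 of the complement of U) -/
theorem exists_P {m r f J : ℕ} (hf : f ≤ m) (U : Fin J → Finset (X m r)) (δ : ℝ) (hδ : 0 < δ)
    (hδ1 : δ ≤ 1 / 2) (hU : ∀ j k, j ≠ k → Disjoint (U j) (U k))
    (hs : ∀ w : X m r → ℝ, IsW f w → ∑ j, ∑ x ∈ U j, |w x| ≤ δ * ∑ x, |w x|)
    (P1 : X m r → ℝ) (hP1 : IsL f P1) (h01 : ∀ x, 0 ≤ P1 x ∧ P1 x ≤ 1) :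
    ∃ P : X m r → ℝ, IsL f P ∧ (∀ j, ∀ x ∈ U j, P x = 1 / 2 ^ ((j : ℕ) + 1)) ∧
      ∀ x, (∀ j, x ∉ U j) → |P x - P1 x| ≤ 2 * δ := by
  classical
  set UU : Finset (X m r) := univ.biUnion U with hUU
  have hmem : ∀ x, x ∈ UU ↔ ∃ j, x ∈ U j := fun x => by
    rw [hUU, Finset.mem_biUnion]
    exact ⟨fun ⟨j, _, hj⟩ => ⟨j, hj⟩, fun ⟨j, hj⟩ => ⟨j, Finset.mem_univ j, hj⟩⟩
  let v : X m r → ℝ := fun x =>
    if h : ∃ j, x ∈ U j then 1 / 2 ^ ((h.choose : ℕ) + 1) - P1 x else 0
  have hv : ∀ j, ∀ x ∈ U j, v x = 1 / 2 ^ ((j : ℕ) + 1) - P1 x := by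
    intro j x hx
    have h : ∃ j, x ∈ U j := ⟨j, hx⟩
    have hj : h.choose = j := by
      by_contra hne
      exact Finset.disjoint_left.1 (hU _ _ hne) h.choose_spec hx
    have e : v x = 1 / 2 ^ ((h.choose : ℕ) + 1) - P1 x := dif_pos h
    rw [e, hj]
  have hv1 : ∀ x, |v x| ≤ 1 := by
    intro x
    by_cases h : ∃ j, x ∈ U j
    · obtain ⟨j, hj⟩ := h
      rw [hv j x hj, abs_le]
      have h1 : (0 : ℝ) < 1 / 2 ^ ((j : ℕ) + 1) := by positivity
      have h2 : (1 : ℝ) / 2 ^ ((j : ℕ) + 1) ≤ 1 := by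
        rw [div_le_one (by positivity)]
        exact one_le_pow₀ (by norm_num)
      have h3 := h01 x
      constructor
      · linarith [h3.2]
      · linarith [h3.1]
    · have e : v x = 0 := dif_neg h
      rw [e]
      simp
  have hsplit : ∀ w : X m r → ℝ, ∑ x, w x = ∑ x ∈ UU, w x + ∑ x ∈ UUᶜ, w x := fun w =>
    (Finset.sum_add_sum_compl UU w).symm
  have hsum : ∀ w, IsW f w → ∑ x ∈ UU, |w x| ≤ 2 * δ * ∑ x ∈ UUᶜ, |w x| := by
    intro w hw
    have h1 := hs w hw
    have h2 : ∑ j, ∑ x ∈ U j, |w x| = ∑ x ∈ UU, |w x| := by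
      rw [hUU, Finset.sum_biUnion]
      intro j _ k _ hjk
      exact hU j k hjk
    rw [h2, hsplit fun x => |w x|] at h1
    have h3 : 0 ≤ ∑ x ∈ UU, |w x| := Finset.sum_nonneg fun _ _ => abs_nonneg _
    nlinarith
  let φ : (X m r → ℝ) →ₗ[ℝ] ℝ :=
    { toFun := fun w => - ∑ x ∈ UU, v x * w x
      map_add' := fun a b => by
        simp only [Pi.add_apply, mul_add, Finset.sum_add_distrib]
        ring
      map_smul' := fun c a => by
        simp only [Pi.smul_apply, smul_eq_mul, RingHom.id_apply]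
        rw [mul_neg, Finset.mul_sum]
        congr 1
        exact Finset.sum_congr rfl fun x _ => by ring }
  have hφ : ∀ w, φ w = - ∑ x ∈ UU, v x * w x := fun w => rfl
  let W : Submodule ℝ (X m r → ℝ) :=
    { carrier := {w | IsW f w}
      add_mem' := fun {a b} ha hb I hI x => by
        have h1 := ha I hI x
        have h2 := hb I hI x
        simp only [Pi.add_apply, Finset.sum_add_distrib]
        rw [h1, h2, add_zero]
      zero_mem' := fun I _ x => by simp
      smul_mem' := fun c a ha I hI x => by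
        have h1 := ha I hI x
        simp only [Pi.smul_apply, smul_eq_mul]
        rw [← Finset.mul_sum, h1, mul_zero] }
  obtain ⟨g, hg1, hg2⟩ := exists_extension_of_le_sublinear (φ.toPMap W)
    (fun g => 2 * δ * ∑ x ∈ UUᶜ, |g x|)
    (fun c hc x => by
      simp only [Pi.smul_apply, smul_eq_mul, abs_mul, abs_of_pos hc]
      rw [← Finset.mul_sum]
      ring)
    (fun x y => by
      rw [← mul_add, ← Finset.sum_add_distrib]
      refine mul_le_mul_of_nonneg_left (Finset.sum_le_sum fun z _ => ?_) (by positivity)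
      exact abs_add_le _ _)
    (fun w => by
      have hw : IsW f (w : X m r → ℝ) := w.2
      have e : (φ.toPMap W) w = φ (w : X m r → ℝ) := rfl
      rw [e, hφ]
      refine le_trans ?_ (hsum _ hw)
      rw [← Finset.sum_neg_distrib]
      refine Finset.sum_le_sum fun x _ => ?_
      calc -(v x * (w : X m r → ℝ) x) ≤ |v x * (w : X m r → ℝ) x| := neg_le_abs _
        _ = |v x| * |(w : X m r → ℝ) x| := abs_mul _ _
        _ ≤ 1 * |(w : X m r → ℝ) x| := mul_le_mul_of_nonneg_right (hv1 x) (abs_nonneg _)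
        _ = _ := one_mul _)
  have hN : ∀ (x : X m r) (c : ℝ), ∑ y ∈ UUᶜ, |(Pi.single x c : X m r → ℝ) y| =
      if x ∈ UU then 0 else |c| := by
    intro x c
    have h1 : ∀ y, |(Pi.single x c : X m r → ℝ) y| = if y = x then |c| else 0 := by
      intro y
      rw [Pi.single_apply]
      split_ifs <;> simp
    simp only [h1]
    rw [Finset.sum_ite_eq']
    by_cases hx : x ∈ UU
    · rw [if_pos hx, if_neg (by simpa using hx)]
    · rw [if_neg hx, if_pos (by simpa using hx)]
  let u : X m r → ℝ := fun x => if x ∈ UU then v x else g (Pi.single x 1)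
  have hgU : ∀ x ∈ UU, g (Pi.single x 1) = 0 := by
    intro x hx
    have h1 := hg2 (Pi.single x 1)
    have h2 := hg2 (Pi.single x (-1))
    simp only [hN, if_pos hx, mul_zero] at h1 h2
    have h3 : (Pi.single x (-1) : X m r → ℝ) = -(Pi.single x 1) := by
      rw [← Pi.single_neg]
    rw [h3, map_neg] at h2
    linarith
  have hgZ : ∀ x, x ∉ UU → |g (Pi.single x 1)| ≤ 2 * δ := by
    intro x hx
    have h1 := hg2 (Pi.single x 1)
    have h2 := hg2 (Pi.single x (-1))
    simp only [hN, if_neg hx, abs_neg, abs_one, mul_one] at h1 h2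
    have h3 : (Pi.single x (-1) : X m r → ℝ) = -(Pi.single x 1) := by
      rw [← Pi.single_neg]
    rw [h3, map_neg] at h2
    rw [abs_le]
    constructor <;> linarith
  have hgw : ∀ w : X m r → ℝ, g w = ∑ x, g (Pi.single x 1) * w x := by
    intro w
    have h1 : w = ∑ x, w x • (Pi.single x (1 : ℝ) : X m r → ℝ) := by
      funext y
      rw [Finset.sum_apply]
      simp only [Pi.smul_apply, smul_eq_mul, Pi.single_apply, mul_ite, mul_one, mul_zero]
      rw [Finset.sum_ite_eq]
      simp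
    conv_lhs => rw [h1]
    rw [map_sum]
    refine Finset.sum_congr rfl fun x _ => ?_
    rw [map_smul, smul_eq_mul, mul_comm]
  refine ⟨fun x => P1 x + u x, ?_, ?_, ?_⟩
  · intro w hw
    have h1 : ∑ x, (P1 x + u x) * w x = ∑ x, P1 x * w x + ∑ x, u x * w x := by
      rw [← Finset.sum_add_distrib]
      exact Finset.sum_congr rfl fun x _ => by ring
    rw [h1, hP1 w hw, zero_add, hsplit fun x => u x * w x]
    have h2 : ∑ x ∈ UU, u x * w x = ∑ x ∈ UU, v x * w x :=
      Finset.sum_congr rfl fun x hx => by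
        have : u x = v x := if_pos hx
        rw [this]
    have h3 : ∑ x ∈ UUᶜ, u x * w x = g w := by
      rw [hgw w, hsplit fun x => g (Pi.single x 1) * w x]
      have h4 : ∑ x ∈ UU, g (Pi.single x 1) * w x = 0 :=
        Finset.sum_eq_zero fun x hx => by rw [hgU x hx, zero_mul]
      rw [h4, zero_add]
      refine Finset.sum_congr rfl fun x hx => ?_
      rw [Finset.mem_compl] at hx
      have : u x = g (Pi.single x 1) := if_neg hx
      rw [this]
    have h5 : g w = φ w := hg1 ⟨w, hw⟩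
    rw [h2, h3, h5, hφ]
    ring
  · intro j x hx
    have h1 : u x = v x := if_pos ((hmem x).2 ⟨j, hx⟩)
    show P1 x + u x = _
    rw [h1, hv j x hx]
    ring
  · intro x hx
    have h1 : x ∉ UU := fun h => by
      obtain ⟨j, hj⟩ := (hmem x).1 h
      exact hx j hj
    have h2 : u x = g (Pi.single x 1) := if_neg h1
    show |P1 x + u x - P1 x| ≤ _
    rw [add_sub_cancel_left, h2]
    exact hgZ x h1


end Crest.Agent.R63
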