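import Crest.Agent.R63.Chi

/-! ROW 63, module P: exists_MJ.  PROOF: junta_of_isL (Ch7): P x = sum_{I in powersetCard (m-f)} h I x, h I depends only on
the coordinates in I.  M' x = sum_I floor(2^J h I x) (IsL by isL_of_dep), r x = 2^J P x - M' x = sum_I fract,
0 <= r x < m.choose f (m.choose (m-f) = m.choose f), and on U j the number r x is an integer R x >= 0 (j+1 <= J).
Choose I0 with card f; M = M' + sum_{u in union U} R u * 1_{cube I0 u} (IsL by isL_cube).  Points of the union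
are at Hamming distance > 2 f, so a point x lies in at most one cube I0 u (two such cubes through x would
give hammingDist u u' <= 2 f; in fact <= f), and u' in cube I0 u only for u' = u. -/

set_option autoImplicit false
open Finset

namespace Crest.Agent.R63

lemma P2_isL_sum {m r f : ℕ} {ι : Type*} (s : Finset ι) (g : ι → X m r → ℝ)
    (h : ∀ i ∈ s, IsL f (g i)) : IsL f (fun x => ∑ i ∈ s, g i x) := by
  intro w hw
  have h1 : ∀ x, (∑ i ∈ s, g i x) * w x = ∑ i ∈ s, g i x * w x := fun x => Finset.sum_mul _ _ _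
  rw [Finset.sum_congr rfl fun x _ => h1 x, Finset.sum_comm]
  exact Finset.sum_eq_zero fun i hi => h i hi w hw

lemma P2_isL_smul {m r f : ℕ} (c : ℝ) (g : X m r → ℝ) (h : IsL f g) :
    IsL f (fun x => c * g x) := by
  intro w hw
  have h1 : ∀ x, (c * g x) * w x = c * (g x * w x) := fun x => mul_assoc _ _ _
  rw [Finset.sum_congr rfl fun x _ => h1 x, ← Finset.mul_sum, h w hw, mul_zero]

lemma P2_dist {m r : ℕ} (I : Finset (Fin m)) (u v : X m r) (h : ∀ i, i ∉ I → u i = v i) :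
    hammingDist u v ≤ I.card := by
  unfold hammingDist
  apply Finset.card_le_card
  intro i hi
  by_contra hn
  exact (Finset.mem_filter.1 hi).2 (h i hn)

/-- B3': integral version -/
theorem exists_MJ {m r f J : ℕ} (hf : f ≤ m) (U : Fin J → Finset (X m r))
    (hU : ∀ j k, j ≠ k → Disjoint (U j) (U k))
    (hd : ∀ j k x y, x ∈ U j → y ∈ U k → x ≠ y → 2 * f < hammingDist x y)
    (P : X m r → ℝ) (hP : IsL f P) (hPU : ∀ j, ∀ x ∈ U j, P x = 1 / 2 ^ ((j : ℕ) + 1)) :
    ∃ M : X m r → ℤ, IsL f (fun x => (M x : ℝ)) ∧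
      (∀ j, ∀ x ∈ U j, M x = 2 ^ (J - ((j : ℕ) + 1))) ∧
      ∀ x, (∀ j, x ∉ U j) → |(M x : ℝ) - 2 ^ J * P x| ≤ (m.choose f : ℝ) := by
  classical
  obtain ⟨h, hdep, hsum⟩ := junta_of_isL hf P hP
  -- the floor part
  obtain ⟨M', hM'⟩ : ∃ M' : X m r → ℤ, ∀ x, M' x = ∑ I ∈ powersetCard (m - f) univ, ⌊2 ^ J * h I x⌋ :=
    ⟨_, fun x => rfl⟩
  have hM'L : IsL f (fun x => (M' x : ℝ)) := by
    have h1 : (fun x => (M' x : ℝ)) =
        fun x => ∑ I ∈ powersetCard (m - f) univ, ((⌊2 ^ J * h I x⌋ : ℤ) : ℝ) := by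
      funext x
      rw [hM' x]
      push_cast
      rfl
    rw [h1]
    refine P2_isL_sum _ (fun I x => ((⌊2 ^ J * h I x⌋ : ℤ) : ℝ)) fun I hI => ?_
    refine isL_of_dep hf I (Finset.mem_powersetCard.1 hI).2 _ fun x y hxy => ?_
    rw [hdep I x y hxy]
  have hr : ∀ x, 2 ^ J * P x - (M' x : ℝ) =
      ∑ I ∈ powersetCard (m - f) univ, Int.fract (2 ^ J * h I x) := by
    intro x
    rw [hM' x, hsum x, Finset.mul_sum]
    push_cast
    rw [← Finset.sum_sub_distrib]
    rfl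
  have hr0 : ∀ x, 0 ≤ 2 ^ J * P x - (M' x : ℝ) := by
    intro x
    rw [hr x]
    exact Finset.sum_nonneg fun I _ => Int.fract_nonneg _
  have hr1 : ∀ x, 2 ^ J * P x - (M' x : ℝ) ≤ (m.choose f : ℝ) := by
    intro x
    rw [hr x]
    have h1 : ∑ I ∈ powersetCard (m - f) (univ : Finset (Fin m)), Int.fract (2 ^ J * h I x) ≤
        ∑ I ∈ powersetCard (m - f) (univ : Finset (Fin m)), (1 : ℝ) :=
      Finset.sum_le_sum fun I _ => (Int.fract_lt_one _).le
    rw [Finset.sum_const, Finset.card_powersetCard, Finset.card_univ, Fintype.card_fin,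
      Nat.choose_symm hf, nsmul_eq_mul, mul_one] at h1
    exact h1
  -- the integer value of 2^J P on the sets
  have hval : ∀ j : Fin J, ∀ x ∈ U j, 2 ^ J * P x = ((2 ^ (J - ((j : ℕ) + 1)) : ℤ) : ℝ) := by
    intro j x hx
    rw [hPU j x hx]
    push_cast
    have h1 : (2 : ℝ) ^ J = 2 ^ (J - ((j : ℕ) + 1)) * 2 ^ ((j : ℕ) + 1) := by
      rw [← pow_add]
      congr 1
      have := j.2
      omega
    rw [h1]
    field_simp
  obtain ⟨I0, -, hI0⟩ := Finset.exists_subset_card_eq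
    (show f ≤ (Finset.univ : Finset (Fin m)).card by simpa using hf)
  obtain ⟨R, hR⟩ : ∃ R : X m r → ℤ, ∀ u, R u = ⌊2 ^ J * P u⌋ - M' u := ⟨_, fun u => rfl⟩
  obtain ⟨UU, hUU⟩ : ∃ UU : Finset (X m r), UU = Finset.univ.biUnion U := ⟨_, rfl⟩
  have hmem : ∀ u, u ∈ UU ↔ ∃ j, u ∈ U j := by
    intro u
    rw [hUU]
    simp
  have hRR : ∀ u ∈ UU, (R u : ℝ) = 2 ^ J * P u - (M' u : ℝ) := by
    intro u hu
    obtain ⟨j, hj⟩ := (hmem u).1 hu
    rw [hR u, hval j u hj, Int.floor_intCast]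
    push_cast
    ring
  have hsep : ∀ x u v, u ∈ UU → v ∈ UU → x ∈ cube I0 u → x ∈ cube I0 v → u = v := by
    intro x u v hu hv hxu hxv
    by_contra hne
    obtain ⟨j, hj⟩ := (hmem u).1 hu
    obtain ⟨k, hk⟩ := (hmem v).1 hv
    have h1 := hd j k u v hj hk hne
    have h2 : hammingDist u v ≤ I0.card := by
      apply P2_dist
      intro i hi
      rw [← (Finset.mem_filter.1 hxu).2 i hi, ← (Finset.mem_filter.1 hxv).2 i hi]
    rw [hI0] at h2
    omega
  have hself : ∀ u : X m r, u ∈ cube I0 u := by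
    intro u
    exact Finset.mem_filter.2 ⟨Finset.mem_univ _, fun i _ => rfl⟩
  refine ⟨fun x => M' x + ∑ u ∈ UU, R u * (if x ∈ cube I0 u then 1 else 0), ?_, ?_, ?_⟩
  · have h1 : IsL f (fun x => ∑ u ∈ UU, (R u : ℝ) * (if x ∈ cube I0 u then (1 : ℝ) else 0)) :=
      P2_isL_sum _ (fun u x => (R u : ℝ) * (if x ∈ cube I0 u then (1 : ℝ) else 0))
        fun u _ => P2_isL_smul _ _ (isL_cube I0 hI0 u)
    have h2 := isL_add _ _ hM'L h1
    have h3 : (fun x => (((M' x + ∑ u ∈ UU, R u * (if x ∈ cube I0 u then 1 else 0) : ℤ)) : ℝ)) =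
        fun x => (M' x : ℝ) + ∑ u ∈ UU, (R u : ℝ) * (if x ∈ cube I0 u then (1 : ℝ) else 0) := by
      funext x
      push_cast
      rfl
    rw [h3]
    exact h2
  · intro j x hx
    have hxU : x ∈ UU := (hmem x).2 ⟨j, hx⟩
    have h1 : ∑ u ∈ UU, R u * (if x ∈ cube I0 u then 1 else 0) = R x := by
      rw [Finset.sum_eq_single x]
      · rw [if_pos (hself x), mul_one]
      · intro u hu hne
        rw [if_neg, mul_zero]
        intro hxu
        exact hne (hsep x u x hu hxU hxu (hself x))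
      · intro hn
        exact absurd hxU hn
    show M' x + ∑ u ∈ UU, R u * (if x ∈ cube I0 u then 1 else 0) = _
    rw [h1, hR x, hval j x hx, Int.floor_intCast]
    ring
  · intro x hx
    have hS : 0 ≤ ∑ u ∈ UU, (R u : ℝ) * (if x ∈ cube I0 u then (1 : ℝ) else 0) ∧
        ∑ u ∈ UU, (R u : ℝ) * (if x ∈ cube I0 u then (1 : ℝ) else 0) ≤ (m.choose f : ℝ) := by
      by_cases hex : ∃ u ∈ UU, x ∈ cube I0 u
      · obtain ⟨u, hu, hxu⟩ := hex
        rw [Finset.sum_eq_single u]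
        · rw [if_pos hxu, mul_one, hRR u hu]
          exact ⟨hr0 u, hr1 u⟩
        · intro v hv hne
          rw [if_neg, mul_zero]
          intro hxv
          exact hne (hsep x v u hv hu hxv hxu)
        · intro hn
          exact absurd hu hn
      · push Not at hex
        rw [Finset.sum_eq_zero]
        · exact ⟨le_refl _, Nat.cast_nonneg _⟩
        · intro u hu
          rw [if_neg (hex u hu), mul_zero]
    have h3 : (((M' x + ∑ u ∈ UU, R u * (if x ∈ cube I0 u then 1 else 0) : ℤ)) : ℝ) =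
        (M' x : ℝ) + ∑ u ∈ UU, (R u : ℝ) * (if x ∈ cube I0 u then (1 : ℝ) else 0) := by
      push_cast
      rfl
    show |(((M' x + ∑ u ∈ UU, R u * (if x ∈ cube I0 u then 1 else 0) : ℤ)) : ℝ) - 2 ^ J * P x| ≤ _
    rw [h3, abs_le]
    have h4 := hr0 x
    have h5 := hr1 x
    constructor <;> linarith [hS.1, hS.2]

end Crest.Agent.R63
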