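import Crest.Agent.R63.Chi
import Crest.Agent.R63.H0

/-! ROW 63, module P: halving.  PROOF: induction k = J, J-1, .., 0: there are integer functions M_k with IsL, M_k x = 2^(k-(j+1)) on
U j for j+1 <= k, sum phi M <= 2^(J-k) sum phi M_k, and |M_k x - M x/2^(J-k)| <= 1 - 1/2^(J-k).
Step k -> k-1 : the points of U (k-1) are odd (value 1), so `stage` applies with hG restricted
(the sum over the odd points is >= the sum over U (k-1)); e = output, s = +1 or -1 with s * sum phi e >= 0,
M_{k-1} = (M_k + s e)/2 (exact division; on U j, j+1 <= k-1, M_k is even, e = 0).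
At k = 0: |M_0 - M/2^J| < 1 and 0 <= M/2^J <= 9/10 give M_0 in {0,1}. -/

set_option autoImplicit false
open Finset

namespace Crest.Agent.R63

/-- B4: the halving process -/
theorem halving {m r f J : ℕ} (hf : f ≤ m) (hn : 1 ≤ r * m) (δ0 η : ℝ)
    (hδ0 : δ0 = 1 / (200 * 2 ^ (r * f))) (hη : 0 < η) (hη1 : η ≤ 1)
    (hnum : Th m r f * 2 ^ 22 * ((r * m : ℕ) : ℝ) ^ 3 ≤ η * δ0 ^ 2)
    (U : Fin J → Finset (X m r))
    (hG : ∀ j (w : X m r → ℝ), IsW f w → (∃ x, δ0 ≤ nrm (w x)) →
        η * En w ≤ ∑ x ∈ U j, nrm (w x) ^ 2)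
    (M : X m r → ℤ) (hM : IsL f (fun x => (M x : ℝ)))
    (hMU : ∀ j, ∀ x ∈ U j, M x = 2 ^ (J - ((j : ℕ) + 1)))
    (hM0 : ∀ x, 0 ≤ M x) (hM1 : ∀ x, (M x : ℝ) ≤ 2 ^ J * (9 / 10))
    (φ : X m r → ℝ) :
    ∃ c : X m r → ℤ, IsL f (fun x => (c x : ℝ)) ∧ (∀ x, c x = 0 ∨ c x = 1) ∧
      ∑ x, φ x * M x ≤ 2 ^ J * ∑ x, φ x * c x := by
  have key : ∀ t : ℕ, t ≤ J → ∃ Mt : X m r → ℤ, IsL f (fun x => (Mt x : ℝ)) ∧
      (∀ j : Fin J, (j : ℕ) + 1 ≤ J - t → ∀ x ∈ U j, Mt x = 2 ^ (J - t - ((j : ℕ) + 1))) ∧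
      (∑ x, φ x * M x ≤ 2 ^ t * ∑ x, φ x * Mt x) ∧
      (∀ x, |(Mt x : ℝ) - M x / 2 ^ t| ≤ 1 - 1 / 2 ^ t) := by
    intro t
    induction t with
    | zero =>
      intro _
      refine ⟨M, hM, ?_, ?_, ?_⟩
      · intro j _ x hx
        exact hMU j x hx
      · simp
      · intro x; simp
    | succ t ih =>
      intro ht
      obtain ⟨Mt, hL, hU, hφ, habs⟩ := ih (by omega)
      have hj0 : J - t - 1 < J := by omega
      set j0 : Fin J := ⟨J - t - 1, hj0⟩ with hj0def
      have hj0v : (j0 : ℕ) = J - t - 1 := rfl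
      have hone : ∀ x ∈ U j0, Mt x = 1 := by
        intro x hx
        have h := hU j0 (by rw [hj0v]; omega) x hx
        rw [hj0v] at h
        have e : J - t - (J - t - 1 + 1) = 0 := by omega
        rw [e, pow_zero] at h
        exact h
      obtain ⟨e, heL, he⟩ := stage hf hn δ0 η hδ0 hη hη1 hnum Mt hL (by
        intro w hw hx
        refine (hG j0 w hw hx).trans ?_
        refine sum_le_sum_of_subset_of_nonneg ?_ (fun _ _ _ => sq_nonneg _)
        intro x hx
        rw [mem_filter]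
        refine ⟨mem_univ _, ?_⟩
        rw [hone x hx]
        exact odd_one)
      obtain ⟨s, hs, hsφ⟩ : ∃ s : ℤ, (s = 1 ∨ s = -1) ∧ 0 ≤ (s : ℝ) * ∑ x, φ x * e x := by
        rcases le_total 0 (∑ x, φ x * (e x : ℝ)) with h | h
        · exact ⟨1, Or.inl rfl, by simpa using h⟩
        · exact ⟨-1, Or.inr rfl, by push_cast; linarith⟩
      have hdiv : ∀ x, ∃ c : ℤ, Mt x + s * e x = 2 * c := by
        intro x
        by_cases hodd : Odd (Mt x)
        · obtain ⟨k, hk⟩ := hodd
          rcases (he x).1 ⟨k, hk⟩ with h | h <;> rcases hs with h' | h' <;> rw [hk, h, h']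
          · exact ⟨k + 1, by ring⟩
          · exact ⟨k, by ring⟩
          · exact ⟨k, by ring⟩
          · exact ⟨k + 1, by ring⟩
        · have h0 := (he x).2 hodd
          rw [Int.not_odd_iff_even] at hodd
          obtain ⟨k, hk⟩ := hodd
          exact ⟨k, by rw [h0, hk]; ring⟩
      choose M' hM' using hdiv
      have hM'r : ∀ x, (M' x : ℝ) = (Mt x + s * e x) / 2 := by
        intro x
        have h := hM' x
        have h' : ((Mt x + s * e x : ℤ) : ℝ) = ((2 * M' x : ℤ) : ℝ) := by rw [h]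
        push_cast at h'
        linarith
      have hsabs : |(s : ℝ)| = 1 := by
        rcases hs with h | h <;> rw [h] <;> simp
      have heabs : ∀ x, |(e x : ℝ)| ≤ 1 := by
        intro x
        by_cases hodd : Odd (Mt x)
        · rcases (he x).1 hodd with h | h <;> rw [h] <;> simp
        · rw [(he x).2 hodd]; simp
      refine ⟨M', ?_, ?_, ?_, ?_⟩
      · intro w hw
        have h1 := hL w hw
        have h2 := heL w hw
        simp only at h1 h2 ⊢
        have : ∑ x, (M' x : ℝ) * w x = (∑ x, (Mt x : ℝ) * w x) / 2 +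
            (s : ℝ) / 2 * ∑ x, (e x : ℝ) * w x := by
          rw [sum_div, mul_sum, ← sum_add_distrib]
          refine sum_congr rfl fun x _ => ?_
          rw [hM'r]; ring
        rw [this, h1, h2]; simp
      · intro j hj x hx
        have h := hU j (by omega) x hx
        have e2 : J - t - ((j : ℕ) + 1) = (J - (t + 1) - ((j : ℕ) + 1)) + 1 := by omega
        rw [e2, pow_succ] at h
        have hev : ¬ Odd (Mt x) := by
          rw [Int.not_odd_iff_even, h]
          exact even_two.mul_left _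
        have h0 := (he x).2 hev
        have h3 := hM' x
        rw [h0, h] at h3
        linarith
      · refine hφ.trans ?_
        have : ∑ x, φ x * (Mt x : ℝ) = 2 * ∑ x, φ x * (M' x : ℝ) - (s : ℝ) * ∑ x, φ x * (e x : ℝ) := by
          rw [mul_sum, mul_sum, ← sum_sub_distrib]
          refine sum_congr rfl fun x _ => ?_
          rw [hM'r]; ring
        rw [this, pow_succ]
        have h2t : (0 : ℝ) < 2 ^ t := by positivity
        nlinarith [mul_nonneg h2t.le hsφ]
      · intro x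
        have h2t : (0 : ℝ) < 2 ^ t := by positivity
        have e3 : (M' x : ℝ) - M x / 2 ^ (t + 1) = ((Mt x : ℝ) - M x / 2 ^ t) / 2 + s * e x / 2 := by
          rw [hM'r, pow_succ]
          field_simp
          ring
        rw [e3]
        have h4 : |(s : ℝ) * e x / 2| ≤ 1 / 2 := by
          rw [abs_div, abs_mul, hsabs, one_mul, abs_two]
          linarith [heabs x]
        have h5 : |((Mt x : ℝ) - M x / 2 ^ t) / 2| ≤ (1 - 1 / 2 ^ t) / 2 := by
          rw [abs_div, abs_two]
          linarith [habs x]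
        refine (abs_add_le _ _).trans ((add_le_add h5 h4).trans (le_of_eq ?_))
        rw [pow_succ]
        field_simp
        ring
  obtain ⟨c, hL, -, hφ, habs⟩ := key J le_rfl
  refine ⟨c, hL, ?_, hφ⟩
  intro x
  have h2J : (0 : ℝ) < 2 ^ J := by positivity
  have h := abs_le.1 (habs x)
  have h0 : (0 : ℝ) ≤ M x / 2 ^ J := div_nonneg (by exact_mod_cast hM0 x) h2J.le
  have h1 : (M x : ℝ) / 2 ^ J ≤ 9 / 10 := by
    rw [div_le_iff₀ h2J]
    linarith [hM1 x]
  have h3 : (0 : ℝ) < 1 / 2 ^ J := by positivity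
  have hlo : (-1 : ℝ) < c x := by linarith [h.1]
  have hhi : (c x : ℝ) < 2 := by linarith [h.2]
  have hlo' : (-1 : ℤ) < c x := by exact_mod_cast hlo
  have hhi' : c x < (2 : ℤ) := by exact_mod_cast hhi
  omega

end Crest.Agent.R63
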