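import Crest.Agent.R63.S0
import Crest.Agent.R63.P1
import Crest.Agent.R63.P2
import Crest.Agent.R63.P3

/-! ROW 63, module P: code_main.  PROOF: random_sets with rho = |phi| (delta0 <= 1/2, delta1 <= 1), eta := eta m r f lam
(0 < eta <= 1; hnum of halving follows from hN1: Th 2^22 n^3 2^(lam+8) n Ball <= delta0^2).  exists_P with
delta = delta1 (P1 in [0,1]), exists_MJ, halving.  Off the union |P - P1| <= 2 delta1, |M - 2^J P| <= binom, so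
0 <= M <= 2^J * 9/10 (2 pmin - 2 delta1 - pmin >= 0; 6/10 + 1/10 + 1/10; on U j: M = 2^(J-(j+1)) <= 2^J/2).
sum phi M >= 2^J (sum phi P1 - (2 delta1 + binom/2^J) sum|phi| - sum_U |phi|) > 0 by hphi and the last
conclusion of random_sets (on U: |M/2^J - P1| <= 1). -/

set_option autoImplicit false
open Finset

namespace Crest.Agent.R63

private theorem p4_ball_pos (m r k : ℕ) : (1 : ℝ) ≤ (Ball m r k : ℝ) := by
  have h : 1 ≤ Ball m r k := by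
    unfold Ball
    refine Finset.card_pos.2 ⟨0, ?_⟩
    rw [Finset.mem_filter]
    exact ⟨Finset.mem_univ _, by rw [hammingDist_self]; exact Nat.zero_le _⟩
  exact_mod_cast h

private theorem p4_Th_nonneg (m r f : ℕ) : 0 ≤ Th m r f := by
  unfold Th
  positivity

private theorem p4_eta {m r f lam : ℕ} (hn : 1 ≤ r * m) (δ0 : ℝ)
    (hN1 : Th m r f * 2 ^ 50 * ((r * m : ℕ) : ℝ) ^ 5 * 2 ^ lam * (Ball m r (4 * f) : ℝ) ≤ δ0 ^ 2) :
    0 < eta m r f lam ∧ eta m r f lam ≤ 1 ∧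
      Th m r f * 2 ^ 22 * ((r * m : ℕ) : ℝ) ^ 3 ≤ eta m r f lam * δ0 ^ 2 := by
  have hn' : (1 : ℝ) ≤ ((r * m : ℕ) : ℝ) := by exact_mod_cast hn
  have hB := p4_ball_pos m r (4 * f)
  have hT := p4_Th_nonneg m r f
  obtain ⟨n, hnn⟩ : ∃ n : ℝ, n = ((r * m : ℕ) : ℝ) := ⟨_, rfl⟩
  obtain ⟨B, hBB⟩ : ∃ B : ℝ, B = (Ball m r (4 * f) : ℝ) := ⟨_, rfl⟩
  unfold eta
  rw [← hnn] at hN1 hn' ⊢
  rw [← hBB] at hN1 hB ⊢
  have h2 : (1 : ℝ) ≤ 2 ^ (lam + 8) := one_le_pow₀ (by norm_num)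
  have hD : (1 : ℝ) ≤ 2 ^ (lam + 8) * n * B := by
    have h3 : (1 : ℝ) ≤ 2 ^ (lam + 8) * n := one_le_mul_of_one_le_of_one_le h2 hn'
    exact one_le_mul_of_one_le_of_one_le h3 hB
  have hD0 : (0 : ℝ) < 2 ^ (lam + 8) * n * B := by linarith
  refine ⟨by positivity, (div_le_one hD0).2 hD, ?_⟩
  rw [one_div, inv_mul_eq_div, le_div_iff₀ hD0]
  refine le_trans ?_ hN1
  have e1 : Th m r f * 2 ^ 22 * n ^ 3 * (2 ^ (lam + 8) * n * B) =
      (Th m r f * 2 ^ lam * B * n ^ 4) * 2 ^ 30 := by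
    rw [pow_add]
    ring
  have e2 : Th m r f * 2 ^ 50 * n ^ 5 * 2 ^ lam * B =
      (Th m r f * 2 ^ lam * B * n ^ 4) * (2 ^ 50 * n) := by
    ring
  rw [e1, e2]
  refine mul_le_mul_of_nonneg_left ?_ (by positivity)
  calc (2 : ℝ) ^ 30 ≤ 2 ^ 50 * 1 := by norm_num
    _ ≤ 2 ^ 50 * n := mul_le_mul_of_nonneg_left hn' (by norm_num)

/-- B2+B3+B4 assembled -/
theorem code_main {m r f J lam : ℕ} (hf : f ≤ m) (hn : 1 ≤ r * m) (hJ : 1 ≤ J) (hJn : J ≤ r * m)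
    (δ0 δ1 pmin : ℝ) (hδ0 : δ0 = 1 / (200 * 2 ^ (r * f))) (h1 : 0 < δ1)
    (hp : 0 < pmin) (hp1 : pmin ≤ 1 / 10) (h1p : 2 * δ1 ≤ pmin)
    (hbin : (m.choose f : ℝ) ≤ 2 ^ J * pmin)
    (hN1 : Th m r f * 2 ^ 50 * ((r * m : ℕ) : ℝ) ^ 5 * 2 ^ lam * (Ball m r (4 * f) : ℝ) ≤ δ0 ^ 2)
    (hN2 : 128 * ((r * m : ℕ) : ℝ) * J ≤ 2 ^ lam * δ1)
    (hN3 : 2 * (J : ℝ) * (Ball m r (4 * f) : ℝ) ≤ 2 ^ lam)
    (P1 φ : X m r → ℝ) (hP1 : IsL f P1) (h01 : ∀ x, 2 * pmin ≤ P1 x ∧ P1 x ≤ 6 / 10)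
    (hφ : (2 * δ1 + 4 * J / 2 ^ lam + (m.choose f : ℝ) / 2 ^ J) * ∑ x, |φ x| < ∑ x, φ x * P1 x) :
    ∃ c : X m r → ℝ, (∀ x, c x = 0 ∨ c x = 1) ∧ IsL f c ∧ 0 < ∑ x, φ x * c x := by
  classical
  have h2rf : (1 : ℝ) ≤ 2 ^ (r * f) := one_le_pow₀ (by norm_num)
  have hδ0p : 0 < δ0 := by rw [hδ0]; positivity
  have hδ0h : δ0 ≤ 1 / 2 := by
    rw [hδ0, div_le_div_iff₀ (by positivity) (by norm_num)]
    linarith
  have h2J : (0 : ℝ) < 2 ^ J := by positivity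
  obtain ⟨U, hUd, hUU, hUG, hUs, hUρ⟩ := random_sets hf hn hJ hJn δ0 δ1 hδ0p hδ0h h1 (by linarith)
    (fun x => |φ x|) (fun x => abs_nonneg _) hN1 hN2 hN3
  obtain ⟨P, hPL, hPU, hPo⟩ := exists_P hf U δ1 h1 (by linarith) hUU hUs P1 hP1
    (fun x => ⟨by linarith [(h01 x).1], by linarith [(h01 x).2]⟩)
  obtain ⟨M, hML, hMU, hMo⟩ := exists_MJ hf U hUU hUd P hPL hPU
  obtain ⟨hη, hη1, hnum⟩ := p4_eta (f := f) (lam := lam) hn δ0 hN1
  -- powers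
  have hpow : ∀ j : Fin J, (2 : ℝ) ^ (J - ((j : ℕ) + 1)) ≤ 2 ^ J / 2 := by
    intro j
    have hj := j.2
    rw [le_div_iff₀ (by norm_num), ← pow_succ]
    exact pow_le_pow_right₀ (by norm_num) (by omega)
  have hoff : ∀ x, (∀ j, x ∉ U j) → |(M x : ℝ) - 2 ^ J * P1 x| ≤
      (m.choose f : ℝ) + 2 ^ J * (2 * δ1) := by
    intro x hx
    have a1 := hMo x hx
    have a2 := hPo x hx
    have e : (M x : ℝ) - 2 ^ J * P1 x = ((M x : ℝ) - 2 ^ J * P x) + 2 ^ J * (P x - P1 x) := by ring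
    rw [e]
    refine (abs_add_le _ _).trans (add_le_add a1 ?_)
    rw [abs_mul, abs_of_pos h2J]
    exact mul_le_mul_of_nonneg_left a2 h2J.le
  have hM0 : ∀ x, 0 ≤ M x := by
    intro x
    by_cases hx : ∃ j, x ∈ U j
    · obtain ⟨j, hj⟩ := hx
      rw [hMU j x hj]
      positivity
    · push Not at hx
      have a1 := (abs_le.1 (hoff x hx)).1
      have a2 := (h01 x).1
      have a3 : 2 ^ J * (2 * pmin) ≤ 2 ^ J * P1 x := mul_le_mul_of_nonneg_left a2 h2J.le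
      have a4 : 2 ^ J * (2 * δ1) ≤ 2 ^ J * pmin := mul_le_mul_of_nonneg_left h1p h2J.le
      have a5 : (0 : ℝ) ≤ M x := by linarith
      exact_mod_cast a5
  have hM1 : ∀ x, (M x : ℝ) ≤ 2 ^ J * (9 / 10) := by
    intro x
    by_cases hx : ∃ j, x ∈ U j
    · obtain ⟨j, hj⟩ := hx
      rw [hMU j x hj]
      push_cast
      linarith [hpow j]
    · push Not at hx
      have a1 := (abs_le.1 (hoff x hx)).2
      have a2 := (h01 x).2
      have a3 : 2 ^ J * P1 x ≤ 2 ^ J * (6 / 10) := mul_le_mul_of_nonneg_left a2 h2J.le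
      have a4 : 2 ^ J * (2 * δ1) ≤ 2 ^ J * pmin := mul_le_mul_of_nonneg_left h1p h2J.le
      have a5 : (2 : ℝ) ^ J * pmin ≤ 2 ^ J * (1 / 10) := mul_le_mul_of_nonneg_left hp1 h2J.le
      linarith
  obtain ⟨c, hcL, hc01, hcφ⟩ := halving hf hn δ0 (eta m r f lam) hδ0 hη hη1 hnum U hUG M hML hMU
    hM0 hM1 φ
  refine ⟨fun x => (c x : ℝ), fun x => ?_, hcL, ?_⟩
  · dsimp only
    rcases hc01 x with h | h
    · left
      rw [h, Int.cast_zero]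
    · right
      rw [h, Int.cast_one]
  -- positivity
  have hall : ∀ x, |(M x : ℝ) - 2 ^ J * P1 x| ≤
      ((m.choose f : ℝ) + 2 ^ J * (2 * δ1)) + 2 ^ J * ∑ j, (if x ∈ U j then (1 : ℝ) else 0) := by
    intro x
    by_cases hx : ∃ j, x ∈ U j
    · obtain ⟨j, hj⟩ := hx
      have b1 : (1 : ℝ) ≤ ∑ j, (if x ∈ U j then (1 : ℝ) else 0) := by
        have := Finset.single_le_sum (f := fun j => if x ∈ U j then (1 : ℝ) else 0)
          (fun k _ => by positivity) (Finset.mem_univ j)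
        simpa [hj] using this
      have b2 : |(M x : ℝ) - 2 ^ J * P1 x| ≤ 2 ^ J := by
        rw [hMU j x hj]
        push_cast
        have c1 := hpow j
        have c2 : (0 : ℝ) ≤ 2 ^ (J - ((j : ℕ) + 1)) := by positivity
        have c3 : 0 ≤ 2 ^ J * P1 x := mul_nonneg h2J.le (by linarith [(h01 x).1])
        have c4 : 2 ^ J * P1 x ≤ 2 ^ J * (6 / 10) := mul_le_mul_of_nonneg_left (h01 x).2 h2J.le
        rw [abs_le]
        constructor <;> linarith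
      have b3 : (2 : ℝ) ^ J * 1 ≤ 2 ^ J * ∑ j, (if x ∈ U j then (1 : ℝ) else 0) :=
        mul_le_mul_of_nonneg_left b1 h2J.le
      have b4 : (0 : ℝ) ≤ (m.choose f : ℝ) + 2 ^ J * (2 * δ1) := by positivity
      linarith
    · have hx' := hx
      push Not at hx
      have b1 : ∑ j, (if x ∈ U j then (1 : ℝ) else 0) = 0 :=
        Finset.sum_eq_zero fun j _ => if_neg (hx j)
      rw [b1, mul_zero, add_zero]
      exact hoff x hx
  have hsumU : ∑ x, |φ x| * ∑ j, (if x ∈ U j then (1 : ℝ) else 0) = ∑ j, ∑ x ∈ U j, |φ x| := by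
    simp only [Finset.mul_sum, mul_ite, mul_one, mul_zero]
    rw [Finset.sum_comm]
    refine Finset.sum_congr rfl fun j _ => ?_
    rw [Finset.sum_ite_mem, Finset.univ_inter]
  have hdiff : |∑ x, φ x * (M x : ℝ) - 2 ^ J * ∑ x, φ x * P1 x| ≤
      ((m.choose f : ℝ) + 2 ^ J * (2 * δ1)) * ∑ x, |φ x| + 2 ^ J * (4 * J / 2 ^ lam * ∑ x, |φ x|) := by
    have e1 : ∑ x, φ x * (M x : ℝ) - 2 ^ J * ∑ x, φ x * P1 x =
        ∑ x, φ x * ((M x : ℝ) - 2 ^ J * P1 x) := by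
      rw [Finset.mul_sum, ← Finset.sum_sub_distrib]
      refine Finset.sum_congr rfl fun x _ => ?_
      ring
    rw [e1]
    calc _ ≤ ∑ x, |φ x * ((M x : ℝ) - 2 ^ J * P1 x)| := Finset.abs_sum_le_sum_abs _ _
      _ ≤ ∑ x, |φ x| * (((m.choose f : ℝ) + 2 ^ J * (2 * δ1)) +
            2 ^ J * ∑ j, (if x ∈ U j then (1 : ℝ) else 0)) := by
          refine Finset.sum_le_sum fun x _ => ?_
          rw [abs_mul]
          exact mul_le_mul_of_nonneg_left (hall x) (abs_nonneg _)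
      _ = ((m.choose f : ℝ) + 2 ^ J * (2 * δ1)) * ∑ x, |φ x| + 2 ^ J * ∑ j, ∑ x ∈ U j, |φ x| := by
          rw [← hsumU, Finset.mul_sum, Finset.mul_sum, ← Finset.sum_add_distrib]
          refine Finset.sum_congr rfl fun x _ => ?_
          ring
      _ ≤ _ := by
          have := mul_le_mul_of_nonneg_left hUρ h2J.le
          linarith
  have hfin : ((m.choose f : ℝ) + 2 ^ J * (2 * δ1)) * ∑ x, |φ x| +
      2 ^ J * (4 * J / 2 ^ lam * ∑ x, |φ x|) < 2 ^ J * ∑ x, φ x * P1 x := by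
    have h5 := mul_lt_mul_of_pos_left hφ h2J
    refine lt_of_le_of_lt (le_of_eq ?_) h5
    have e2 : (m.choose f : ℝ) = 2 ^ J * ((m.choose f : ℝ) / 2 ^ J) := by
      rw [mul_div_cancel₀ _ h2J.ne']
    calc _ = (2 ^ J * ((m.choose f : ℝ) / 2 ^ J) + 2 ^ J * (2 * δ1)) * ∑ x, |φ x| +
          2 ^ J * (4 * J / 2 ^ lam * ∑ x, |φ x|) := by rw [← e2]
      _ = _ := by ring
  have h6 := (abs_le.1 hdiff).1
  have h7 : 0 < ∑ x, φ x * (M x : ℝ) := by linarith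
  have h8 : 0 < 2 ^ J * ∑ x, φ x * (c x : ℝ) := lt_of_lt_of_le h7 hcφ
  exact (mul_pos_iff_of_pos_left h2J).1 h8

end Crest.Agent.R63
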