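import Crest.Agent.R63.S3C1

/-! ROW 63, module S, (iii), piece R63_S3C: all levels together (deterministic).
PROOF: `n = r m`, `M = sup |w|` (`Finset.exists_max_image`); `M = 0`: both sides 0 (LHS 0).
`B k = {x | M / 2^(k+1) < |w x| ≤ M / 2^k}`, `k < n`; `R = {x | |w x| ≤ M / 2^n}`; the sets
`B k`, `R` cover `univ`.  `v = (2^k / (4 M)) * w`: `level` gives
`card (hit (B k)) ≤ 256 p (2^k/(4M)) ∑|w|`, so `∑_{hit (B k)} |w| ≤ (M / 2^k) * that = 64 p ∑|w|`.
`∑_{hit R} |w| ≤ (M / 2^n) * 8 p 2^n = 8 p M ≤ 8 p ∑ |w|`. -/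

set_option autoImplicit false
open Finset

namespace Crest.Agent.R63.S3

/-- all levels together -/
theorem levels {m r f J lam : ℕ} (hf : f ≤ m) (hn : 1 ≤ r * m)
    (hD : 64 * (Dn m r f : ℝ) ≤ 2 ^ (r * m))
    (ω : X m r → Fin (2 ^ lam)) (hω : ∀ s < r * m, ¬ BadS m r f J lam s ω)
    (hω' : ((hit J ω univ).card : ℝ) ≤ 8 * ((J : ℝ) / 2 ^ lam) * 2 ^ (r * m))
    (w : X m r → ℝ) (hw : IsW f w) :
    ∑ x ∈ hit J ω univ, |w x| ≤ (64 * ((r * m : ℕ) : ℝ) + 8) * ((J : ℝ) / 2 ^ lam) * ∑ x, |w x| := by
  classical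
  set p : ℝ := (J : ℝ) / 2 ^ lam with hp
  have hp0 : 0 ≤ p := by rw [hp]; positivity
  set n := r * m with hndef
  set S : ℝ := ∑ x, |w x| with hS
  have hS0 : 0 ≤ S := Finset.sum_nonneg fun _ _ => abs_nonneg _
  obtain ⟨x0, -, hx0⟩ := Finset.exists_max_image (univ : Finset (X m r)) (fun x => |w x|)
    ⟨0, mem_univ _⟩
  set M : ℝ := |w x0| with hM
  have hM0 : 0 ≤ M := abs_nonneg _
  have hMle : ∀ x, |w x| ≤ M := fun x => hx0 x (mem_univ _)
  have hMS : M ≤ S := Finset.single_le_sum (f := fun x => |w x|) (fun _ _ => abs_nonneg _) (mem_univ x0)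
  rcases hM0.eq_or_lt with h0 | hMpos
  · have hz : ∀ x, |w x| = 0 := fun x => le_antisymm (by rw [h0]; exact hMle x) (abs_nonneg _)
    rw [Finset.sum_congr rfl fun x _ => hz x]
    simp only [Finset.sum_const_zero]
    positivity
  set B : ℕ → Finset (X m r) := fun k => univ.filter fun x => M / 2 ^ (k + 1) < |w x| ∧ |w x| ≤ M / 2 ^ k
    with hB
  set R : Finset (X m r) := univ.filter fun x => |w x| ≤ M / 2 ^ n with hR
  have key : ∀ x, |w x| ≤ ∑ k ∈ range n, (if x ∈ B k then |w x| else 0)
      + (if x ∈ R then |w x| else 0) := by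
    intro x
    have hnn : 0 ≤ ∑ k ∈ range n, (if x ∈ B k then |w x| else 0) :=
      Finset.sum_nonneg fun k _ => by split_ifs <;> simp
    by_cases hx : |w x| ≤ M / 2 ^ n
    · have : x ∈ R := by simp [hR, hx]
      rw [if_pos this]; linarith
    · have hex : ∃ j, M / 2 ^ j < |w x| := ⟨n, not_le.1 hx⟩
      have hfs := Nat.find_spec hex
      have hfl : Nat.find hex ≤ n := Nat.find_min' hex (not_le.1 hx)
      have hf0 : Nat.find hex ≠ 0 := by
        intro h
        rw [h] at hfs
        simp only [pow_zero, div_one] at hfs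
        exact absurd (hMle x) (not_le.2 hfs)
      obtain ⟨k, hk⟩ := Nat.exists_eq_succ_of_ne_zero hf0
      have hmin : ¬ (M / 2 ^ k < |w x|) := Nat.find_min hex (by omega)
      have hkn : k ∈ range n := by rw [mem_range]; omega
      have hxB : x ∈ B k := by
        simp only [hB, mem_filter, mem_univ, true_and]
        refine ⟨?_, not_lt.1 hmin⟩
        rw [hk] at hfs; exact hfs
      have h1 := Finset.single_le_sum (f := fun k => (if x ∈ B k then |w x| else 0))
        (fun k _ => by split_ifs <;> simp) hkn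
      simp only [if_pos hxB] at h1
      have h2 : 0 ≤ (if x ∈ R then |w x| else 0) := by split_ifs <;> simp
      linarith
  have hsum : ∑ x ∈ hit J ω univ, |w x| ≤
      ∑ k ∈ range n, ∑ x ∈ hit J ω (B k), |w x| + ∑ x ∈ hit J ω R, |w x| := by
    calc ∑ x ∈ hit J ω univ, |w x| ≤ ∑ x ∈ hit J ω univ,
          (∑ k ∈ range n, (if x ∈ B k then |w x| else 0) + (if x ∈ R then |w x| else 0)) :=
          Finset.sum_le_sum fun x _ => key x
      _ = _ := by
          rw [Finset.sum_add_distrib, Finset.sum_comm]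
          congr 1
          · refine Finset.sum_congr rfl fun k _ => ?_
            rw [← Finset.sum_filter]
            refine Finset.sum_congr ?_ fun _ _ => rfl
            ext x; simp only [hit, mem_filter, mem_univ, true_and]; exact and_comm
          · rw [← Finset.sum_filter]
            refine Finset.sum_congr ?_ fun _ _ => rfl
            ext x; simp only [hit, mem_filter, mem_univ, true_and]; exact and_comm
  have hlev : ∀ k ∈ range n, ∑ x ∈ hit J ω (B k), |w x| ≤ 64 * p * S := by
    intro k _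
    have h2k : (0:ℝ) < 2 ^ k := by positivity
    have hc : 0 < 2 ^ k / (4 * M) := by positivity
    have hv := isW_smul (2 ^ k / (4 * M)) w hw
    have hlv := level hf hn hD ω hω (fun x => 2 ^ k / (4 * M) * w x) hv (B k) (by
      intro x hx
      simp only [hB, mem_filter, mem_univ, true_and] at hx
      rw [abs_mul, abs_of_pos hc]
      have h1 := hx.1
      have h2 := hx.2
      rw [div_lt_iff₀ (by positivity), pow_succ] at h1
      rw [le_div_iff₀ h2k] at h2
      constructor
      · rw [div_mul_eq_mul_div, le_div_iff₀ (by positivity)]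
        nlinarith
      · rw [div_mul_eq_mul_div, div_le_iff₀ (by positivity)]
        nlinarith)
    have hSv : ∑ x, |2 ^ k / (4 * M) * w x| = 2 ^ k / (4 * M) * S := by
      rw [hS, Finset.mul_sum]
      refine Finset.sum_congr rfl fun x _ => ?_
      rw [abs_mul, abs_of_pos hc]
    rw [hSv] at hlv
    calc ∑ x ∈ hit J ω (B k), |w x| ≤ ∑ x ∈ hit J ω (B k), M / 2 ^ k := by
          refine Finset.sum_le_sum fun x hx => ?_
          simp only [hit, hB, mem_filter, mem_univ, true_and] at hx
          exact hx.1.2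
      _ = ((hit J ω (B k)).card : ℝ) * (M / 2 ^ k) := by rw [Finset.sum_const, nsmul_eq_mul]
      _ ≤ (256 * p * (2 ^ k / (4 * M) * S)) * (M / 2 ^ k) :=
          mul_le_mul_of_nonneg_right hlv (by positivity)
      _ = 64 * p * S := by field_simp; ring
  have hres : ∑ x ∈ hit J ω R, |w x| ≤ 8 * p * S := by
    calc ∑ x ∈ hit J ω R, |w x| ≤ ∑ x ∈ hit J ω R, M / 2 ^ n := by
          refine Finset.sum_le_sum fun x hx => ?_
          simp only [hit, hR, mem_filter, mem_univ, true_and] at hx
          exact hx.1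
      _ = ((hit J ω R).card : ℝ) * (M / 2 ^ n) := by rw [Finset.sum_const, nsmul_eq_mul]
      _ ≤ ((hit J ω univ).card : ℝ) * (M / 2 ^ n) := by
          refine mul_le_mul_of_nonneg_right ?_ (by positivity)
          have : hit J ω R ⊆ hit J ω univ := by
            intro x hx
            simp only [hit, mem_filter, mem_univ, true_and] at hx ⊢
            exact hx.2
          exact_mod_cast Finset.card_le_card this
      _ ≤ (8 * p * 2 ^ n) * (M / 2 ^ n) := mul_le_mul_of_nonneg_right hω' (by positivity)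
      _ = 8 * p * M := by field_simp
      _ ≤ 8 * p * S := mul_le_mul_of_nonneg_left hMS (by positivity)
  calc ∑ x ∈ hit J ω univ, |w x| ≤ _ := hsum
    _ ≤ ∑ k ∈ range n, 64 * p * S + 8 * p * S := add_le_add (Finset.sum_le_sum hlev) hres
    _ = (64 * (n : ℝ) + 8) * p * S := by
        rw [Finset.sum_const, Finset.card_range, nsmul_eq_mul]; ring

end Crest.Agent.R63.S3
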