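import Crest.Agent.R63.S3B
import Crest.Agent.R63.S3C

/-! ROW 63, module S, (iii), piece R63_S3: (moved to S3E.lean) assembly of `bad3_core`.
PROOF: `n = r m`.  Case `D = 0` (`Dn m r f = 0`): every `w ∈ W` is `0` (if `w x ≠ 0`, then
`v = w / (4 |w x|) ∈ W`, `sup1` with `δ = 1/4` gives `nrm (v x) < 1/4`, but `nrm (v x) = 1/4`), so the
event is empty.  Case `D ≥ 1`: `hN1` gives `64 D ≤ 2^n` and `2^50 * 2^lam ≤ 2^n` (as `Θ ≥ 2^-n`,
`δ0^2 ≤ 1/4`), `J ≤ 2^lam` by `hN2`.  The event is contained in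
`(∃ s ∈ range n, BadS s ω) ∨ 8 p 2^n ≤ card (hit J ω univ)` (`levels`, and
`(64 n + 8) p ≤ 128 n p ≤ δ1` by `hN2`); `cnt ≤ n exp(-8n) tot + exp(-8 p 2^n) tot ≤ tot/4`. -/

set_option autoImplicit false
open Finset

namespace Crest.Agent.R63.S3

private theorem s3e_exp_small (t : ℝ) (ht : 7 ≤ t) : Real.exp (-t) ≤ 1 / 8 := by
  have h1 : (8 : ℝ) ≤ Real.exp t := by
    have := Real.add_one_le_exp t
    linarith
  rw [Real.exp_neg, one_div]
  exact inv_anti₀ (by norm_num) h1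

private theorem s3e_zero {m r f : ℕ} (hf : f ≤ m) (hD : Dn m r f = 0) (w : X m r → ℝ)
    (hw : IsW f w) (x : X m r) : w x = 0 := by
  by_contra hx
  have hpos : 0 < |w x| := abs_pos.2 hx
  have hv := isW_smul (1 / (4 * |w x|)) w hw
  have hN : (0 : ℝ) < 2 ^ (r * m) := by positivity
  have h1 := sup1 hf _ hv (1 / 4) (by norm_num) (by rw [hD]; simp) x
  have h2 : |1 / (4 * |w x|) * w x| = 1 / 4 := by
    rw [abs_mul, abs_of_pos (by positivity : (0 : ℝ) < 1 / (4 * |w x|))]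
    field_simp
  have h3 : nrm (1 / (4 * |w x|) * w x) = 1 / 4 := by
    rw [nrm_eq_abs _ h2.le, h2]
  have h4 : nrm (1 / (4 * |w x|) * w x) < 1 / 4 := h1
  linarith

private theorem s3e_ball (m r k : ℕ) : (1 : ℝ) ≤ (Ball m r k : ℝ) := by
  have h : 1 ≤ Ball m r k := by
    unfold Ball
    refine Finset.card_pos.2 ⟨0, ?_⟩
    rw [Finset.mem_filter]
    refine ⟨Finset.mem_univ _, ?_⟩
    rw [hammingDist_self]
    exact Nat.zero_le _
  exact_mod_cast h

theorem bad3_core {m r f J lam : ℕ} (hf : f ≤ m) (hn : 1 ≤ r * m) (hJ : 1 ≤ J) (hJn : J ≤ r * m)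
    (δ0 δ1 : ℝ) (h0 : 0 < δ0) (h0' : δ0 ≤ 1 / 2) (h1 : 0 < δ1) (h1' : δ1 ≤ 1)
    (hN1 : Th m r f * 2 ^ 50 * ((r * m : ℕ) : ℝ) ^ 5 * 2 ^ lam * (Ball m r (4 * f) : ℝ) ≤ δ0 ^ 2)
    (hN2 : 128 * ((r * m : ℕ) : ℝ) * J ≤ 2 ^ lam * δ1) :
    cnt (fun ω : X m r → Fin (2 ^ lam) =>
      ¬ ∀ w : X m r → ℝ, IsW f w → ∑ x ∈ hit J ω univ, |w x| ≤ δ1 * ∑ x, |w x|) ≤
      1 / 4 * tot m r lam := by
  classical
  have htot : 0 ≤ tot m r lam := by unfold tot; positivity
  rcases Nat.eq_zero_or_pos (Dn m r f) with hD | hD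
  · have he : cnt (fun ω : X m r → Fin (2 ^ lam) =>
      ¬ ∀ w : X m r → ℝ, IsW f w → ∑ x ∈ hit J ω univ, |w x| ≤ δ1 * ∑ x, |w x|) = 0 := by
      unfold cnt
      rw [Nat.cast_eq_zero, Finset.card_eq_zero]
      refine Finset.eq_empty_of_forall_notMem fun ω hωm => ?_
      have hω := (@Finset.mem_filter _ _ (fun a => Classical.propDecidable _) _ _).1 hωm |>.2
      apply hω
      intro w hw
      have hz : ∀ x, |w x| = 0 := fun x => by rw [s3e_zero hf hD w hw x, abs_zero]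
      rw [Finset.sum_congr rfl fun x _ => hz x, Finset.sum_congr rfl fun x _ => hz x]
      simp
    rw [he]
    positivity
  · have hn' : (1 : ℝ) ≤ ((r * m : ℕ) : ℝ) := by exact_mod_cast hn
    have hJ' : (1 : ℝ) ≤ (J : ℝ) := by exact_mod_cast hJ
    have hD' : (1 : ℝ) ≤ (Dn m r f : ℝ) := by exact_mod_cast hD
    have hB := s3e_ball m r (4 * f)
    have hl : (1 : ℝ) ≤ 2 ^ lam := one_le_pow₀ (by norm_num)
    have hN : (0 : ℝ) < 2 ^ (r * m) := by positivity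
    have hd2 : δ0 ^ 2 ≤ 1 / 4 := by nlinarith
    have hT0 : 0 ≤ Th m r f := by unfold Th; positivity
    -- main numeric consequence
    have hA : (Dn m r f : ℝ) * (2 ^ 50 * 2 ^ lam) ≤ 2 ^ (r * m) / 4 := by
      have e1 : Th m r f * 2 ^ 50 * 2 ^ lam ≤ 1 / 4 := by
        have hn5 : (1 : ℝ) ≤ ((r * m : ℕ) : ℝ) ^ 5 := one_le_pow₀ hn'
        have hbase : 0 ≤ Th m r f * 2 ^ 50 * 2 ^ lam := by positivity
        have e2 : Th m r f * 2 ^ 50 * 2 ^ lam * 1 ≤
            Th m r f * 2 ^ 50 * 2 ^ lam * (((r * m : ℕ) : ℝ) ^ 5 * (Ball m r (4 * f) : ℝ)) := by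
          apply mul_le_mul_of_nonneg_left _ hbase
          calc (1 : ℝ) = 1 * 1 := by ring
            _ ≤ _ := mul_le_mul hn5 hB (by norm_num) (by positivity)
        have e3 : Th m r f * 2 ^ 50 * 2 ^ lam * (((r * m : ℕ) : ℝ) ^ 5 * (Ball m r (4 * f) : ℝ)) =
            Th m r f * 2 ^ 50 * ((r * m : ℕ) : ℝ) ^ 5 * 2 ^ lam * (Ball m r (4 * f) : ℝ) := by ring
        rw [e3] at e2
        linarith
      have e4 : Th m r f = (Dn m r f : ℝ) / 2 ^ (r * m) := rfl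
      rw [e4] at e1
      have e5 : (Dn m r f : ℝ) * (2 ^ 50 * 2 ^ lam) =
          (Dn m r f : ℝ) / 2 ^ (r * m) * 2 ^ 50 * 2 ^ lam * 2 ^ (r * m) := by
        field_simp
      rw [e5]
      have := mul_le_mul_of_nonneg_right e1 hN.le
      linarith
    have hD64 : 64 * (Dn m r f : ℝ) ≤ 2 ^ (r * m) := by
      have : (Dn m r f : ℝ) * 64 ≤ (Dn m r f : ℝ) * (2 ^ 50 * 2 ^ lam) := by
        apply mul_le_mul_of_nonneg_left _ (by positivity)
        nlinarith
      linarith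
    have h50 : (2 : ℝ) ^ 50 * 2 ^ lam ≤ 2 ^ (r * m) := by
      have : (1 : ℝ) * (2 ^ 50 * 2 ^ lam) ≤ (Dn m r f : ℝ) * (2 ^ 50 * 2 ^ lam) :=
        mul_le_mul_of_nonneg_right hD' (by positivity)
      linarith
    have hJl' : (J : ℝ) ≤ 2 ^ lam := by
      have e1 : (2 : ℝ) ^ lam * δ1 ≤ 2 ^ lam * 1 := mul_le_mul_of_nonneg_left h1' (by positivity)
      have e2 : (J : ℝ) ≤ 128 * ((r * m : ℕ) : ℝ) * J := by
        nlinarith
      linarith
    have hJl : J ≤ 2 ^ lam := by exact_mod_cast hJl'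
    set p : ℝ := (J : ℝ) / 2 ^ lam with hp
    have hp0 : 0 ≤ p := by rw [hp]; positivity
    have hpd : (64 * ((r * m : ℕ) : ℝ) + 8) * p ≤ δ1 := by
      rw [hp, ← mul_div_assoc, div_le_iff₀ (by positivity)]
      have e1 : (64 * ((r * m : ℕ) : ℝ) + 8) * J ≤ 128 * ((r * m : ℕ) : ℝ) * J := by
        apply mul_le_mul_of_nonneg_right _ (by positivity)
        linarith
      linarith
    have himp : ∀ ω : X m r → Fin (2 ^ lam),
        (¬ ∀ w : X m r → ℝ, IsW f w → ∑ x ∈ hit J ω univ, |w x| ≤ δ1 * ∑ x, |w x|) →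
        (∃ s ∈ range (r * m), BadS m r f J lam s ω) ∨
          8 * p * 2 ^ (r * m) ≤ ((hit J ω univ).card : ℝ) := by
      intro ω hω
      by_contra hcon
      rw [not_or] at hcon
      apply hω
      intro w hw
      have hs : ∀ s < r * m, ¬ BadS m r f J lam s ω := fun s hs hb =>
        hcon.1 ⟨s, Finset.mem_range.2 hs, hb⟩
      have h2 := levels hf hn hD64 ω hs (not_le.1 hcon.2).le w hw
      refine h2.trans ?_
      exact mul_le_mul_of_nonneg_right hpd (Finset.sum_nonneg fun _ _ => abs_nonneg _)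
    have hcard : (((univ : Finset (X m r)).card : ℕ) : ℝ) ≤ 2 ^ (r * m) := by
      have h : (univ : Finset (X m r)).card = 2 ^ (r * m) := by
        rw [Finset.card_univ]
        simp [X, pow_mul]
      rw [h]; push_cast; exact le_refl _
    have hN1' : Th m r f * 2 ^ 50 * ((r * m : ℕ) : ℝ) ^ 5 * 2 ^ lam * (Ball m r (4 * f) : ℝ) ≤ 1 := by
      linarith
    have hc1 : cnt (fun ω : X m r → Fin (2 ^ lam) => ∃ s ∈ range (r * m), BadS m r f J lam s ω) ≤
        ((r * m : ℕ) : ℝ) * (Real.exp (-(8 * ((r * m : ℕ) : ℝ))) * tot m r lam) := by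
      refine (cnt_exists _ _).trans ?_
      refine (Finset.sum_le_sum fun s _ => badS_le hf hn hJ hJl hN1' s).trans ?_
      rw [Finset.sum_const, Finset.card_range, nsmul_eq_mul]
    have hc2 := tail_exp (J := J) (lam := lam) hJl (univ : Finset (X m r)) (2 ^ (r * m)) hcard
    refine (cnt_mono himp).trans ((cnt_or _ _).trans ?_)
    have hx1 : ((r * m : ℕ) : ℝ) * Real.exp (-(8 * ((r * m : ℕ) : ℝ))) ≤ 1 / 8 := by
      have e1 : ((r * m : ℕ) : ℝ) ≤ Real.exp ((r * m : ℕ) : ℝ) := by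
        have := Real.add_one_le_exp ((r * m : ℕ) : ℝ)
        linarith
      have e2 : ((r * m : ℕ) : ℝ) * Real.exp (-(8 * ((r * m : ℕ) : ℝ))) ≤
          Real.exp ((r * m : ℕ) : ℝ) * Real.exp (-(8 * ((r * m : ℕ) : ℝ))) :=
        mul_le_mul_of_nonneg_right e1 (Real.exp_pos _).le
      rw [← Real.exp_add] at e2
      have e3 : ((r * m : ℕ) : ℝ) + -(8 * ((r * m : ℕ) : ℝ)) = -(7 * ((r * m : ℕ) : ℝ)) := by ring
      rw [e3] at e2
      exact e2.trans (s3e_exp_small _ (by linarith))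
    have hx2 : Real.exp (-(8 * p * 2 ^ (r * m))) ≤ 1 / 8 := by
      apply s3e_exp_small
      have e1 : 1 ≤ p * 2 ^ (r * m) := by
        rw [hp, div_mul_eq_mul_div, le_div_iff₀ (by positivity)]
        nlinarith
      nlinarith
    have hx1' := mul_le_mul_of_nonneg_right hx1 htot
    have hx2' := mul_le_mul_of_nonneg_right hx2 htot
    have hc1' : cnt (fun ω : X m r → Fin (2 ^ lam) => ∃ s ∈ range (r * m), BadS m r f J lam s ω) ≤
        1 / 8 * tot m r lam := by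
      refine hc1.trans ?_
      rw [← mul_assoc]
      exact hx1'
    have hc2' : cnt (fun ω : X m r → Fin (2 ^ lam) =>
        8 * p * 2 ^ (r * m) ≤ ((hit J ω univ).card : ℝ)) ≤ 1 / 8 * tot m r lam := hc2.trans hx2'
    linarith

end Crest.Agent.R63.S3
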