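import Crest.Agent.R63.S1
import Crest.Agent.R63.S3E

/-! ROW 63, module S, part (iii) (owner helper53): union bound for `E3` (from `S3.bad3_core`). -/

set_option autoImplicit false
open Finset

namespace Crest.Agent.R63

open Classical in
theorem bad3 {m r f J lam : ℕ} (hf : f ≤ m) (hn : 1 ≤ r * m) (hJ : 1 ≤ J) (hJn : J ≤ r * m)
    (δ0 δ1 : ℝ) (h0 : 0 < δ0) (h0' : δ0 ≤ 1 / 2) (h1 : 0 < δ1) (h1' : δ1 ≤ 1)
    (hN1 : Th m r f * 2 ^ 50 * ((r * m : ℕ) : ℝ) ^ 5 * 2 ^ lam * (Ball m r (4 * f) : ℝ) ≤ δ0 ^ 2)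
    (hN2 : 128 * ((r * m : ℕ) : ℝ) * J ≤ 2 ^ lam * δ1)
    (hN3 : 2 * (J : ℝ) * (Ball m r (4 * f) : ℝ) ≤ 2 ^ lam) :
    4 * (univ.filter fun om : Om m r lam => ¬ E3 f J δ1 om).card ≤ Fintype.card (Om m r lam) := by
  have h := S3.bad3_core hf hn hJ hJn δ0 δ1 h0 h0' h1 h1' hN1 hN2
  unfold S3.cnt S3.tot at h
  have h' : (4 : ℝ) * ((univ.filter fun om : Om m r lam => ¬ E3 f J δ1 om).card : ℝ) ≤
      (Fintype.card (Om m r lam) : ℝ) := by
    have e : ((univ.filter fun om : Om m r lam => ¬ E3 f J δ1 om).card : ℝ) ≤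
        1 / 4 * (Fintype.card (Om m r lam) : ℝ) := by
      refine le_trans ?_ h
      refine Nat.cast_le.mpr (card_le_card ?_)
      intro om hom
      exact (@Finset.mem_filter _ _ (fun a => Classical.propDecidable _) _ _).mpr
        ⟨mem_univ _, (mem_filter.mp hom).2⟩
    linarith
  exact_mod_cast h'

end Crest.Agent.R63
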