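import Crest.Agent.R63.S2
import Crest.Agent.R63.S3

/-! ROW 63, module S (random sets, B2 of ideas 456): INTERFACE (proved from S1, S2, S3). -/

set_option autoImplicit false
open Finset

namespace Crest.Agent.R63

theorem random_sets {m r f J lam : ℕ} (hf : f ≤ m) (hn : 1 ≤ r * m) (hJ : 1 ≤ J) (hJn : J ≤ r * m)
    (δ0 δ1 : ℝ) (h0 : 0 < δ0) (h0' : δ0 ≤ 1 / 2) (h1 : 0 < δ1) (h1' : δ1 ≤ 1)
    (ρ : X m r → ℝ) (hρ : ∀ x, 0 ≤ ρ x)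
    (hN1 : Th m r f * 2 ^ 50 * ((r * m : ℕ) : ℝ) ^ 5 * 2 ^ lam * (Ball m r (4 * f) : ℝ) ≤ δ0 ^ 2)
    (hN2 : 128 * ((r * m : ℕ) : ℝ) * J ≤ 2 ^ lam * δ1)
    (hN3 : 2 * (J : ℝ) * (Ball m r (4 * f) : ℝ) ≤ 2 ^ lam) :
    ∃ U : Fin J → Finset (X m r),
      (∀ j k x y, x ∈ U j → y ∈ U k → x ≠ y → 2 * f < hammingDist x y) ∧
      (∀ j k, j ≠ k → Disjoint (U j) (U k)) ∧
      (∀ j (w : X m r → ℝ), IsW f w → (∃ x, δ0 ≤ nrm (w x)) →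
        eta m r f lam * En w ≤ ∑ x ∈ U j, nrm (w x) ^ 2) ∧
      (∀ w : X m r → ℝ, IsW f w → ∑ j, ∑ x ∈ U j, |w x| ≤ δ1 * ∑ x, |w x|) ∧
      (∑ j, ∑ x ∈ U j, ρ x ≤ 4 * J / 2 ^ lam * ∑ x, ρ x) := by
  classical
  have hB : 1 ≤ Ball m r (4 * f) := one_le_Ball _ _ _
  have hJ2 : J ≤ 2 ^ lam := by
    have h1 : (1 : ℝ) ≤ (Ball m r (4 * f) : ℝ) := by exact_mod_cast hB
    have h2 : (J : ℝ) ≤ 2 ^ lam := by
      have : 0 ≤ (J : ℝ) := by positivity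
      nlinarith
    exact_mod_cast h2
  exact random_sets_of hρ (by convert bad2 hf hn hJ hJn δ0 h0 h0' hN1 hN3)
    (by convert bad3 hf hn hJ hJn δ0 δ1 h0 h0' h1 h1' hN1 hN2 hN3) (by convert bad4 hJ2 ρ hρ)

end Crest.Agent.R63
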