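import Crest.Agent.R63.Defs

/-! ROW 63, module S: counting lemmas on labelings (product formula, independence). -/

set_option autoImplicit false
open Finset

namespace Crest.Agent.R63

section gen
variable {α : Type} [Fintype α] [DecidableEq α] {K : ℕ}

/-- product formula -/
theorem s1_prod (g : α → Fin K → ℝ) :
    ∑ om : α → Fin K, ∏ x, g x (om x) = ∏ x, ∑ a, g x a := by
  classical
  rw [Finset.prod_univ_sum]
  simp

/-- product formula over a subset, same function -/
theorem s1_prodB (g : Fin K → ℝ) (hK : 0 < K) (B : Finset α) :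
    ∑ om : α → Fin K, ∏ x ∈ B, g (om x) =
      ((∑ a, g a) / K) ^ B.card * Fintype.card (α → Fin K) := by
  classical
  have h1 : ∀ om : α → Fin K, ∏ x ∈ B, g (om x) = ∏ x, (if x ∈ B then g (om x) else 1) := by
    intro om
    rw [Finset.prod_ite_mem, Finset.univ_inter]
  simp only [h1]
  rw [s1_prod (fun x a => if x ∈ B then g a else 1)]
  have h2 : ∀ x : α, (∑ a : Fin K, (if x ∈ B then g a else (1 : ℝ))) =
      (if x ∈ B then ((∑ a, g a) / K) else 1) * K := by
    intro x
    have hK' : (K : ℝ) ≠ 0 := by positivity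
    by_cases hx : x ∈ B
    · simp only [hx, if_true]
      field_simp
    · simp only [hx, if_false, Finset.sum_const, Finset.card_univ, Fintype.card_fin, nsmul_eq_mul,
        mul_one, one_mul]
  simp only [h2]
  rw [Finset.prod_mul_distrib, Finset.prod_ite_mem, Finset.univ_inter, Finset.prod_const,
    Finset.prod_const, Finset.card_univ]
  congr 1
  simp [Fintype.card_fun]

/-- independence of functions of disjoint coordinate sets -/
theorem s1_indep (S : Finset α) (F H : (α → Fin K) → ℝ)
    (hF : ∀ a b, (∀ x ∈ S, a x = b x) → F a = F b)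
    (hH : ∀ a b, (∀ x, x ∉ S → a x = b x) → H a = H b) :
    (Fintype.card (α → Fin K) : ℝ) * ∑ om, F om * H om = (∑ om, F om) * ∑ om, H om := by
  classical
  set mix : (α → Fin K) → (α → Fin K) → (α → Fin K) := fun a b x => if x ∈ S then a x else b x
    with hmix
  have hinv : Function.Involutive
      (fun p : (α → Fin K) × (α → Fin K) => (mix p.1 p.2, mix p.2 p.1)) := by
    intro p
    ext x
    · by_cases hx : x ∈ S <;> simp [hmix, hx]
    · by_cases hx : x ∈ S <;> simp [hmix, hx]
  rw [Finset.sum_mul_sum]
  set T : Equiv.Perm ((α → Fin K) × (α → Fin K)) := Function.Involutive.toPerm _ hinv with hT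
  have h1 : ∀ p : (α → Fin K) × (α → Fin K), F p.1 * H p.2 =
      F (T p).1 * H (T p).1 := by
    intro p
    have e1 : F p.1 = F (mix p.1 p.2) := hF _ _ (fun x hx => by simp [hmix, hx])
    have e2 : H p.2 = H (mix p.1 p.2) := hH _ _ (fun x hx => by simp [hmix, hx])
    rw [e1, e2]
    rfl
  calc (Fintype.card (α → Fin K) : ℝ) * ∑ om, F om * H om
      = ∑ p : (α → Fin K) × (α → Fin K), F p.1 * H p.1 := by
        rw [Fintype.sum_prod_type]
        simp only [Finset.sum_const, Finset.card_univ, nsmul_eq_mul]
        rw [Finset.mul_sum]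
    _ = ∑ p : (α → Fin K) × (α → Fin K), F (T p).1 * H (T p).1 :=
        (Equiv.sum_comp T
          (fun p : (α → Fin K) × (α → Fin K) => F p.1 * H p.1)).symm
    _ = ∑ p : (α → Fin K) × (α → Fin K), F p.1 * H p.2 := by
        apply Finset.sum_congr rfl
        intro p _
        exact (h1 p).symm
    _ = ∑ i, ∑ j, F i * H j := by rw [Fintype.sum_prod_type]

/-- Markov / Chernoff: number of `om` with `T ≤ Z om` -/
theorem s1_markov {Om : Type} [Fintype Om] (P : Om → Prop) [DecidablePred P] (Z : Om → ℝ)
    (hZ : ∀ om, 0 ≤ Z om) (hP : ∀ om, P om → 1 ≤ Z om) :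
    ((univ.filter P).card : ℝ) ≤ ∑ om, Z om := by
  calc ((univ.filter P).card : ℝ) = ∑ om ∈ univ.filter P, (1 : ℝ) := by simp
    _ ≤ ∑ om ∈ univ.filter P, Z om := by
        apply Finset.sum_le_sum
        intro om h
        exact hP om (Finset.mem_filter.mp h).2
    _ ≤ ∑ om, Z om := by
        apply Finset.sum_le_sum_of_subset_of_nonneg (Finset.filter_subset _ _)
        intro om _ _
        exact hZ om

end gen

end Crest.Agent.R63
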