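import Crest.Agent.R63.C0
import Crest.Agent.R63.S1a

/-! ROW 63, module S (random sets, B2 of ideas 456): definitions, tail lemmas (STATEMENTS), assembly.
Probability is counting over `Om m r lam = (X m r → Fin (2^lam))`. -/

set_option autoImplicit false
open Finset

namespace Crest.Agent.R63

/-- the constant of property G -/
noncomputable def eta (m r f lam : ℕ) : ℝ :=
  1 / (2 ^ (lam + 8) * ((r * m : ℕ) : ℝ) * (Ball m r (4 * f) : ℝ))

/-- labelings -/
abbrev Om (m r lam : ℕ) := X m r → Fin (2 ^ lam)

variable {m r lam : ℕ}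

/-- `U_j`: label `j`, and no other label `< J` within distance `2f` -/
def Uset (f J : ℕ) (om : Om m r lam) (j : ℕ) : Finset (X m r) :=
  univ.filter fun x => (om x).val = j ∧ ∀ y, y ≠ x → hammingDist x y ≤ 2 * f → J ≤ (om y).val

/-- the points with a label `< J` -/
def Uplus (J : ℕ) (om : Om m r lam) : Finset (X m r) :=
  univ.filter fun x => (om x).val < J

theorem one_le_Ball (m r k : ℕ) : 1 ≤ Ball m r k := by
  unfold Ball
  rw [Nat.one_le_iff_ne_zero, ← Nat.pos_iff_ne_zero, Finset.card_pos]
  exact ⟨0, by simp⟩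

theorem Uset_subset_Uplus (f J : ℕ) (om : Om m r lam) (j : Fin J) :
    Uset f J om j ⊆ Uplus J om := by
  intro x hx
  simp only [Uset, Uplus, mem_filter, mem_univ, true_and] at hx ⊢
  rw [hx.1]
  exact j.2

theorem Uset_sep (f J : ℕ) (om : Om m r lam) (j k : Fin J) (x y : X m r)
    (hx : x ∈ Uset f J om j) (hy : y ∈ Uset f J om k) (hxy : x ≠ y) : 2 * f < hammingDist x y := by
  simp only [Uset, mem_filter, mem_univ, true_and] at hx hy
  by_contra h
  have := hx.2 y (Ne.symm hxy) (not_lt.mp h)
  rw [hy.1] at this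
  exact absurd k.2 (not_lt.mpr this)

theorem Uset_disj (f J : ℕ) (om : Om m r lam) (j k : Fin J) (hjk : j ≠ k) :
    Disjoint (Uset f J om j) (Uset f J om k) := by
  rw [Finset.disjoint_left]
  intro x hx hy
  simp only [Uset, mem_filter, mem_univ, true_and] at hx hy
  exact hjk (Fin.ext (hx.1.symm.trans hy.1))

/-- `∑_j ∑_{U_j} g ≤ ∑_{U+} g` for nonnegative `g` -/
theorem sum_Uset_le (f J : ℕ) (om : Om m r lam) (g : X m r → ℝ) (hg : ∀ x, 0 ≤ g x) :
    ∑ j : Fin J, ∑ x ∈ Uset f J om j, g x ≤ ∑ x ∈ Uplus J om, g x := by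
  classical
  rw [← Finset.sum_biUnion]
  · apply Finset.sum_le_sum_of_subset_of_nonneg
    · intro x hx
      rw [Finset.mem_biUnion] at hx
      obtain ⟨j, -, hj⟩ := hx
      exact Uset_subset_Uplus f J om j hj
    · intro x _ _
      exact hg x
  · intro j _ k _ hjk
    exact Uset_disj f J om j k hjk

/-- the three good events -/
def E2 (f J : ℕ) (δ0 : ℝ) (om : Om m r lam) : Prop :=
  ∀ (j : Fin J) (w : X m r → ℝ), IsW f w → (∃ x, δ0 ≤ nrm (w x)) →
    eta m r f lam * En w ≤ ∑ x ∈ Uset f J om j, nrm (w x) ^ 2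

def E3 (f J : ℕ) (δ1 : ℝ) (om : Om m r lam) : Prop :=
  ∀ w : X m r → ℝ, IsW f w → ∑ x ∈ Uplus J om, |w x| ≤ δ1 * ∑ x, |w x|

def E4 (J : ℕ) (ρ : X m r → ℝ) (om : Om m r lam) : Prop :=
  ∑ x ∈ Uplus J om, ρ x ≤ 4 * J / 2 ^ lam * ∑ x, ρ x

open Classical in
/-- assembly from the three union bounds -/
theorem random_sets_of {f J : ℕ} {δ0 δ1 : ℝ} {ρ : X m r → ℝ} (hρ : ∀ x, 0 ≤ ρ x)
    (h2 : 4 * (univ.filter fun om : Om m r lam => ¬ E2 f J δ0 om).card ≤ Fintype.card (Om m r lam))
    (h3 : 4 * (univ.filter fun om : Om m r lam => ¬ E3 f J δ1 om).card ≤ Fintype.card (Om m r lam))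
    (h4 : 4 * (univ.filter fun om : Om m r lam => ¬ E4 J ρ om).card ≤ Fintype.card (Om m r lam)) :
    ∃ U : Fin J → Finset (X m r),
      (∀ j k x y, x ∈ U j → y ∈ U k → x ≠ y → 2 * f < hammingDist x y) ∧
      (∀ j k, j ≠ k → Disjoint (U j) (U k)) ∧
      (∀ j (w : X m r → ℝ), IsW f w → (∃ x, δ0 ≤ nrm (w x)) →
        eta m r f lam * En w ≤ ∑ x ∈ U j, nrm (w x) ^ 2) ∧
      (∀ w : X m r → ℝ, IsW f w → ∑ j, ∑ x ∈ U j, |w x| ≤ δ1 * ∑ x, |w x|) ∧
      (∑ j, ∑ x ∈ U j, ρ x ≤ 4 * J / 2 ^ lam * ∑ x, ρ x) := by
  have hpos : 0 < Fintype.card (Om m r lam) := by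
    have : Nonempty (Om m r lam) := ⟨fun _ => ⟨0, by positivity⟩⟩
    exact Fintype.card_pos
  obtain ⟨om, ho⟩ : ∃ om : Om m r lam, E2 f J δ0 om ∧ E3 f J δ1 om ∧ E4 J ρ om := by
    by_contra hcon
    push Not at hcon
    have hcov : (univ : Finset (Om m r lam)) ⊆
        ((univ.filter fun om : Om m r lam => ¬ E2 f J δ0 om) ∪
          (univ.filter fun om : Om m r lam => ¬ E3 f J δ1 om)) ∪
          (univ.filter fun om : Om m r lam => ¬ E4 J ρ om) := by
      intro om _
      simp only [mem_union, mem_filter, mem_univ, true_and]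
      by_cases a : E2 f J δ0 om
      · by_cases b : E3 f J δ1 om
        · exact Or.inr (hcon om a b)
        · exact Or.inl (Or.inr b)
      · exact Or.inl (Or.inl a)
    have h5 := (Finset.card_le_card hcov).trans ((Finset.card_union_le _ _).trans
      (Nat.add_le_add_right (Finset.card_union_le _ _) _))
    rw [Finset.card_univ] at h5
    omega
  refine ⟨fun j => Uset f J om j, fun j k x y hx hy hxy => Uset_sep f J om j k x y hx hy hxy,
    fun j k hjk => Uset_disj f J om j k hjk, fun j w hw hx => ho.1 j w hw hx, fun w hw => ?_, ?_⟩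
  · exact (sum_Uset_le f J om (fun x => |w x|) (fun x => abs_nonneg _)).trans (ho.2.1 w hw)
  · exact (sum_Uset_le f J om ρ hρ).trans ho.2.2

/-! ## Tail lemmas -/

/-- balls have the same size -/
theorem s1_card_ball (k : ℕ) (x : X m r) :
    (univ.filter fun y : X m r => hammingDist y x ≤ k).card = Ball m r k := by
  unfold Ball
  apply Finset.card_bij' (fun y _ => -x + y) (fun z _ => x + z)
  · intro y hy
    simp only [mem_filter, mem_univ, true_and] at hy ⊢
    rwa [hammingDist_zero_right, ← hammingDist_eq_hammingNorm, hammingDist_comm]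
  · intro z hz
    simp only [mem_filter, mem_univ, true_and] at hz ⊢
    rw [hammingDist_zero_right] at hz
    rw [hammingDist_comm, hammingDist_eq_hammingNorm, neg_add_cancel_left]
    exact hz
  · intro y _
    exact add_neg_cancel_left x y
  · intro z _
    exact neg_add_cancel_left x z

theorem s1_cardOm_pos : (0 : ℝ) < Fintype.card (Om m r lam) := by
  have : Nonempty (Om m r lam) := ⟨fun _ => ⟨0, by positivity⟩⟩
  exact_mod_cast Fintype.card_pos

/-- sum of an indicator-type function of a label -/
theorem s1_sum_lt {J : ℕ} (hJ : J ≤ 2 ^ lam) (c d : ℝ) :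
    ∑ a : Fin (2 ^ lam), (if a.val < J then c else d) = J * c + (2 ^ lam - J) * d := by
  classical
  rw [Finset.sum_ite]
  simp only [Finset.sum_const, nsmul_eq_mul]
  have h1 : (univ.filter fun a : Fin (2 ^ lam) => a.val < J).card = J := by
    rw [Fin.card_filter_val_lt]
    exact min_eq_right hJ
  have h2 : (univ.filter fun a : Fin (2 ^ lam) => ¬ a.val < J).card = 2 ^ lam - J := by
    have := Finset.card_filter_add_card_filter_not (s := (univ : Finset (Fin (2 ^ lam))))
      (fun a : Fin (2 ^ lam) => a.val < J)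
    rw [h1, Finset.card_univ, Fintype.card_fin] at this
    omega
  rw [h1, h2, Nat.cast_sub hJ]
  push_cast
  ring

theorem s1_prod_inter {J : ℕ} (B : Finset (X m r)) (om : Om m r lam) (c : ℝ) :
    ∏ x ∈ B, (if (om x).val < J then c else 1) = c ^ (B ∩ Uplus J om).card := by
  classical
  rw [Finset.prod_ite, Finset.prod_const, Finset.prod_const_one, mul_one]
  have h : (B.filter fun x => (om x).val < J) = B ∩ Uplus J om := by
    ext x
    simp [Uplus]
  rw [h]

open Classical in
/-- upper tail (exponential moment with `s = 2`) -/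
theorem tail_upper {J : ℕ} (hJ : J ≤ 2 ^ lam) (B : Finset (X m r)) (T : ℝ)
    (hT : 7 * ((J : ℝ) / 2 ^ lam) * (B.card : ℝ) ≤ T) :
    ((univ.filter fun om : Om m r lam => T ≤ (((B ∩ Uplus J om).card : ℕ) : ℝ)).card : ℝ) ≤
      Real.exp (-T) * Fintype.card (Om m r lam) := by
  set p : ℝ := (J : ℝ) / 2 ^ lam with hp
  have hp0 : 0 ≤ p := by positivity
  have h1 : ((univ.filter fun om : Om m r lam => T ≤ (((B ∩ Uplus J om).card : ℕ) : ℝ)).card : ℝ) ≤
      ∑ om : Om m r lam, Real.exp (-2 * T) * ∏ x ∈ B, (if (om x).val < J then Real.exp 2 else 1) := by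
    apply s1_markov
    · intro om
      apply mul_nonneg (Real.exp_pos _).le
      apply Finset.prod_nonneg
      intro x _
      split_ifs
      · exact (Real.exp_pos _).le
      · norm_num
    · intro om h
      rw [s1_prod_inter, ← Real.exp_nat_mul, ← Real.exp_add]
      rw [← Real.exp_zero]
      apply Real.exp_le_exp.mpr
      linarith
  refine h1.trans ?_
  rw [← Finset.mul_sum]
  rw [s1_prodB (fun a : Fin (2 ^ lam) => if a.val < J then Real.exp 2 else 1) (by positivity) B]
  rw [s1_sum_lt hJ]
  rw [← mul_assoc]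
  apply mul_le_mul_of_nonneg_right _ (by positivity)
  have h2 : ((J : ℝ) * Real.exp 2 + (2 ^ lam - J) * 1) / ((2 ^ lam : ℕ) : ℝ) =
      1 + p * (Real.exp 2 - 1) := by
    rw [hp]
    push_cast
    field_simp
    ring
  rw [h2]
  have he : Real.exp 2 - 1 ≤ 7 := by
    have h3 : Real.exp 2 = Real.exp 1 * Real.exp 1 := by
      rw [← Real.exp_add]; norm_num
    have h4 := Real.exp_one_lt_d9
    have h5 := Real.exp_pos 1
    rw [h3]
    nlinarith
  have he0 : 0 ≤ Real.exp 2 - 1 := by
    have := Real.add_one_le_exp (2 : ℝ)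
    linarith
  have h3 : (1 + p * (Real.exp 2 - 1)) ^ B.card ≤ Real.exp (p * (Real.exp 2 - 1) * B.card) := by
    have := Real.add_one_le_exp (p * (Real.exp 2 - 1))
    calc (1 + p * (Real.exp 2 - 1)) ^ B.card ≤ (Real.exp (p * (Real.exp 2 - 1))) ^ B.card := by
          apply pow_le_pow_left₀
          · positivity
          · linarith
      _ = Real.exp (p * (Real.exp 2 - 1) * B.card) := by
          rw [← Real.exp_nat_mul]
          congr 1
          ring
  calc Real.exp (-2 * T) * (1 + p * (Real.exp 2 - 1)) ^ B.card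
      ≤ Real.exp (-2 * T) * Real.exp (p * (Real.exp 2 - 1) * B.card) :=
        mul_le_mul_of_nonneg_left h3 (Real.exp_pos _).le
    _ = Real.exp (-2 * T + p * (Real.exp 2 - 1) * B.card) := by rw [← Real.exp_add]
    _ ≤ Real.exp (-T) := by
        apply Real.exp_le_exp.mpr
        have h4 : p * (Real.exp 2 - 1) * B.card ≤ 7 * p * B.card := by
          have : 0 ≤ p * (B.card : ℝ) := by positivity
          nlinarith
        linarith

open Classical in
/-- upper tail, union bound form -/
theorem tail_choose {J : ℕ} (hJ : J ≤ 2 ^ lam) (B : Finset (X m r)) (t : ℕ) :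
    ((univ.filter fun om : Om m r lam => t ≤ (B ∩ Uplus J om).card).card : ℝ) ≤
      (B.card.choose t : ℝ) * ((J : ℝ) / 2 ^ lam) ^ t * Fintype.card (Om m r lam) := by
  have h1 : ((univ.filter fun om : Om m r lam => t ≤ (B ∩ Uplus J om).card).card : ℝ) ≤
      ∑ om : Om m r lam, ∑ S ∈ powersetCard t B, ∏ x ∈ S, (if (om x).val < J then (1 : ℝ) else 0) := by
    apply s1_markov
    · intro om
      apply Finset.sum_nonneg
      intro S _
      apply Finset.prod_nonneg
      intro x _
      split_ifs <;> norm_num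
    · intro om h
      obtain ⟨S, hS, hSt⟩ := Finset.exists_subset_card_eq h
      have hmem : S ∈ powersetCard t B :=
        Finset.mem_powersetCard.mpr ⟨hS.trans Finset.inter_subset_left, hSt⟩
      have h2 : ∏ x ∈ S, (if (om x).val < J then (1 : ℝ) else 0) = 1 := by
        apply Finset.prod_eq_one
        intro x hx
        have hx' := (Finset.mem_inter.mp (hS hx)).2
        simp only [Uplus, mem_filter, mem_univ, true_and] at hx'
        simp [hx']
      calc (1 : ℝ) = ∏ x ∈ S, (if (om x).val < J then (1 : ℝ) else 0) := h2.symm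
        _ ≤ _ := by
          apply Finset.single_le_sum (f := fun S => ∏ x ∈ S, (if (om x).val < J then (1 : ℝ) else 0))
            _ hmem
          intro S' _
          apply Finset.prod_nonneg
          intro x _
          split_ifs <;> norm_num
  refine h1.trans (le_of_eq ?_)
  rw [Finset.sum_comm]
  have h3 : ∀ S ∈ powersetCard t B, ∑ om : Om m r lam, ∏ x ∈ S, (if (om x).val < J then (1 : ℝ) else 0)
      = ((J : ℝ) / 2 ^ lam) ^ t * Fintype.card (Om m r lam) := by
    intro S hS
    rw [s1_prodB (fun a : Fin (2 ^ lam) => if a.val < J then (1 : ℝ) else 0) (by positivity) S,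
      s1_sum_lt hJ, (Finset.mem_powersetCard.mp hS).2]
    congr 2
    push_cast
    ring
  rw [Finset.sum_congr rfl h3, Finset.sum_const, Finset.card_powersetCard, nsmul_eq_mul]
  ring

open Classical in
/-- union bound (iv), Markov -/
theorem bad4 {J : ℕ} (hJ : J ≤ 2 ^ lam) (ρ : X m r → ℝ) (hρ : ∀ x, 0 ≤ ρ x) :
    4 * (univ.filter fun om : Om m r lam => ¬ E4 J ρ om).card ≤ Fintype.card (Om m r lam) := by
  set p : ℝ := (J : ℝ) / 2 ^ lam with hp
  have hp0 : 0 ≤ p := by positivity
  have hN := s1_cardOm_pos (m := m) (r := r) (lam := lam)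
  have hsum : ∑ om : Om m r lam, ∑ x ∈ Uplus J om, ρ x =
      p * (∑ x, ρ x) * Fintype.card (Om m r lam) := by
    have h1 : ∀ om : Om m r lam, ∑ x ∈ Uplus J om, ρ x =
        ∑ x, ρ x * ∏ y ∈ {x}, (if (om y).val < J then (1 : ℝ) else 0) := by
      intro om
      unfold Uplus
      rw [Finset.sum_filter]
      apply Finset.sum_congr rfl
      intro x _
      by_cases h : (om x).val < J <;> simp [h]
    simp only [h1]
    rw [Finset.sum_comm]
    have h2 : ∀ x : X m r, ∑ om : Om m r lam, ρ x * ∏ y ∈ {x}, (if (om y).val < J then (1 : ℝ) else 0)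
        = ρ x * (p * Fintype.card (Om m r lam)) := by
      intro x
      rw [← Finset.mul_sum]
      rw [s1_prodB (fun a : Fin (2 ^ lam) => if a.val < J then (1 : ℝ) else 0) (by positivity) {x},
        s1_sum_lt hJ]
      congr 2
      rw [Finset.card_singleton, pow_one, hp]
      push_cast
      ring
    rw [Finset.sum_congr rfl (fun x _ => h2 x), ← Finset.sum_mul]
    ring
  set s : ℝ := ∑ x, ρ x with hs
  have hs0 : 0 ≤ s := Finset.sum_nonneg fun x _ => hρ x
  by_cases hz : p * s = 0
  · have hall : ∀ om : Om m r lam, E4 J ρ om := by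
      intro om
      rw [hz, zero_mul] at hsum
      have h3 := (Finset.sum_eq_zero_iff_of_nonneg
        (fun om' _ => Finset.sum_nonneg (fun x _ => hρ x))).mp hsum om (Finset.mem_univ _)
      unfold E4
      rw [h3]
      positivity
    have : (univ.filter fun om : Om m r lam => ¬ E4 J ρ om) = ∅ := by
      rw [Finset.filter_eq_empty_iff]
      intro om _
      simpa using hall om
    rw [this]
    simp
  · have hps : 0 < p * s := lt_of_le_of_ne (by positivity) (Ne.symm hz)
    have h4 : ((univ.filter fun om : Om m r lam => ¬ E4 J ρ om).card : ℝ) ≤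
        ∑ om : Om m r lam, (4 * (p * s))⁻¹ * ∑ x ∈ Uplus J om, ρ x := by
      apply s1_markov
      · intro om
        apply mul_nonneg (by positivity)
        exact Finset.sum_nonneg fun x _ => hρ x
      · intro om h
        unfold E4 at h
        rw [not_le] at h
        have h5 : 4 * (p * s) < ∑ x ∈ Uplus J om, ρ x := by
          calc 4 * (p * s) = 4 * J / 2 ^ lam * s := by rw [hp]; ring
            _ < _ := h
        rw [inv_mul_eq_div, le_div_iff₀ (by positivity)]
        linarith
    rw [← Finset.mul_sum, hsum] at h4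
    have h6 : (4 * (p * s))⁻¹ * (p * s * (Fintype.card (Om m r lam) : ℝ)) =
        (Fintype.card (Om m r lam) : ℝ) / 4 := by
      have hps' := hps.ne'
      rw [mul_inv, mul_assoc, ← mul_assoc (p * s)⁻¹, inv_mul_cancel₀ hps', one_mul]
      ring
    rw [h6] at h4
    have h7 : (4 * (univ.filter fun om : Om m r lam => ¬ E4 J ρ om).card : ℝ) ≤
        (Fintype.card (Om m r lam) : ℝ) := by linarith
    exact_mod_cast h7

/-- greedy separated subset -/
theorem exists_sep (k : ℕ) (B : Finset (X m r)) :
    ∃ B1 ⊆ B, (∀ x ∈ B1, ∀ y ∈ B1, x ≠ y → k < hammingDist x y) ∧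
      B.card ≤ B1.card * Ball m r k := by
  classical
  obtain ⟨B1, hB1, hmax⟩ := Finset.exists_max_image
    ((B.powerset).filter fun C => ∀ x ∈ C, ∀ y ∈ C, x ≠ y → k < hammingDist x y)
    (fun C => C.card) ⟨∅, by simp⟩
  rw [Finset.mem_filter, Finset.mem_powerset] at hB1
  refine ⟨B1, hB1.1, hB1.2, ?_⟩
  have hcov : B ⊆ B1.biUnion fun x => univ.filter fun y : X m r => hammingDist y x ≤ k := by
    intro y hy
    rw [Finset.mem_biUnion]
    by_contra hcon
    push Not at hcon
    have hyB : y ∉ B1 := by
      intro hy1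
      apply hcon y hy1
      simp
    have h2 := hmax (insert y B1) (by
      rw [Finset.mem_filter, Finset.mem_powerset]
      refine ⟨Finset.insert_subset hy hB1.1, ?_⟩
      have hfar : ∀ x ∈ B1, k < hammingDist y x := by
        intro x hx
        have := hcon x hx
        simpa using this
      intro a ha b hb hab
      rw [Finset.mem_insert] at ha hb
      rcases ha with rfl | ha
      · rcases hb with rfl | hb
        · exact absurd rfl hab
        · exact hfar b hb
      · rcases hb with rfl | hb
        · rw [hammingDist_comm]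
          exact hfar a ha
        · exact hB1.2 a ha b hb hab)
    rw [Finset.card_insert_of_notMem hyB] at h2
    omega
  calc B.card ≤ _ := Finset.card_le_card hcov
    _ ≤ ∑ x ∈ B1, (univ.filter fun y : X m r => hammingDist y x ≤ k).card := Finset.card_biUnion_le
    _ = ∑ x ∈ B1, Ball m r k := by
        apply Finset.sum_congr rfl
        intro x _
        exact s1_card_ball k x
    _ = B1.card * Ball m r k := by rw [Finset.sum_const, smul_eq_mul]

theorem s1_Ball_mono {k l : ℕ} (h : k ≤ l) : Ball m r k ≤ Ball m r l := by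
  unfold Ball
  apply Finset.card_le_card
  intro z hz
  simp only [mem_filter, mem_univ, true_and] at hz ⊢
  omega

open Classical in
/-- lower bound for the probability of `x ∈ U_j` -/
theorem s1_P {f J : ℕ} (hN3 : 2 * (J : ℝ) * (Ball m r (4 * f) : ℝ) ≤ 2 ^ lam) (x : X m r)
    (j : Fin J) :
    1 / 2 / 2 ^ lam * (Fintype.card (Om m r lam) : ℝ) ≤
      ((univ.filter fun om : Om m r lam => x ∈ Uset f J om j).card : ℝ) := by
  have hB1 : (1 : ℝ) ≤ (Ball m r (4 * f) : ℝ) := by exact_mod_cast one_le_Ball m r (4 * f)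
  have hJ0 : (0 : ℝ) ≤ J := by positivity
  have hJR : (J : ℝ) ≤ 2 ^ lam := by nlinarith
  have hJ : J ≤ 2 ^ lam := by exact_mod_cast hJR
  set C : Finset (X m r) := univ.filter fun y => y ≠ x ∧ hammingDist x y ≤ 2 * f with hC
  have hCcard : (C.card : ℝ) ≤ (Ball m r (4 * f) : ℝ) := by
    have h1 : C.card ≤ Ball m r (2 * f) := by
      rw [← s1_card_ball (2 * f) x]
      apply Finset.card_le_card
      intro y hy
      simp only [hC, mem_filter, mem_univ, true_and] at hy ⊢
      rw [hammingDist_comm]
      exact hy.2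
    exact_mod_cast h1.trans (s1_Ball_mono (by omega))
  obtain ⟨g, hg⟩ : ∃ g : X m r → Fin (2 ^ lam) → ℝ, ∀ y a, g y a =
        (if y = x then (if a.val = j.val then (1 : ℝ) else 0) else
          if y ∈ C then (if a.val < J then (0 : ℝ) else 1) else 1) := ⟨_, fun _ _ => rfl⟩
  have hcard : ((univ.filter fun om : Om m r lam => x ∈ Uset f J om j).card : ℝ) =
      ∑ om : Om m r lam, ∏ y, g y (om y) := by
    rw [Finset.card_filter, Nat.cast_sum]
    apply Finset.sum_congr rfl
    intro om _
    by_cases h : x ∈ Uset f J om j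
    · rw [if_pos h]
      symm
      rw [Nat.cast_one]
      apply Finset.prod_eq_one
      intro y _
      rw [hg]
      simp only [Uset, mem_filter, mem_univ, true_and] at h
      by_cases hy : y = x
      · simp [hy, h.1]
      · by_cases hyC : y ∈ C
        · have := h.2 y hy (by
            simp only [hC, mem_filter, mem_univ, true_and] at hyC
            exact hyC.2)
          simp [hy, hyC, this]
        · simp [hy, hyC]
    · rw [if_neg h, Nat.cast_zero]
      symm
      simp only [Uset, mem_filter, mem_univ, true_and, not_and, not_forall] at h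
      by_cases h1 : (om x).val = j.val
      · obtain ⟨y, hy1, hy2, hy3⟩ := h h1
        apply Finset.prod_eq_zero (Finset.mem_univ y)
        have hyC : y ∈ C := by
          simp only [hC, mem_filter, mem_univ, true_and]
          exact ⟨hy1, hy2⟩
        simp [hg, hy1, hyC, not_le.mp hy3]
      · apply Finset.prod_eq_zero (Finset.mem_univ x)
        simp [hg, h1]
  rw [hcard, s1_prod g]
  have hK : (0 : ℝ) < 2 ^ lam := by positivity
  have hh : ∀ y : X m r, (∑ a : Fin (2 ^ lam), g y a) =
      (2 ^ lam : ℝ) * ((if y = x then 1 / (2 ^ lam : ℝ) else 1) *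
        (if y ∈ C then (1 - (J : ℝ) / 2 ^ lam) else 1)) := by
    intro y
    simp only [hg]
    by_cases hy : y = x
    · have hyC : y ∉ C := by simp [hC, hy]
      simp only [hy, if_true]
      rw [if_neg (by simpa [hy] using hyC)]
      have h1 : ∑ a : Fin (2 ^ lam), (if a.val = j.val then (1 : ℝ) else 0) = 1 := by
        rw [Finset.sum_eq_single (⟨j.val, lt_of_lt_of_le j.2 hJ⟩ : Fin (2 ^ lam))]
        · simp
        · intro a _ ha
          rw [if_neg]
          intro h
          apply ha
          exact Fin.ext h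
        · simp
      rw [h1]
      field_simp
    · by_cases hyC : y ∈ C
      · simp only [hy, hyC, if_true, if_false]
        rw [s1_sum_lt hJ]
        field_simp
        ring
      · simp only [hy, hyC, if_false]
        simp
  simp only [hh]
  rw [Finset.prod_mul_distrib, Finset.prod_mul_distrib, Finset.prod_ite_eq', Finset.prod_ite_mem,
    Finset.univ_inter, if_pos (Finset.mem_univ _), Finset.prod_const, Finset.prod_const]
  have hcardOm : (Fintype.card (Om m r lam) : ℝ) = (2 ^ lam : ℝ) ^ (univ : Finset (X m r)).card := by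
    rw [Fintype.card_fun, Fintype.card_fin, Finset.card_univ]
    push_cast
    rfl
  rw [hcardOm]
  have hbern : 1 / 2 ≤ (1 - (J : ℝ) / 2 ^ lam) ^ C.card := by
    have h1 := one_add_mul_le_pow (a := -((J : ℝ) / 2 ^ lam)) (by
      have : (J : ℝ) / 2 ^ lam ≤ 1 := by
        rw [div_le_one hK]; exact hJR
      linarith) C.card
    have h2 : (C.card : ℝ) * ((J : ℝ) / 2 ^ lam) ≤ 1 / 2 := by
      rw [mul_div_assoc', div_le_iff₀ hK]
      nlinarith
    calc (1 : ℝ) / 2 ≤ 1 + (C.card : ℝ) * (-((J : ℝ) / 2 ^ lam)) := by linarith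
      _ ≤ _ := h1
      _ = _ := by ring
  calc 1 / 2 / 2 ^ lam * (2 ^ lam : ℝ) ^ (univ : Finset (X m r)).card
      = (2 ^ lam : ℝ) ^ (univ : Finset (X m r)).card * (1 / 2 ^ lam * (1 / 2)) := by ring
    _ ≤ _ := by
      apply mul_le_mul_of_nonneg_left _ (by positivity)
      apply mul_le_mul_of_nonneg_left hbern (by positivity)

open Classical in
theorem s1_expm {f J : ℕ} (hN3 : 2 * (J : ℝ) * (Ball m r (4 * f) : ℝ) ≤ 2 ^ lam)
    (j : Fin J) (e : ℝ) (he0 : 0 ≤ e) (he1 : e ≤ 1) (B : Finset (X m r))
    (hB : ∀ x ∈ B, ∀ y ∈ B, x ≠ y → 4 * f < hammingDist x y) :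
    ∑ om : Om m r lam, ∏ x ∈ B, (if x ∈ Uset f J om j then e else 1) ≤
      (1 - (1 - e) / 2 / 2 ^ lam) ^ B.card * Fintype.card (Om m r lam) := by
  have hN := s1_cardOm_pos (m := m) (r := r) (lam := lam)
  have hK1 : (1 : ℝ) ≤ 2 ^ lam := one_le_pow₀ (by norm_num)
  have hq0 : 0 ≤ 1 - (1 - e) / 2 / 2 ^ lam := by
    have : (1 - e) / 2 / 2 ^ lam ≤ 1 := by
      rw [div_le_one (by positivity)]
      linarith
    linarith
  induction B using Finset.induction_on with
  | empty => simp
  | @insert x B hx ih =>
    have hB' : ∀ a ∈ B, ∀ b ∈ B, a ≠ b → 4 * f < hammingDist a b :=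
      fun a ha b hb => hB a (Finset.mem_insert_of_mem ha) b (Finset.mem_insert_of_mem hb)
    have ih' := ih hB'
    have hsplit : ∀ om : Om m r lam, ∏ y ∈ insert x B, (if y ∈ Uset f J om j then e else 1) =
        (if x ∈ Uset f J om j then e else 1) * ∏ y ∈ B, (if y ∈ Uset f J om j then e else 1) :=
      fun om => Finset.prod_insert hx
    simp only [hsplit]
    have hind := s1_indep (K := 2 ^ lam) (univ.filter fun y : X m r => hammingDist x y ≤ 2 * f)
      (fun om : Om m r lam => (if x ∈ Uset f J om j then e else 1))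
      (fun om : Om m r lam => ∏ y ∈ B, (if y ∈ Uset f J om j then e else 1))
      (by
        intro a b hab
        have hiff : x ∈ Uset f J a j ↔ x ∈ Uset f J b j := by
          simp only [Uset, mem_filter, mem_univ, true_and] at hab ⊢
          rw [hab x (by simp)]
          constructor
          · rintro ⟨h1, h2⟩
            exact ⟨h1, fun y hy hd => by rw [← hab y hd]; exact h2 y hy hd⟩
          · rintro ⟨h1, h2⟩
            exact ⟨h1, fun y hy hd => by rw [hab y hd]; exact h2 y hy hd⟩
        simp only [hiff])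
      (by
        intro a b hab
        apply Finset.prod_congr rfl
        intro z hz
        have hfar : 4 * f < hammingDist x z := by
          apply hB x (Finset.mem_insert_self _ _) z (Finset.mem_insert_of_mem hz)
          rintro rfl
          exact hx hz
        have hab' : ∀ y, hammingDist z y ≤ 2 * f → a y = b y := by
          intro y hy
          apply hab
          simp only [mem_filter, mem_univ, true_and]
          intro hxy
          have := hammingDist_triangle x y z
          rw [hammingDist_comm y z] at this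
          omega
        have hiff : z ∈ Uset f J a j ↔ z ∈ Uset f J b j := by
          simp only [Uset, mem_filter, mem_univ, true_and]
          rw [hab' z (by simp)]
          constructor
          · rintro ⟨h1, h2⟩
            exact ⟨h1, fun y hy hd => by rw [← hab' y hd]; exact h2 y hy hd⟩
          · rintro ⟨h1, h2⟩
            exact ⟨h1, fun y hy hd => by rw [hab' y hd]; exact h2 y hy hd⟩
        simp only [hiff])
    have hF : ∑ om : Om m r lam, (if x ∈ Uset f J om j then e else 1) ≤
        (1 - (1 - e) / 2 / 2 ^ lam) * Fintype.card (Om m r lam) := by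
      have h1 : ∀ om : Om m r lam, (if x ∈ Uset f J om j then e else (1 : ℝ)) =
          1 - (1 - e) * (if x ∈ Uset f J om j then 1 else 0) := by
        intro om
        split_ifs <;> ring
      simp only [h1]
      rw [Finset.sum_sub_distrib, ← Finset.mul_sum]
      have h2 : ∑ om : Om m r lam, (if x ∈ Uset f J om j then (1 : ℝ) else 0) =
          ((univ.filter fun om : Om m r lam => x ∈ Uset f J om j).card : ℝ) := by
        rw [Finset.card_filter]
        push_cast
        rfl
      rw [h2]
      have h3 := s1_P hN3 x j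
      have h4 : (∑ _om : Om m r lam, (1 : ℝ)) = Fintype.card (Om m r lam) := by simp
      rw [h4]
      have h5 := mul_le_mul_of_nonneg_left h3 (by linarith : (0 : ℝ) ≤ 1 - e)
      calc _ ≤ (Fintype.card (Om m r lam) : ℝ) -
            (1 - e) * (1 / 2 / 2 ^ lam * (Fintype.card (Om m r lam) : ℝ)) := by linarith
        _ = _ := by ring
    have hH0 : 0 ≤ ∑ om : Om m r lam, ∏ y ∈ B, (if y ∈ Uset f J om j then e else 1) := by
      apply Finset.sum_nonneg
      intro om _
      apply Finset.prod_nonneg
      intro y _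
      split_ifs
      · exact he0
      · norm_num
    rw [Finset.card_insert_of_notMem hx, pow_succ]
    have h6 : (Fintype.card (Om m r lam) : ℝ) *
        ∑ om : Om m r lam, (if x ∈ Uset f J om j then e else 1) *
          ∏ y ∈ B, (if y ∈ Uset f J om j then e else 1) ≤
        (Fintype.card (Om m r lam) : ℝ) *
          ((1 - (1 - e) / 2 / 2 ^ lam) ^ B.card * (1 - (1 - e) / 2 / 2 ^ lam) *
            Fintype.card (Om m r lam)) := by
      rw [hind]
      calc _ ≤ ((1 - (1 - e) / 2 / 2 ^ lam) * (Fintype.card (Om m r lam) : ℝ)) *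
            ((1 - (1 - e) / 2 / 2 ^ lam) ^ B.card * (Fintype.card (Om m r lam) : ℝ)) := by
              apply mul_le_mul hF ih' hH0
              positivity
        _ = _ := by ring
    exact le_of_mul_le_mul_left h6 hN

open Classical in
/-- lower tail for a `4f`-separated set -/
theorem tail_lower {f J : ℕ} (hN3 : 2 * (J : ℝ) * (Ball m r (4 * f) : ℝ) ≤ 2 ^ lam)
    (B : Finset (X m r)) (hB : ∀ x ∈ B, ∀ y ∈ B, x ≠ y → 4 * f < hammingDist x y) (j : Fin J) :
    ((univ.filter fun om : Om m r lam =>
        (((B ∩ Uset f J om j).card : ℕ) : ℝ) ≤ (B.card : ℝ) / 2 ^ lam / 4).card : ℝ) ≤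
      Real.exp (-((B.card : ℝ) / 2 ^ lam / 16)) * Fintype.card (Om m r lam) := by
  set b : ℝ := (B.card : ℝ) / 2 ^ lam with hb
  have hb0 : 0 ≤ b := by positivity
  have he := Real.exp_neg_one_lt_d9
  have h1 : ((univ.filter fun om : Om m r lam =>
        (((B ∩ Uset f J om j).card : ℕ) : ℝ) ≤ b / 4).card : ℝ) ≤
      ∑ om : Om m r lam, Real.exp (b / 4) *
        ∏ x ∈ B, (if x ∈ Uset f J om j then Real.exp (-1) else 1) := by
    apply s1_markov
    · intro om
      apply mul_nonneg (Real.exp_pos _).le
      apply Finset.prod_nonneg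
      intro x _
      split_ifs
      · exact (Real.exp_pos _).le
      · norm_num
    · intro om h
      rw [Finset.prod_ite_mem, Finset.prod_const, ← Real.exp_nat_mul, ← Real.exp_add]
      apply Real.one_le_exp
      linarith
  refine h1.trans ?_
  rw [← Finset.mul_sum]
  have h2 := s1_expm hN3 j (Real.exp (-1)) (Real.exp_pos _).le (by linarith) B hB
  have h3 : (1 - (1 - Real.exp (-1)) / 2 / 2 ^ lam) ^ B.card ≤
      Real.exp (-((1 - Real.exp (-1)) / 2 * b)) := by
    have h4 := Real.add_one_le_exp (-((1 - Real.exp (-1)) / 2 / 2 ^ lam))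
    have h5 : 0 ≤ 1 - (1 - Real.exp (-1)) / 2 / 2 ^ lam := by
      have hK1 : (1 : ℝ) ≤ 2 ^ lam := one_le_pow₀ (by norm_num)
      have : (1 - Real.exp (-1)) / 2 / 2 ^ lam ≤ 1 := by
        rw [div_le_one (by positivity)]
        have := Real.exp_pos (-1)
        linarith
      linarith
    calc (1 - (1 - Real.exp (-1)) / 2 / 2 ^ lam) ^ B.card
        ≤ (Real.exp (-((1 - Real.exp (-1)) / 2 / 2 ^ lam))) ^ B.card := by
          apply pow_le_pow_left₀ h5
          linarith
      _ = _ := by
          rw [← Real.exp_nat_mul]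
          congr 1
          rw [hb]
          ring
  calc Real.exp (b / 4) * ∑ om : Om m r lam, ∏ x ∈ B, (if x ∈ Uset f J om j then Real.exp (-1) else 1)
      ≤ Real.exp (b / 4) * ((1 - (1 - Real.exp (-1)) / 2 / 2 ^ lam) ^ B.card *
          Fintype.card (Om m r lam)) := mul_le_mul_of_nonneg_left h2 (Real.exp_pos _).le
    _ ≤ Real.exp (b / 4) * (Real.exp (-((1 - Real.exp (-1)) / 2 * b)) *
          Fintype.card (Om m r lam)) := by
        apply mul_le_mul_of_nonneg_left _ (Real.exp_pos _).le
        apply mul_le_mul_of_nonneg_right h3 (by positivity)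
    _ = Real.exp (b / 4 + -((1 - Real.exp (-1)) / 2 * b)) * Fintype.card (Om m r lam) := by
        rw [Real.exp_add]; ring
    _ ≤ Real.exp (-(b / 16)) * Fintype.card (Om m r lam) := by
        apply mul_le_mul_of_nonneg_right _ (by positivity)
        apply Real.exp_le_exp.mpr
        nlinarith

end Crest.Agent.R63
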