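import Crest.Agent.R63.C0

/-! ROW 63, module S, property (ii) (`bad2`): small sums over `U_j` have small probability (helper63).

`Om` probability space (counting), `Uf om` the random set (`U_j`), `hT` the lower tail bound, `hS` the greedy
separated subset lemma (both from S1).  Union bound over the scales `s`, the sizes `b = #{nrm (w x) >= dl s}` and the
codes of `code2`. -/

set_option autoImplicit false
open Finset

namespace Crest.Agent.R63

theorem s2_nrm_nonneg (t : ℝ) : 0 ≤ nrm t := abs_nonneg _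

theorem s2_nrm_le_half (t : ℝ) : nrm t ≤ 1 / 2 := abs_sub_round t

theorem s2_nrm_tri (a b : ℝ) : nrm a ≤ nrm (a - b) + nrm b := by
  unfold nrm
  have h := round_le a (round (a - b) + round b)
  calc |a - round a| ≤ |a - ((round (a - b) + round b : ℤ) : ℝ)| := h
    _ = |(a - b - round (a - b)) + (b - round b)| := by push_cast; congr 1; ring
    _ ≤ _ := abs_add_le _ _

theorem s2_nrm_symm (a b : ℝ) : nrm (a - b) = nrm (b - a) := by
  apply le_antisymm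
  · unfold nrm
    have h := round_le (a - b) (-round (b - a))
    calc |a - b - round (a - b)| ≤ |a - b - ((-round (b - a) : ℤ) : ℝ)| := h
      _ = |b - a - round (b - a)| := by
        rw [← abs_neg]; push_cast; congr 1; ring
  · unfold nrm
    have h := round_le (b - a) (-round (a - b))
    calc |b - a - round (b - a)| ≤ |b - a - ((-round (a - b) : ℤ) : ℝ)| := h
      _ = |a - b - round (a - b)| := by
        rw [← abs_neg]; push_cast; congr 1; ring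

/-- the scales -/
noncomputable def dl (s : ℕ) : ℝ := (1 / 2) ^ (s + 1)

theorem dl_pos (s : ℕ) : 0 < dl s := by unfold dl; positivity

theorem dl_le (s : ℕ) : dl s ≤ 1 := by
  unfold dl
  exact pow_le_one₀ (by norm_num) (by norm_num)

/-- the points of size at least `dl s` -/
noncomputable def BB {m r : ℕ} (s : ℕ) (w : X m r → ℝ) : Finset (X m r) :=
  univ.filter fun x => dl s ≤ nrm (w x)

theorem s2_card_X (m r : ℕ) : Fintype.card (X m r) = 2 ^ (r * m) := by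
  simp [X, ZMod.card, pow_mul]

theorem s2_point (v : ℝ) (hv0 : 0 ≤ v) (hv : v ≤ 1 / 2) (n : ℕ) :
    v ^ 2 ≤ dl n ^ 2 + ∑ s ∈ Icc 1 n, if dl s ≤ v then 4 * dl s ^ 2 else 0 := by
  have hnn : 0 ≤ ∑ s ∈ Icc 1 n, if dl s ≤ v then 4 * dl s ^ 2 else 0 :=
    sum_nonneg fun s _ => by split_ifs <;> positivity
  by_cases h : v < dl n ∨ n = 0
  · rcases h with h | h
    · have : v ^ 2 ≤ dl n ^ 2 := pow_le_pow_left₀ hv0 h.le 2
      linarith
    · subst h
      have : v ^ 2 ≤ dl 0 ^ 2 := pow_le_pow_left₀ hv0 (by unfold dl; linarith) 2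
      linarith
  · push Not at h
    obtain ⟨h1, h2⟩ := h
    have hex : ∃ s, 1 ≤ s ∧ dl s ≤ v := ⟨n, Nat.one_le_iff_ne_zero.2 h2, h1⟩
    classical
    set s := Nat.find hex with hs
    have hs1 := Nat.find_spec hex
    have hsn : s ≤ n := Nat.find_min' hex ⟨Nat.one_le_iff_ne_zero.2 h2, h1⟩
    have hv2 : v ≤ 2 * dl s := by
      by_cases hs2 : s = 1
      · rw [hs2]; unfold dl; norm_num; linarith
      · have hs3 : ¬ (1 ≤ s - 1 ∧ dl (s - 1) ≤ v) := Nat.find_min hex (by omega)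
        have hs4 : 1 ≤ s - 1 := by
          have := hs1.1
          omega
        have hs5 : v < dl (s - 1) := by
          by_contra hcon
          exact hs3 ⟨hs4, not_lt.1 hcon⟩
        have hs6 : dl (s - 1) = 2 * dl s := by
          unfold dl
          have : s + 1 = (s - 1 + 1) + 1 := by omega
          rw [this, pow_succ]
          ring
        linarith
    have h3 : v ^ 2 ≤ 4 * dl s ^ 2 := by nlinarith [dl_pos s]
    have h4 : (4 * dl s ^ 2) ≤ ∑ s ∈ Icc 1 n, if dl s ≤ v then 4 * dl s ^ 2 else 0 := by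
      have := single_le_sum (f := fun s => if dl s ≤ v then 4 * dl s ^ 2 else (0 : ℝ))
        (fun i _ => by split_ifs <;> positivity) (mem_Icc.2 ⟨hs1.1, hsn⟩)
      simpa [hs1.2] using this
    have h5 : 0 ≤ dl n ^ 2 := by positivity
    linarith

theorem s2_scale {m r : ℕ} (hn : 1 ≤ r * m) (w : X m r → ℝ) (hE : 1 ≤ En w) :
    ∃ s, 1 ≤ s ∧ s ≤ r * m ∧ En w ≤ 8 * ((r * m : ℕ) : ℝ) * (BB s w).card * dl s ^ 2 := by
  by_contra hcon
  push Not at hcon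
  set n := r * m with hn'
  have hn0 : (0 : ℝ) < (n : ℝ) := by exact_mod_cast hn
  have h1 : En w ≤ (2 : ℝ) ^ n * dl n ^ 2 + ∑ s ∈ Icc 1 n, 4 * dl s ^ 2 * (BB s w).card := by
    unfold En
    have h2 : ∀ x, nrm (w x) ^ 2 ≤ dl n ^ 2 +
        ∑ s ∈ Icc 1 n, if dl s ≤ nrm (w x) then 4 * dl s ^ 2 else 0 :=
      fun x => s2_point _ (s2_nrm_nonneg _) (s2_nrm_le_half _) n
    refine (sum_le_sum fun x _ => h2 x).trans ?_
    rw [sum_add_distrib, sum_const, nsmul_eq_mul, card_univ, s2_card_X, sum_comm]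
    push_cast
    refine add_le_add le_rfl (sum_le_sum fun s _ => ?_)
    rw [← sum_filter, sum_const, nsmul_eq_mul]
    unfold BB
    rw [mul_comm]
  have h2 : ∑ s ∈ Icc 1 n, 4 * dl s ^ 2 * (BB s w).card ≤ ∑ s ∈ Icc 1 n, En w / (2 * n) := by
    refine sum_le_sum fun s hs => ?_
    rw [mem_Icc] at hs
    have := hcon s hs.1 hs.2
    rw [le_div_iff₀ (by positivity)]
    nlinarith
  rw [sum_const, Nat.card_Icc, nsmul_eq_mul] at h2
  have h3 : ((n + 1 - 1 : ℕ) : ℝ) * (En w / (2 * n)) = En w / 2 := by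
    rw [Nat.add_sub_cancel]
    field_simp
  rw [h3] at h2
  have h4 : (2 : ℝ) ^ n * dl n ^ 2 ≤ 1 / 4 := by
    unfold dl
    have : (2 : ℝ) ^ n * ((1 / 2) ^ (n + 1)) ^ 2 = (1 / 4) * (1 / 2) ^ n := by
      rw [← pow_mul, show (n + 1) * 2 = n + n + 2 by ring, pow_add, pow_add]
      have : (2 : ℝ) ^ n * (1 / 2) ^ n = 1 := by rw [← mul_pow]; norm_num
      calc (2 : ℝ) ^ n * ((1 / 2) ^ n * (1 / 2) ^ n * (1 / 2) ^ 2)
          = ((2 : ℝ) ^ n * (1 / 2) ^ n) * (1 / 2) ^ n * (1 / 4) := by ring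
        _ = _ := by rw [this]; ring
    rw [this]
    have : (1 / 2 : ℝ) ^ n ≤ 1 := pow_le_one₀ (by norm_num) (by norm_num)
    linarith
  linarith

theorem s2_ball_pos (m r k : ℕ) : 1 ≤ Ball m r k := by
  unfold Ball
  rw [Nat.one_le_iff_ne_zero, Finset.card_ne_zero]
  exact ⟨0, mem_filter.2 ⟨mem_univ _, by simp⟩⟩

/-- `w` not small has large energy -/
theorem s2_En_large {m r f lam : ℕ} (hf : f ≤ m) (δ0 : ℝ) (h0 : 0 < δ0)
    (hN1 : Th m r f * 2 ^ 50 * ((r * m : ℕ) : ℝ) ^ 5 * 2 ^ lam * (Ball m r (4 * f) : ℝ) ≤ δ0 ^ 2)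
    (w : X m r → ℝ) (hw : IsW f w) (hx : ∃ x, δ0 ≤ nrm (w x)) :
    2 ^ 47 * ((r * m : ℕ) : ℝ) ^ 5 * 2 ^ lam * (Ball m r (4 * f) : ℝ) ≤ En w := by
  have h1 : ¬ (8 * (Dn m r f : ℝ) * En w < δ0 ^ 2 * 2 ^ (r * m)) := by
    intro h
    obtain ⟨x, hx⟩ := hx
    exact absurd (sup2 hf w hw δ0 h0 h x) (not_lt.2 hx)
  push Not at h1
  have hE0 : 0 ≤ En w := sum_nonneg fun _ _ => by positivity
  have hp : (0 : ℝ) < 2 ^ (r * m) := by positivity
  have hD : 0 < (Dn m r f : ℝ) := by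
    rcases Nat.eq_zero_or_pos (Dn m r f) with h | h
    · rw [h] at h1
      have : 0 < δ0 ^ 2 * 2 ^ (r * m) := by positivity
      simp at h1
      linarith
    · exact_mod_cast h
  unfold Th at hN1
  have h2 : (Dn m r f : ℝ) * (2 ^ 50 * ((r * m : ℕ) : ℝ) ^ 5 * 2 ^ lam * (Ball m r (4 * f) : ℝ)) ≤
      δ0 ^ 2 * 2 ^ (r * m) := by
    have h3 := mul_le_mul_of_nonneg_right hN1 hp.le
    calc (Dn m r f : ℝ) * (2 ^ 50 * ((r * m : ℕ) : ℝ) ^ 5 * 2 ^ lam * (Ball m r (4 * f) : ℝ))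
        = (Dn m r f : ℝ) / 2 ^ (r * m) * 2 ^ 50 * ((r * m : ℕ) : ℝ) ^ 5 * 2 ^ lam *
          (Ball m r (4 * f) : ℝ) * 2 ^ (r * m) := by field_simp
      _ ≤ _ := h3
  have h3 : (Dn m r f : ℝ) * (2 ^ 50 * ((r * m : ℕ) : ℝ) ^ 5 * 2 ^ lam * (Ball m r (4 * f) : ℝ)) ≤
      (Dn m r f : ℝ) * (8 * En w) := by
    calc _ ≤ _ := h2
      _ ≤ _ := h1
      _ = _ := by ring
  have h4 := le_of_mul_le_mul_left h3 hD
  linarith

/-- the constant of property G -/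
noncomputable def s2eta (m r f lam : ℕ) : ℝ :=
  1 / (2 ^ (lam + 8) * ((r * m : ℕ) : ℝ) * (Ball m r (4 * f) : ℝ))

theorem s2_log (s n : ℕ) (hs : s ≤ n) (hn : 1 ≤ n) : Real.log (3 / (dl s / 8)) ≤ 6 * (n : ℝ) := by
  have h1 : 3 / (dl s / 8) = 3 * 2 ^ (s + 4) := by
    unfold dl
    rw [one_div, inv_pow]
    field_simp
    rw [show s + 4 = (s + 1) + 3 by ring, pow_add (2 : ℝ) (s + 1) 3]
    ring
  rw [h1, Real.log_mul (by norm_num) (by positivity), Real.log_pow]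
  have h2 : Real.log 3 ≤ 2 := by
    have := Real.log_le_sub_one_of_pos (show (0 : ℝ) < 3 by norm_num)
    linarith
  have h3 := Real.log_two_lt_d9
  have h4 : (s : ℝ) ≤ n := by exact_mod_cast hs
  have h5 : (1 : ℝ) ≤ n := by exact_mod_cast hn
  have h6 : 0 < Real.log 2 := Real.log_pos (by norm_num)
  push_cast
  nlinarith

/-- the numerical heart of the union bound -/
theorem s2_num (n b P Th E d lg β : ℝ) (hn : 1 ≤ n) (hb : 0 ≤ b) (hP : 1 ≤ P) (hTh : 0 ≤ Th)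
    (hd : 0 < d) (hd1 : d ≤ 1) (hlg : lg ≤ 6 * n)
    (hE : E = 8 * n * b * d ^ 2) (hEm : 2 ^ 47 * n ^ 5 * P ≤ E)
    (hN : Th * 2 ^ 50 * n ^ 5 * P ≤ 1 / 4) (hβ : b = β * P) :
    4 * n ^ 3 + 8192 * n * Th * (E / (d / 8) ^ 2) * (n + lg) - β / 16 ≤ -(2 ^ 38 * n ^ 4) := by
  have hn0 : 0 < n := by linarith
  have hP0 : 0 < P := by linarith
  have hβ0 : 0 ≤ β := by
    by_contra hcon
    push Not at hcon
    nlinarith [mul_neg_of_neg_of_pos hcon hP0]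
  have h1 : E / (d / 8) ^ 2 = 512 * n * b := by
    rw [hE]
    field_simp
    ring
  have h2 : 2 ^ 44 * n ^ 4 ≤ β := by
    have h3 : 2 ^ 47 * n ^ 5 * P ≤ 8 * n * (β * P) := by
      rw [hE, hβ] at hEm
      refine hEm.trans ?_
      have h4 : d ^ 2 ≤ 1 := pow_le_one₀ hd.le hd1
      have h5 : 0 ≤ 8 * n * (β * P) := by positivity
      nlinarith
    have h4 : (8 * n * P) * (2 ^ 44 * n ^ 4) ≤ (8 * n * P) * β := by
      calc (8 * n * P) * (2 ^ 44 * n ^ 4) = 2 ^ 47 * n ^ 5 * P := by ring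
        _ ≤ 8 * n * (β * P) := h3
        _ = _ := by ring
    exact le_of_mul_le_mul_left h4 (by positivity)
  have h5 : Th * n ^ 3 * P ≤ 1 / 2 ^ 52 := by
    have h6 : (Th * n ^ 3 * P) * 1 ≤ (Th * n ^ 3 * P) * n ^ 2 := by
      refine mul_le_mul_of_nonneg_left (one_le_pow₀ hn) (by positivity)
    have h7 : (Th * n ^ 3 * P) * n ^ 2 * 2 ^ 50 ≤ 1 / 4 := by
      calc _ = Th * 2 ^ 50 * n ^ 5 * P := by ring
        _ ≤ _ := hN
    have h8 : (1 : ℝ) / 2 ^ 52 * 2 ^ 50 = 1 / 4 := by norm_num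
    nlinarith
  rw [h1]
  have h6 : 8192 * n * Th * (512 * n * b) * (n + lg) ≤ β / 64 := by
    calc 8192 * n * Th * (512 * n * b) * (n + lg) ≤ 8192 * n * Th * (512 * n * b) * (7 * n) := by
          refine mul_le_mul_of_nonneg_left (by linarith) (by positivity)
      _ = (8192 * 512 * 7 * β) * (Th * n ^ 3 * P) := by rw [hβ]; ring
      _ ≤ (8192 * 512 * 7 * β) * (1 / 2 ^ 52) := by
          refine mul_le_mul_of_nonneg_left h5 (by positivity)
      _ ≤ β / 64 := by nlinarith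
  have h7 : n ^ 3 ≤ n ^ 4 := pow_le_pow_right₀ hn (by norm_num)
  have h8 : 0 ≤ n ^ 4 := by positivity
  nlinarith

theorem s2_num2 (J n : ℕ) (hJ : J ≤ n) (hn : 1 ≤ n) :
    (J : ℝ) * ((n + 1 : ℕ) : ℝ) * ((2 ^ n + 1 : ℕ) : ℝ) * Real.exp (-(2 ^ 38 * (n : ℝ) ^ 4)) ≤ 1 / 4 := by
  have hn1 : (1 : ℝ) ≤ n := by exact_mod_cast hn
  have h1 : (J : ℝ) ≤ Real.exp n := by
    have h2 : (J : ℝ) ≤ n := by exact_mod_cast hJ
    have := Real.add_one_le_exp (n : ℝ)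
    linarith
  have h2 : ((n + 1 : ℕ) : ℝ) ≤ Real.exp n := by
    push_cast
    exact Real.add_one_le_exp (n : ℝ)
  have h3 : ((2 ^ n + 1 : ℕ) : ℝ) ≤ Real.exp (n + 1) := by
    push_cast
    have h4 : (2 : ℝ) ≤ Real.exp 1 := by
      have := Real.add_one_le_exp (1 : ℝ)
      linarith
    have h5 : (2 : ℝ) ^ (n + 1) ≤ Real.exp 1 ^ (n + 1) := pow_le_pow_left₀ (by norm_num) h4 _
    rw [← Real.exp_nat_mul] at h5
    push_cast at h5
    rw [mul_one] at h5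
    have h6 : (1 : ℝ) ≤ 2 ^ n := one_le_pow₀ (by norm_num)
    rw [pow_succ] at h5
    linarith
  have h4 : (J : ℝ) * ((n + 1 : ℕ) : ℝ) * ((2 ^ n + 1 : ℕ) : ℝ) * Real.exp (-(2 ^ 38 * (n : ℝ) ^ 4)) ≤
      Real.exp n * Real.exp n * Real.exp (n + 1) * Real.exp (-(2 ^ 38 * (n : ℝ) ^ 4)) := by
    gcongr
  refine h4.trans ?_
  rw [← Real.exp_add, ← Real.exp_add, ← Real.exp_add]
  have h5 : (n : ℝ) + n + (n + 1) + -(2 ^ 38 * (n : ℝ) ^ 4) ≤ -2 := by
    have h6 : (n : ℝ) ≤ (n : ℝ) ^ 4 := by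
      calc (n : ℝ) = (n : ℝ) ^ 1 := (pow_one _).symm
        _ ≤ _ := pow_le_pow_right₀ hn1 (by norm_num)
    nlinarith
  refine (Real.exp_le_exp.2 h5).trans ?_
  rw [Real.exp_neg]
  have h7 := Real.exp_one_gt_d9
  have h8 : Real.exp 2 = Real.exp 1 * Real.exp 1 := by rw [← Real.exp_add]; norm_num
  rw [h8, one_div]
  refine inv_anti₀ (by norm_num) ?_
  nlinarith

section core

variable {m r f lam : ℕ} {Om : Type*} [Fintype Om]

/-- `B` is `4f`-separated -/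
def Sep (f : ℕ) (B : Finset (X m r)) : Prop := ∀ x ∈ B, ∀ y ∈ B, x ≠ y → 4 * f < hammingDist x y

open Classical in
/-- one scale, one size, one code value -/
theorem s2_code (hn : 1 ≤ r * m) (Uf : Om → Finset (X m r))
    (hT : ∀ B : Finset (X m r), Sep f B →
      ((univ.filter fun om => ((B.filter (· ∈ Uf om)).card : ℝ) < (B.card : ℝ) / 2 ^ lam / 4).card : ℝ) ≤
        Real.exp (-((B.card : ℝ) / 2 ^ lam / 16)) * Fintype.card Om)
    (hS : ∀ B : Finset (X m r), ∃ B1 ⊆ B, Sep f B1 ∧ B.card ≤ B1.card * Ball m r (4 * f))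
    (s b : ℕ) (Pc : (X m r → ℝ) → Prop)
    (hPc : ∀ w, Pc w → En w ≤ 8 * ((r * m : ℕ) : ℝ) * b * dl s ^ 2 ∧ (BB s w).card = b)
    (hclose : ∀ w w', Pc w → Pc w' → ∀ x, nrm (w x - w' x) ≤ dl s / 8) :
    ((univ.filter fun om => ∃ w, Pc w ∧
      ∑ x ∈ Uf om, nrm (w x) ^ 2 < s2eta m r f lam * En w).card : ℝ) ≤
        Real.exp (-((b : ℝ) / (2 ^ lam * Ball m r (4 * f)) / 16)) * Fintype.card Om := by
  by_cases hex : ∃ w, Pc w
  swap
  · have h0 : (univ.filter fun om => ∃ w, Pc w ∧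
        ∑ x ∈ Uf om, nrm (w x) ^ 2 < s2eta m r f lam * En w) = ∅ := by
      refine filter_eq_empty_iff.2 fun om _ => ?_
      rintro ⟨w, hw, -⟩
      exact hex ⟨w, hw⟩
    rw [h0, card_empty, Nat.cast_zero]
    positivity
  obtain ⟨w0, hw0⟩ := hex
  obtain ⟨hE0, hb0⟩ := hPc w0 hw0
  set B0 : Finset (X m r) := univ.filter fun x => 7 * dl s / 8 ≤ nrm (w0 x) with hB0
  have hBB : BB s w0 ⊆ B0 := by
    intro x hx
    unfold BB at hx
    rw [mem_filter] at hx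
    rw [hB0, mem_filter]
    refine ⟨mem_univ _, ?_⟩
    have := dl_pos s
    linarith [hx.2]
  obtain ⟨B1, hB1s, hsep, hcard⟩ := hS B0
  have hb : b ≤ B1.card * Ball m r (4 * f) := by
    rw [← hb0]
    exact (card_le_card hBB).trans hcard
  have hballpos : (0 : ℝ) < (Ball m r (4 * f) : ℝ) := by
    exact_mod_cast s2_ball_pos m r (4 * f)
  have hb' : (b : ℝ) ≤ (B1.card : ℝ) * (Ball m r (4 * f) : ℝ) := by exact_mod_cast hb
  have h2l : (0 : ℝ) < 2 ^ lam := by positivity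
  have hn0 : (0 : ℝ) < ((r * m : ℕ) : ℝ) := by exact_mod_cast hn
  have hsub : (univ.filter fun om => ∃ w, Pc w ∧
      ∑ x ∈ Uf om, nrm (w x) ^ 2 < s2eta m r f lam * En w) ⊆
      (univ.filter fun om => ((B1.filter (· ∈ Uf om)).card : ℝ) < (B1.card : ℝ) / 2 ^ lam / 4) := by
    intro om hom
    rw [mem_filter] at hom ⊢
    refine ⟨mem_univ _, ?_⟩
    obtain ⟨-, w, hw, hlt⟩ := hom
    by_contra hcon
    push Not at hcon
    obtain ⟨hE, -⟩ := hPc w hw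
    have h3 : ∀ x ∈ B1.filter (· ∈ Uf om), (3 * dl s / 4) ^ 2 ≤ nrm (w x) ^ 2 := by
      intro x hx
      have hx1 : x ∈ B0 := hB1s (mem_filter.1 hx).1
      rw [hB0, mem_filter] at hx1
      have h4 := s2_nrm_tri (w0 x) (w x)
      have h5 := hclose w0 w hw0 hw x
      have h6 : 3 * dl s / 4 ≤ nrm (w x) := by linarith [hx1.2]
      exact pow_le_pow_left₀ (by have := dl_pos s; linarith) h6 2
    have h7 : ((B1.filter (· ∈ Uf om)).card : ℝ) * (3 * dl s / 4) ^ 2 ≤ ∑ x ∈ Uf om, nrm (w x) ^ 2 := by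
      rw [← nsmul_eq_mul, ← sum_const]
      refine (sum_le_sum h3).trans ?_
      refine sum_le_sum_of_subset_of_nonneg ?_ fun x _ _ => by positivity
      intro x hx
      exact (mem_filter.1 hx).2
    have h8 : s2eta m r f lam * En w ≤
        ((B1.filter (· ∈ Uf om)).card : ℝ) * (3 * dl s / 4) ^ 2 := by
      unfold s2eta
      have h9 : En w ≤ 8 * ((r * m : ℕ) : ℝ) * ((B1.card : ℝ) * (Ball m r (4 * f) : ℝ)) * dl s ^ 2 := by
        refine hE.trans ?_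
        have := dl_pos s
        gcongr
      rw [one_div, inv_mul_le_iff₀ (by positivity)]
      refine h9.trans ?_
      have h10 : (B1.card : ℝ) ≤ 4 * 2 ^ lam * ((B1.filter (· ∈ Uf om)).card : ℝ) := by
        rw [div_div, div_le_iff₀ (by positivity)] at hcon
        linarith
      have h11 : 0 ≤ dl s ^ 2 := by positivity
      calc 8 * ((r * m : ℕ) : ℝ) * ((B1.card : ℝ) * (Ball m r (4 * f) : ℝ)) * dl s ^ 2
          ≤ 8 * ((r * m : ℕ) : ℝ) * ((4 * 2 ^ lam * ((B1.filter (· ∈ Uf om)).card : ℝ)) *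
            (Ball m r (4 * f) : ℝ)) * dl s ^ 2 := by gcongr
        _ = 32 * (((r * m : ℕ) : ℝ) * 2 ^ lam * (Ball m r (4 * f) : ℝ) *
            ((B1.filter (· ∈ Uf om)).card : ℝ) * dl s ^ 2) := by ring
        _ ≤ 144 * (((r * m : ℕ) : ℝ) * 2 ^ lam * (Ball m r (4 * f) : ℝ) *
            ((B1.filter (· ∈ Uf om)).card : ℝ) * dl s ^ 2) := by
            gcongr
            norm_num
        _ = _ := by rw [pow_add]; ring
    linarith
  have h12 : ((univ.filter fun om => ∃ w, Pc w ∧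
      ∑ x ∈ Uf om, nrm (w x) ^ 2 < s2eta m r f lam * En w).card : ℝ) ≤
      ((univ.filter fun om => ((B1.filter (· ∈ Uf om)).card : ℝ) <
        (B1.card : ℝ) / 2 ^ lam / 4).card : ℝ) := by exact_mod_cast card_le_card hsub
  refine h12.trans ((hT B1 hsep).trans ?_)
  refine mul_le_mul_of_nonneg_right (Real.exp_le_exp.2 ?_) (Nat.cast_nonneg _)
  have h13 : (b : ℝ) / (2 ^ lam * Ball m r (4 * f)) ≤ (B1.card : ℝ) / 2 ^ lam := by
    rw [div_le_div_iff₀ (by positivity) h2l]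
    nlinarith
  linarith

open Classical in
/-- one scale, one size -/
theorem s2_size (hf : f ≤ m) (hn : 1 ≤ r * m) (Uf : Om → Finset (X m r))
    (hT : ∀ B : Finset (X m r), Sep f B →
      ((univ.filter fun om => ((B.filter (· ∈ Uf om)).card : ℝ) < (B.card : ℝ) / 2 ^ lam / 4).card : ℝ) ≤
        Real.exp (-((B.card : ℝ) / 2 ^ lam / 16)) * Fintype.card Om)
    (hS : ∀ B : Finset (X m r), ∃ B1 ⊆ B, Sep f B1 ∧ B.card ≤ B1.card * Ball m r (4 * f))
    (δ0 : ℝ) (h0 : 0 < δ0) (h0' : δ0 ≤ 1 / 2)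
    (hN1 : Th m r f * 2 ^ 50 * ((r * m : ℕ) : ℝ) ^ 5 * 2 ^ lam * (Ball m r (4 * f) : ℝ) ≤ δ0 ^ 2)
    (s b : ℕ) (hs : s ≤ r * m) :
    ((univ.filter fun om => ∃ w : X m r → ℝ, (IsW f w ∧ (∃ x, δ0 ≤ nrm (w x)) ∧
      En w ≤ 8 * ((r * m : ℕ) : ℝ) * b * dl s ^ 2 ∧ (BB s w).card = b) ∧
      ∑ x ∈ Uf om, nrm (w x) ^ 2 < s2eta m r f lam * En w).card : ℝ) ≤
        Real.exp (-(2 ^ 38 * ((r * m : ℕ) : ℝ) ^ 4)) * Fintype.card Om := by
  classical
  set Pb : (X m r → ℝ) → Prop := fun w => IsW f w ∧ (∃ x, δ0 ≤ nrm (w x)) ∧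
      En w ≤ 8 * ((r * m : ℕ) : ℝ) * b * dl s ^ 2 ∧ (BB s w).card = b with hPb
  by_cases hex : ∃ w, Pb w
  swap
  · have h0 : (univ.filter fun om => ∃ w : X m r → ℝ, Pb w ∧
        ∑ x ∈ Uf om, nrm (w x) ^ 2 < s2eta m r f lam * En w) = ∅ := by
      refine filter_eq_empty_iff.2 fun om _ => ?_
      rintro ⟨w, hw, -⟩
      exact hex ⟨w, hw⟩
    rw [h0, card_empty, Nat.cast_zero]
    positivity
  obtain ⟨w1, hw1⟩ := hex
  have hEm := s2_En_large hf δ0 h0 hN1 w1 hw1.1 hw1.2.1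
  have hEu := hw1.2.2.1
  set n : ℝ := ((r * m : ℕ) : ℝ) with hn'
  have hn1 : 1 ≤ n := by rw [hn']; exact_mod_cast hn
  set E : ℝ := 8 * n * b * dl s ^ 2 with hE
  have hBl : (1 : ℝ) ≤ (Ball m r (4 * f) : ℝ) := by exact_mod_cast s2_ball_pos m r (4 * f)
  have h2l : (1 : ℝ) ≤ 2 ^ lam := one_le_pow₀ (by norm_num)
  have hP1 : (1 : ℝ) ≤ 2 ^ lam * (Ball m r (4 * f) : ℝ) := one_le_mul_of_one_le_of_one_le h2l hBl
  have hEmin : 2 ^ 47 * n ^ 5 * (2 ^ lam * (Ball m r (4 * f) : ℝ)) ≤ E := by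
    calc _ = 2 ^ 47 * n ^ 5 * 2 ^ lam * (Ball m r (4 * f) : ℝ) := by ring
      _ ≤ _ := hEm.trans hEu
  have hE1 : 1 ≤ E := by
    refine le_trans ?_ hEmin
    have h5 : (1 : ℝ) ≤ n ^ 5 := one_le_pow₀ hn1
    have h6 : (1 : ℝ) ≤ 2 ^ 47 * n ^ 5 := by nlinarith
    exact one_le_mul_of_one_le_of_one_le h6 hP1
  obtain ⟨K, code, hK, hcode⟩ := code2 hf hn E (dl s / 8) hE1 (by have := dl_pos s; positivity)
    (by have := dl_le s; linarith)
  have hsub : (univ.filter fun om => ∃ w : X m r → ℝ, Pb w ∧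
        ∑ x ∈ Uf om, nrm (w x) ^ 2 < s2eta m r f lam * En w) ⊆
      (univ : Finset (Fin K)).biUnion fun c => univ.filter fun om => ∃ w : X m r → ℝ,
        (Pb w ∧ code w = c) ∧ ∑ x ∈ Uf om, nrm (w x) ^ 2 < s2eta m r f lam * En w := by
    intro om hom
    rw [mem_filter] at hom
    obtain ⟨-, w, hw, hlt⟩ := hom
    rw [mem_biUnion]
    exact ⟨code w, mem_univ _, mem_filter.2 ⟨mem_univ _, w, ⟨hw, rfl⟩, hlt⟩⟩
  have hc : ∀ c : Fin K, ((univ.filter fun om => ∃ w : X m r → ℝ,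
        (Pb w ∧ code w = c) ∧ ∑ x ∈ Uf om, nrm (w x) ^ 2 < s2eta m r f lam * En w).card : ℝ) ≤
      Real.exp (-((b : ℝ) / (2 ^ lam * Ball m r (4 * f)) / 16)) * Fintype.card Om := by
    intro c
    refine s2_code hn Uf hT hS s b (fun w => Pb w ∧ code w = c) (fun w hw => hw.1.2.2) ?_
    intro w w' hw hw'
    exact hcode w w' hw.1.1 hw'.1.1 hw.1.2.2.1 hw'.1.2.2.1 (hw.2.trans hw'.2.symm)
  have h1 : ((univ.filter fun om => ∃ w : X m r → ℝ, Pb w ∧
        ∑ x ∈ Uf om, nrm (w x) ^ 2 < s2eta m r f lam * En w).card : ℝ) ≤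
      ∑ c : Fin K, ((univ.filter fun om => ∃ w : X m r → ℝ,
        (Pb w ∧ code w = c) ∧ ∑ x ∈ Uf om, nrm (w x) ^ 2 < s2eta m r f lam * En w).card : ℝ) := by
    exact_mod_cast (card_le_card hsub).trans card_biUnion_le
  refine h1.trans ((sum_le_sum fun c _ => hc c).trans ?_)
  rw [sum_const, card_univ, Fintype.card_fin, nsmul_eq_mul, ← mul_assoc]
  refine mul_le_mul_of_nonneg_right ?_ (Nat.cast_nonneg _)
  refine (mul_le_mul_of_nonneg_right hK (Real.exp_pos _).le).trans ?_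
  rw [← Real.exp_add]
  refine Real.exp_le_exp.2 ?_
  have hTh0 : 0 ≤ Th m r f := by unfold Th; positivity
  have hlog := s2_log s (r * m) hs hn
  have hlog0 : 0 ≤ Real.log (3 / (dl s / 8)) := by
    refine Real.log_nonneg ?_
    have h3 := dl_pos s
    have h4 := dl_le s
    rw [le_div_iff₀ (by positivity)]
    linarith
  have hN' : Th m r f * 2 ^ 50 * n ^ 5 * (2 ^ lam * (Ball m r (4 * f) : ℝ)) ≤ 1 / 4 := by
    calc _ = Th m r f * 2 ^ 50 * n ^ 5 * 2 ^ lam * (Ball m r (4 * f) : ℝ) := by ring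
      _ ≤ δ0 ^ 2 := hN1
      _ ≤ 1 / 4 := by nlinarith
  have hfin := s2_num n b (2 ^ lam * (Ball m r (4 * f) : ℝ)) (Th m r f) E (dl s)
    (Real.log (3 / (dl s / 8))) ((b : ℝ) / (2 ^ lam * Ball m r (4 * f))) hn1 (Nat.cast_nonneg _) hP1
    hTh0 (dl_pos s) (dl_le s) hlog hE hEmin hN' (by field_simp)
  linarith

open Classical in
/-- property (ii) fails with probability at most `1/4` over all `j` (`J ≤ n` sets) -/
theorem s2_bad {J : ℕ} (hf : f ≤ m) (hn : 1 ≤ r * m) (hJn : J ≤ r * m)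
    (Uf : Om → Fin J → Finset (X m r))
    (hT : ∀ j, ∀ B : Finset (X m r), Sep f B →
      ((univ.filter fun om => ((B.filter (· ∈ Uf om j)).card : ℝ) < (B.card : ℝ) / 2 ^ lam / 4).card : ℝ) ≤
        Real.exp (-((B.card : ℝ) / 2 ^ lam / 16)) * Fintype.card Om)
    (hS : ∀ B : Finset (X m r), ∃ B1 ⊆ B, Sep f B1 ∧ B.card ≤ B1.card * Ball m r (4 * f))
    (δ0 : ℝ) (h0 : 0 < δ0) (h0' : δ0 ≤ 1 / 2)
    (hN1 : Th m r f * 2 ^ 50 * ((r * m : ℕ) : ℝ) ^ 5 * 2 ^ lam * (Ball m r (4 * f) : ℝ) ≤ δ0 ^ 2) :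
    ((univ.filter fun om => ¬ ∀ j, ∀ w : X m r → ℝ, IsW f w → (∃ x, δ0 ≤ nrm (w x)) →
      s2eta m r f lam * En w ≤ ∑ x ∈ Uf om j, nrm (w x) ^ 2).card : ℝ) ≤
        1 / 4 * Fintype.card Om := by
  classical
  set n := r * m with hn'
  have hn1 : (1 : ℝ) ≤ (n : ℝ) := by exact_mod_cast hn
  set Q : Fin J → ℕ → ℕ → Finset Om := fun j s b =>
    univ.filter fun om => ∃ w : X m r → ℝ, (IsW f w ∧ (∃ x, δ0 ≤ nrm (w x)) ∧
      En w ≤ 8 * (n : ℝ) * b * dl s ^ 2 ∧ (BB s w).card = b) ∧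
      ∑ x ∈ Uf om j, nrm (w x) ^ 2 < s2eta m r f lam * En w with hQ
  have hsub : (univ.filter fun om => ¬ ∀ j, ∀ w : X m r → ℝ, IsW f w → (∃ x, δ0 ≤ nrm (w x)) →
      s2eta m r f lam * En w ≤ ∑ x ∈ Uf om j, nrm (w x) ^ 2) ⊆
      (univ : Finset (Fin J)).biUnion fun j => (range (n + 1)).biUnion fun s =>
        (range (2 ^ n + 1)).biUnion fun b => Q j s b := by
    intro om hom
    rw [mem_filter] at hom
    have h1 := hom.2
    push Not at h1
    obtain ⟨j, w, hw, hx, hlt⟩ := h1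
    have hEm := s2_En_large hf δ0 h0 hN1 w hw hx
    have hBl : (1 : ℝ) ≤ (Ball m r (4 * f) : ℝ) := by exact_mod_cast s2_ball_pos m r (4 * f)
    have h2l : (1 : ℝ) ≤ 2 ^ lam := one_le_pow₀ (by norm_num)
    have hE1 : 1 ≤ En w := by
      refine le_trans ?_ hEm
      have h5 : (1 : ℝ) ≤ (n : ℝ) ^ 5 := one_le_pow₀ hn1
      have h6 : (1 : ℝ) ≤ 2 ^ 47 * (n : ℝ) ^ 5 := by nlinarith
      exact one_le_mul_of_one_le_of_one_le (one_le_mul_of_one_le_of_one_le h6 h2l) hBl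
    obtain ⟨s, hs1, hs2, hs3⟩ := s2_scale hn w hE1
    have hb : (BB s w).card ≤ 2 ^ n := by
      rw [hn', ← s2_card_X m r]
      exact card_le_univ _
    simp only [mem_biUnion, mem_univ, true_and, mem_range]
    refine ⟨j, s, by omega, (BB s w).card, by omega, ?_⟩
    rw [hQ]
    exact mem_filter.2 ⟨mem_univ _, w, ⟨hw, hx, hs3, rfl⟩, hlt⟩
  have hQc : ∀ j, ∀ s ∈ range (n + 1), ∀ b, ((Q j s b).card : ℝ) ≤
      Real.exp (-(2 ^ 38 * (n : ℝ) ^ 4)) * Fintype.card Om := by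
    intro j s hs b
    rw [mem_range] at hs
    exact s2_size hf hn (fun om => Uf om j) (hT j) hS δ0 h0 h0' hN1 s b (by omega)
  have h1 : ((univ.filter fun om => ¬ ∀ j, ∀ w : X m r → ℝ, IsW f w → (∃ x, δ0 ≤ nrm (w x)) →
      s2eta m r f lam * En w ≤ ∑ x ∈ Uf om j, nrm (w x) ^ 2).card : ℝ) ≤
      ∑ j : Fin J, ∑ s ∈ range (n + 1), ∑ b ∈ range (2 ^ n + 1), ((Q j s b).card : ℝ) := by
    have h2 := (card_le_card hsub).trans (card_biUnion_le.trans (sum_le_sum fun j _ =>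
      card_biUnion_le.trans (sum_le_sum fun s _ => card_biUnion_le)))
    exact_mod_cast h2
  refine h1.trans ?_
  have h2 : ∑ j : Fin J, ∑ s ∈ range (n + 1), ∑ b ∈ range (2 ^ n + 1), ((Q j s b).card : ℝ) ≤
      ∑ j : Fin J, ∑ s ∈ range (n + 1), ∑ b ∈ range (2 ^ n + 1),
        Real.exp (-(2 ^ 38 * (n : ℝ) ^ 4)) * Fintype.card Om :=
    sum_le_sum fun j _ => sum_le_sum fun s hs => sum_le_sum fun b _ => hQc j s hs b
  refine h2.trans ?_
  simp only [sum_const, card_univ, Fintype.card_fin, card_range, nsmul_eq_mul]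
  have h3 := s2_num2 J n hJn hn
  have h4 : (0 : ℝ) ≤ Fintype.card Om := Nat.cast_nonneg _
  calc (J : ℝ) * (((n + 1 : ℕ) : ℝ) * (((2 ^ n + 1 : ℕ) : ℝ) *
        (Real.exp (-(2 ^ 38 * (n : ℝ) ^ 4)) * Fintype.card Om)))
      = ((J : ℝ) * ((n + 1 : ℕ) : ℝ) * ((2 ^ n + 1 : ℕ) : ℝ) *
        Real.exp (-(2 ^ 38 * (n : ℝ) ^ 4))) * Fintype.card Om := by ring
    _ ≤ _ := mul_le_mul_of_nonneg_right h3 h4

end core



end Crest.Agent.R63
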