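import Crest.Agent.R63.S1
import Crest.Agent.R63.S2Core

/-! ROW 63, module S, part (ii) (owner helper63): union bound for `E2`.  The union bound is `s2_bad` in S2Core. -/

set_option autoImplicit false
open Finset

namespace Crest.Agent.R63

open Classical in
theorem bad2 {m r f J lam : ℕ} (hf : f ≤ m) (hn : 1 ≤ r * m) (hJ : 1 ≤ J) (hJn : J ≤ r * m)
    (δ0 : ℝ) (h0 : 0 < δ0) (h0' : δ0 ≤ 1 / 2)
    (hN1 : Th m r f * 2 ^ 50 * ((r * m : ℕ) : ℝ) ^ 5 * 2 ^ lam * (Ball m r (4 * f) : ℝ) ≤ δ0 ^ 2)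
    (hN3 : 2 * (J : ℝ) * (Ball m r (4 * f) : ℝ) ≤ 2 ^ lam) :
    4 * (univ.filter fun om : Om m r lam => ¬ E2 f J δ0 om).card ≤ Fintype.card (Om m r lam) := by
  classical
  have hT : ∀ j : Fin J, ∀ B : Finset (X m r), Sep f B →
      ((univ.filter fun om : Om m r lam => ((B.filter (· ∈ Uset f J om j)).card : ℝ) <
        (B.card : ℝ) / 2 ^ lam / 4).card : ℝ) ≤
        Real.exp (-((B.card : ℝ) / 2 ^ lam / 16)) * Fintype.card (Om m r lam) := by
    intro j B hB
    refine le_trans ?_ (tail_lower hN3 B hB j)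
    refine Nat.cast_le.2 (card_le_card ?_)
    intro om hom
    rw [mem_filter] at hom ⊢
    refine ⟨mem_univ _, ?_⟩
    have h1 : B ∩ Uset f J om j = B.filter (· ∈ Uset f J om j) := by
      ext x
      simp
    rw [h1]
    exact hom.2.le
  have h := s2_bad (Om := Om m r lam) hf hn hJn (fun om j => Uset f J om j) hT
    (fun B => exists_sep (4 * f) B) δ0 h0 h0' hN1
  have h2 : ((univ.filter fun om : Om m r lam => ¬ E2 f J δ0 om).card : ℝ) ≤
      1 / 4 * Fintype.card (Om m r lam) := by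
    refine le_trans (Nat.cast_le.2 (card_le_card ?_)) h
    intro om hom
    rw [mem_filter] at hom ⊢
    exact ⟨mem_univ _, hom.2⟩
  have h3 : (4 : ℝ) * ((univ.filter fun om : Om m r lam => ¬ E2 f J δ0 om).card : ℝ) ≤
      Fintype.card (Om m r lam) := by linarith
  exact_mod_cast h3

end Crest.Agent.R63
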