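import Crest.Agent.R63.S3A2

/-! ROW 63, module S, (iii), piece R63_S3A: counting lemmas and the tail bound.
PROOFS: `cnt_*`: card_le_card, card_union_le, card_biUnion_le.
`choose_pow_le`: `Nat.choose_le_pow_div`, so LHS `≤ (b p)^t / t! ≤ (t/8)^t / t!`, and
`t^t / t! ≤ exp t` (`Real.pow_div_factorial_le_exp`), `exp 2 ≤ 8`.
`tail_exp`: `t := ⌈8 p b⌉₊`, `tail_upper`, `choose_pow_le` (`8 * card B * p ≤ 8 p b ≤ t`),
`exp (-t) ≤ exp (-(8 p b))`. -/

set_option autoImplicit false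
open Finset

namespace Crest.Agent.R63.S3

theorem cnt_mono {m r lam : ℕ} {P Q : (X m r → Fin (2 ^ lam)) → Prop} (h : ∀ ω, P ω → Q ω) :
    cnt P ≤ cnt Q := by
  classical
  unfold cnt
  exact_mod_cast card_le_card (monotone_filter_right _ (fun ω _ hω => h ω hω))

theorem cnt_or {m r lam : ℕ} (P Q : (X m r → Fin (2 ^ lam)) → Prop) :
    cnt (fun ω => P ω ∨ Q ω) ≤ cnt P + cnt Q := by
  classical
  unfold cnt
  refine le_trans (b := (((univ.filter P) ∪ (univ.filter Q)).card : ℝ)) ?_ ?_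
  · norm_cast
    apply card_le_card
    intro ω hω
    simpa using hω
  · exact_mod_cast card_union_le _ _

theorem cnt_exists {m r lam : ℕ} {ι : Type} (s : Finset ι)
    (P : ι → (X m r → Fin (2 ^ lam)) → Prop) :
    cnt (fun ω => ∃ i ∈ s, P i ω) ≤ ∑ i ∈ s, cnt (P i) := by
  classical
  induction s using Finset.induction_on with
  | empty => simp [cnt]
  | insert a s ha ih =>
    rw [sum_insert ha]
    refine le_trans (cnt_mono (Q := fun ω => P a ω ∨ ∃ i ∈ s, P i ω) ?_)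
      (le_trans (cnt_or _ _) (by linarith))
    intro ω hω
    simpa using hω

theorem choose_pow_le (b t : ℕ) (p : ℝ) (hp : 0 ≤ p) (h : 8 * (b : ℝ) * p ≤ t) :
    (b.choose t : ℝ) * p ^ t ≤ Real.exp (-(t : ℝ)) := by
  have h1 : (b.choose t : ℝ) ≤ (b : ℝ) ^ t / (t.factorial : ℝ) := Nat.choose_le_pow_div t b
  have hf : (0 : ℝ) < t.factorial := by exact_mod_cast Nat.factorial_pos t
  have h2 : ((b : ℝ) * p) ^ t ≤ ((t : ℝ) / 8) ^ t := by
    apply pow_le_pow_left₀ (by positivity)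
    linarith
  have h3 : (t : ℝ) ^ t / (t.factorial : ℝ) ≤ Real.exp (t : ℝ) :=
    Real.pow_div_factorial_le_exp (t : ℝ) (by positivity) t
  have h8 : Real.exp 2 ≤ 8 := by
    have := Real.exp_one_lt_d9
    have e : Real.exp 2 = Real.exp 1 * Real.exp 1 := by rw [← Real.exp_add]; norm_num
    rw [e]
    nlinarith [Real.exp_pos 1]
  have h4 : Real.exp (t : ℝ) ^ 2 ≤ 8 ^ t := by
    rw [← Real.exp_nat_mul]
    have : Real.exp (((2 : ℕ) : ℝ) * (t : ℝ)) = Real.exp 2 ^ t := by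
      rw [← Real.exp_nat_mul]; push_cast; ring_nf
    rw [this]
    exact pow_le_pow_left₀ (Real.exp_pos 2).le h8 t
  calc (b.choose t : ℝ) * p ^ t ≤ ((b : ℝ) ^ t / (t.factorial : ℝ)) * p ^ t := by
        apply mul_le_mul_of_nonneg_right h1 (by positivity)
    _ = ((b : ℝ) * p) ^ t / (t.factorial : ℝ) := by rw [mul_pow]; ring
    _ ≤ ((t : ℝ) / 8) ^ t / (t.factorial : ℝ) := by gcongr
    _ = ((t : ℝ) ^ t / (t.factorial : ℝ)) / 8 ^ t := by rw [div_pow]; ring
    _ ≤ Real.exp (t : ℝ) / 8 ^ t := by gcongr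
    _ ≤ Real.exp (t : ℝ) / Real.exp (t : ℝ) ^ 2 := by gcongr
    _ = Real.exp (-(t : ℝ)) := by
        rw [Real.exp_neg]
        have := Real.exp_pos (t : ℝ)
        field_simp

/-- the tail bound in exponential form -/
theorem tail_exp {m r lam J : ℕ} (hJ : J ≤ 2 ^ lam) (B : Finset (X m r)) (b : ℝ)
    (hb : (B.card : ℝ) ≤ b) :
    cnt (fun ω : X m r → Fin (2 ^ lam) => 8 * ((J : ℝ) / 2 ^ lam) * b ≤ ((hit J ω B).card : ℝ)) ≤
      Real.exp (-(8 * ((J : ℝ) / 2 ^ lam) * b)) * tot m r lam := by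
  have htot : 0 ≤ tot m r lam := by unfold tot; positivity
  have hp : (0 : ℝ) ≤ (J : ℝ) / 2 ^ lam := by positivity
  have hceil : 8 * ((J : ℝ) / 2 ^ lam) * b ≤ (⌈8 * ((J : ℝ) / 2 ^ lam) * b⌉₊ : ℝ) := Nat.le_ceil _
  refine le_trans (cnt_mono (Q := fun ω => ⌈8 * ((J : ℝ) / 2 ^ lam) * b⌉₊ ≤ (hit J ω B).card) ?_)
    (le_trans (tail_upper hJ B _) ?_)
  · intro ω hω
    exact Nat.ceil_le.mpr hω
  · apply mul_le_mul_of_nonneg_right _ htot
    refine le_trans (choose_pow_le _ _ _ hp ?_) ?_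
    · refine le_trans ?_ hceil
      have := mul_le_mul_of_nonneg_left hb hp
      nlinarith
    · apply Real.exp_le_exp.mpr
      linarith

end Crest.Agent.R63.S3
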