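import Crest.Agent.R63.S3Defs

/-! ROW 63, module S, (iii), piece R63_S3A2: the union bound over the `t`-subsets.
PROOF: if `t ≤ (hit J ω B).card` there is `T ∈ B.powersetCard t` with `T ⊆ hit J ω B`
(`Finset.exists_subset_card_eq` / `le_card_iff_exists_subset_card`).
So the filter is contained in the `biUnion` over `T ∈ B.powersetCard t` of
`{ω | ∀ x ∈ T, (ω x).val < J}`, which is `Fintype.piFinset (fun x => if x ∈ T then
univ.filter (·.val < J) else univ)`; its card is `J^t * (2^lam)^(card X - t)`
(`Fintype.card_piFinset`, `Finset.prod_ite`) `= (J/2^lam)^t * tot`. -/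

set_option autoImplicit false
open Finset

namespace Crest.Agent.R63.S3

private theorem s3a2_card (n J : ℕ) :
    ((univ : Finset (Fin n)).filter fun a => a.val < J).card ≤ J := by
  have h : ((univ : Finset (Fin n)).filter fun a => a.val < J).card ≤ (range J).card := by
    refine Finset.card_le_card_of_injOn (fun a => a.val) ?_ ?_
    · intro a ha
      have := (Finset.mem_filter.1 ha).2
      exact Finset.mem_coe.2 (Finset.mem_range.2 this)
    · intro a _ b _ hab
      exact Fin.ext hab
  simpa using h

/-- union bound over the `t`-subsets -/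
theorem tail_upper {m r lam J : ℕ} (hJ : J ≤ 2 ^ lam) (B : Finset (X m r)) (t : ℕ) :
    cnt (fun ω : X m r → Fin (2 ^ lam) => t ≤ (hit J ω B).card) ≤
      (B.card.choose t : ℝ) * ((J : ℝ) / 2 ^ lam) ^ t * tot m r lam := by
  classical
  let F : Finset (X m r) → Finset (X m r → Fin (2 ^ lam)) := fun T =>
    Fintype.piFinset (fun x => if x ∈ T then (univ.filter fun a : Fin (2 ^ lam) => a.val < J) else univ)
  have hsub : (univ.filter fun ω : X m r → Fin (2 ^ lam) => t ≤ (hit J ω B).card) ⊆
      (B.powersetCard t).biUnion F := by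
    intro ω hω
    have h1 : t ≤ (hit J ω B).card := (Finset.mem_filter.1 hω).2
    obtain ⟨T, hT, hTc⟩ := Finset.exists_subset_card_eq h1
    refine Finset.mem_biUnion.2 ⟨T, Finset.mem_powersetCard.2 ⟨?_, hTc⟩, ?_⟩
    · exact hT.trans (Finset.filter_subset _ _)
    · refine Fintype.mem_piFinset.2 fun x => ?_
      by_cases hx : x ∈ T
      · rw [if_pos hx]
        exact Finset.mem_filter.2 ⟨Finset.mem_univ _, (Finset.mem_filter.1 (hT hx)).2⟩
      · rw [if_neg hx]
        exact Finset.mem_univ _
  have hpos : (0 : ℝ) < 2 ^ lam := by positivity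
  have hF : ∀ T ∈ B.powersetCard t, ((F T).card : ℝ) ≤ ((J : ℝ) / 2 ^ lam) ^ t * tot m r lam := by
    intro T hT
    have hTc : T.card = t := (Finset.mem_powersetCard.1 hT).2
    have h1 : ((F T).card : ℝ) = ∏ x : X m r, ((if x ∈ T then
        (univ.filter fun a : Fin (2 ^ lam) => a.val < J) else univ).card : ℝ) := by
      show ((Fintype.piFinset _).card : ℝ) = _
      rw [Fintype.card_piFinset]
      push_cast
      rfl
    have h2 : tot m r lam = ∏ _x : X m r, (2 : ℝ) ^ lam := by
      unfold tot
      rw [Fintype.card_fun, Finset.prod_const, Finset.card_univ, Fintype.card_fin]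
      push_cast
      rfl
    have h3 : ((J : ℝ) / 2 ^ lam) ^ t = ∏ x : X m r, (if x ∈ T then (J : ℝ) / 2 ^ lam else 1) := by
      rw [Finset.prod_ite_mem, Finset.univ_inter, Finset.prod_const, hTc]
    rw [h1, h2, h3, ← Finset.prod_mul_distrib]
    refine Finset.prod_le_prod (fun x _ => Nat.cast_nonneg _) fun x _ => ?_
    by_cases hx : x ∈ T
    · rw [if_pos hx, if_pos hx, div_mul_cancel₀ _ hpos.ne']
      exact_mod_cast s3a2_card _ _
    · rw [if_neg hx, if_neg hx, one_mul, Finset.card_univ, Fintype.card_fin]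
      push_cast
      exact le_rfl
  have hcnt : cnt (fun ω : X m r → Fin (2 ^ lam) => t ≤ (hit J ω B).card) ≤
      (((B.powersetCard t).biUnion F).card : ℝ) := by
    unfold cnt
    have := Finset.card_le_card hsub
    have h5 : ((univ.filter fun ω : X m r → Fin (2 ^ lam) => t ≤ (hit J ω B).card).card : ℝ) ≤
        (((B.powersetCard t).biUnion F).card : ℝ) := by exact_mod_cast this
    convert h5
  refine hcnt.trans ?_
  have h6 : (((B.powersetCard t).biUnion F).card : ℝ) ≤ ∑ T ∈ B.powersetCard t, ((F T).card : ℝ) := by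
    exact_mod_cast Finset.card_biUnion_le
  refine h6.trans ((Finset.sum_le_sum hF).trans (le_of_eq ?_))
  rw [Finset.sum_const, Finset.card_powersetCard, nsmul_eq_mul]
  ring

end Crest.Agent.R63.S3
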