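import Crest.Agent.R63.S3Defs

/-! ROW 63, module S, (iii), piece R63_S3B1: numeric inequality for the exponent.
PROOF: `Θ = D/2^n`, `p = J/2^lam ≥ 1/2^lam`.  `D > 0` by `hℓ`; `ℓ ≥ 1/(64 Θ) ≥ 2^44 n^5 2^lam B4`
(by `hN1`), so `p ℓ ≥ 2^44 n^5` and `4 n^3 + 8 n ≤ 12 n^3 ≤ p ℓ`.  `log 48 ≤ 4`, so
`n + log 48 ≤ 5 n` and the middle term is `≤ 5 * 2^15 n^2 Θ ℓ ≤ 5 * 2^15 * 2^-50 ℓ / 2^lam ≤ p ℓ`. -/

set_option autoImplicit false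
open Finset

namespace Crest.Agent.R63.S3

theorem expo {n J lam D B4 : ℕ} (hn : 1 ≤ n) (hJ : 1 ≤ J) (hB : 1 ≤ B4)
    (ℓ : ℝ) (hℓ : (2 : ℝ) ^ n ≤ 64 * (D : ℝ) * ℓ)
    (hN1 : ((D : ℝ) / 2 ^ n) * 2 ^ 50 * (n : ℝ) ^ 5 * 2 ^ lam * (B4 : ℝ) ≤ 1) :
    (4 * (n : ℝ) ^ 3 + 2048 * (n : ℝ) * ((D : ℝ) / 2 ^ n) * (ℓ / (1 / 16)) *
        ((n : ℝ) + Real.log (3 / (1 / 16)))) + 8 * n ≤ 8 * ((J : ℝ) / 2 ^ lam) * (16 * ℓ) := by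
  have hn' : (1 : ℝ) ≤ n := by exact_mod_cast hn
  have hJ' : (1 : ℝ) ≤ J := by exact_mod_cast hJ
  have hB' : (1 : ℝ) ≤ B4 := by exact_mod_cast hB
  have h2n : (0 : ℝ) < 2 ^ n := by positivity
  set L : ℝ := 2 ^ lam with hL
  have hLpos : 0 < L := by positivity
  set Θ : ℝ := (D : ℝ) / 2 ^ n with hΘ
  have hΘ0 : 0 ≤ Θ := by positivity
  have hDΘ : (D : ℝ) = Θ * 2 ^ n := by rw [hΘ]; field_simp
  have h1 : 1 ≤ 64 * Θ * ℓ := by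
    rw [hDΘ] at hℓ
    by_contra hcon
    push Not at hcon
    have : 64 * (Θ * 2 ^ n) * ℓ < 2 ^ n := by nlinarith
    linarith
  have hΘpos : 0 < Θ := by
    rcases hΘ0.lt_or_eq with h | h
    · exact h
    · rw [← h] at h1; norm_num at h1
  have hℓpos : 0 < ℓ := by
    by_contra hcon
    push Not at hcon
    have : 64 * Θ * ℓ ≤ 0 := mul_nonpos_of_nonneg_of_nonpos (by positivity) hcon
    linarith
  have hn5 : (1 : ℝ) ≤ (n : ℝ) ^ 5 := one_le_pow₀ hn'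
  -- the bound on Θ
  have hA : Θ * (2 ^ 50 * (n : ℝ) ^ 5 * L) ≤ 1 := by
    have : Θ * (2 ^ 50 * (n : ℝ) ^ 5 * L) * 1 ≤ Θ * (2 ^ 50 * (n : ℝ) ^ 5 * L) * B4 :=
      mul_le_mul_of_nonneg_left hB' (by positivity)
    calc Θ * (2 ^ 50 * (n : ℝ) ^ 5 * L) = Θ * (2 ^ 50 * (n : ℝ) ^ 5 * L) * 1 := by ring
      _ ≤ _ := this
      _ = Θ * 2 ^ 50 * (n : ℝ) ^ 5 * L * B4 := by ring
      _ ≤ 1 := hN1
  -- ℓ / L ≥ 2^44 n^5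
  have hB1 : 2 ^ 44 * (n : ℝ) ^ 5 * L ≤ ℓ := by
    have h3 : Θ * (2 ^ 50 * (n : ℝ) ^ 5 * L) ≤ Θ * (64 * ℓ) := by
      calc Θ * (2 ^ 50 * (n : ℝ) ^ 5 * L) ≤ 1 := hA
        _ ≤ 64 * Θ * ℓ := h1
        _ = Θ * (64 * ℓ) := by ring
    have h4 := le_of_mul_le_mul_left h3 hΘpos
    nlinarith
  set q : ℝ := ℓ / L with hq
  have hqℓ : ℓ = q * L := by rw [hq]; field_simp
  have hqpos : 0 < q := by positivity
  have hq1 : 2 ^ 44 * (n : ℝ) ^ 5 ≤ q := by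
    rw [hqℓ] at hB1
    exact le_of_mul_le_mul_right hB1 hLpos
  have hlog : Real.log (3 / (1 / 16)) ≤ 5 := by
    have h48 : (3 : ℝ) / (1 / 16) ≤ 2 ^ 6 := by norm_num
    calc Real.log (3 / (1 / 16)) ≤ Real.log (2 ^ 6) := Real.log_le_log (by norm_num) h48
      _ = 6 * Real.log 2 := by rw [Real.log_pow]; norm_num
      _ ≤ 5 := by have := Real.log_two_lt_d9; linarith
  have hmid : 2048 * (n : ℝ) * Θ * (ℓ / (1 / 16)) * ((n : ℝ) + Real.log (3 / (1 / 16))) ≤ q := by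
    have h5 : (n : ℝ) + Real.log (3 / (1 / 16)) ≤ 6 * n := by linarith
    have h6 : 0 ≤ 2048 * (n : ℝ) * Θ * (ℓ / (1 / 16)) := by positivity
    calc 2048 * (n : ℝ) * Θ * (ℓ / (1 / 16)) * ((n : ℝ) + Real.log (3 / (1 / 16)))
        ≤ 2048 * (n : ℝ) * Θ * (ℓ / (1 / 16)) * (6 * n) := mul_le_mul_of_nonneg_left h5 h6
      _ = (Θ * L) * (2 ^ 15 * 6 * (n : ℝ) ^ 2 * q) := by rw [hqℓ]; ring
      _ ≤ (Θ * L) * (2 ^ 50 * (n : ℝ) ^ 5 * q) := by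
          have h7 : (n : ℝ) ^ 2 ≤ (n : ℝ) ^ 5 := pow_le_pow_right₀ hn' (by norm_num)
          have h8 : 2 ^ 15 * 6 * (n : ℝ) ^ 2 ≤ 2 ^ 50 * (n : ℝ) ^ 5 := by nlinarith
          exact mul_le_mul_of_nonneg_left (mul_le_mul_of_nonneg_right h8 hqpos.le) (by positivity)
      _ = (Θ * (2 ^ 50 * (n : ℝ) ^ 5 * L)) * q := by ring
      _ ≤ 1 * q := mul_le_mul_of_nonneg_right hA hqpos.le
      _ = q := one_mul q
  have hrest : 4 * (n : ℝ) ^ 3 + 8 * n ≤ q := by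
    have h9 : (n : ℝ) ^ 3 ≤ (n : ℝ) ^ 5 := pow_le_pow_right₀ hn' (by norm_num)
    have h10 : (n : ℝ) ≤ (n : ℝ) ^ 5 := by
      calc (n : ℝ) = (n : ℝ) ^ 1 := (pow_one _).symm
        _ ≤ (n : ℝ) ^ 5 := pow_le_pow_right₀ hn' (by norm_num)
    nlinarith
  have hR : 128 * q ≤ 8 * ((J : ℝ) / L) * (16 * ℓ) := by
    have : 8 * ((J : ℝ) / L) * (16 * ℓ) = 128 * q * J := by
      rw [hq]; field_simp; ring
    rw [this]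
    nlinarith
  linarith

end Crest.Agent.R63.S3
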