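import Crest.Agent.R63.S3A
import Crest.Agent.R63.S3B1

/-! ROW 63, module S, (iii), piece R63_S3B: union bound over the codes at one scale.
PROOFS: `big_subset`: `nrm (w x) ≤ nrm (w' x) + nrm (w x - w' x)` (use `round_le`:
`|t - round t| ≤ |t - z|` for `z : ℤ`).  `card_le_L1`: Markov.
`badS_le`: if the first clause of `BadS` fails, `cnt = 0`.  Else `code1 hf hn (2^(s+1)) (1/16)` gives
`K, code`; for `κ : Fin K` let `w κ` be a representative (IsW, `L1 ≤ 2^(s+1)`, `code = κ`; if there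
is one, otherwise `0`), `B κ = {x | 1/16 ≤ nrm (w κ x)}`, `card (B κ) ≤ 16 * 2^(s+1)`.
`BadS s ω` implies `∃ κ ∈ univ, 8 p (16 * 2^(s+1)) ≤ card (hit J ω (B κ))`: `cnt_mono`,
`cnt_exists`, `tail_exp`, total `K * exp (-(8 p 16 ℓ)) * tot ≤ exp (-(8 n)) * tot` by `expo`
(with `ℓ = 2^(s+1)`, `B4 = Ball m r (4 f) ≥ 1`). -/

set_option autoImplicit false
open Finset

namespace Crest.Agent.R63.S3

/-- two functions with the same code: the big set of one is in the `1/16`-set of the other -/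
theorem big_subset {m r : ℕ} (w w' : X m r → ℝ) (h : ∀ x, nrm (w x - w' x) ≤ 1 / 16) :
    ∀ x ∈ big w, 1 / 16 ≤ nrm (w' x) := by
  intro x hx
  have h1 : 1 / 8 ≤ nrm (w x) := (Finset.mem_filter.1 hx).2
  have h2 := h x
  have h3 : nrm (w x) ≤ nrm (w' x) + nrm (w x - w' x) := by
    unfold nrm
    have e1 := round_le (w x) (round (w' x) + round (w x - w' x))
    refine e1.trans ?_
    push_cast
    have e2 : w x - ((round (w' x) : ℝ) + (round (w x - w' x) : ℝ)) =
        (w' x - (round (w' x) : ℝ)) + (w x - w' x - (round (w x - w' x) : ℝ)) := by ring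
    rw [e2]
    exact abs_add_le _ _
  linarith


/-- Markov -/
theorem card_le_L1 {m r : ℕ} (w : X m r → ℝ) (B : Finset (X m r)) (h : ∀ x ∈ B, 1 / 16 ≤ nrm (w x)) :
    (B.card : ℝ) ≤ 16 * L1 w := by
  have h1 : ∑ x ∈ B, (1 / 16 : ℝ) ≤ ∑ x ∈ B, nrm (w x) := Finset.sum_le_sum h
  have h2 : ∑ x ∈ B, nrm (w x) ≤ L1 w :=
    Finset.sum_le_sum_of_subset_of_nonneg (Finset.subset_univ _) fun x _ _ => abs_nonneg _
  rw [Finset.sum_const, nsmul_eq_mul] at h1
  linarith


theorem badS_le {m r f J lam : ℕ} (hf : f ≤ m) (hn : 1 ≤ r * m) (hJ : 1 ≤ J)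
    (hJl : J ≤ 2 ^ lam)
    (hN1 : Th m r f * 2 ^ 50 * ((r * m : ℕ) : ℝ) ^ 5 * 2 ^ lam * (Ball m r (4 * f) : ℝ) ≤ 1)
    (s : ℕ) :
    cnt (BadS m r f J lam s) ≤ Real.exp (-(8 * ((r * m : ℕ) : ℝ))) * tot m r lam := by
  classical
  have htot : 0 ≤ tot m r lam := by unfold tot; positivity
  by_cases hD : (2 : ℝ) ^ (r * m) ≤ 64 * (Dn m r f : ℝ) * 2 ^ (s + 1)
  · have hl1 : (1 : ℝ) ≤ 2 ^ (s + 1) := one_le_pow₀ (by norm_num)
    obtain ⟨K, code, hK, hcode⟩ := code1 hf hn ((2 : ℝ) ^ (s + 1)) (1 / 16) hl1 (by norm_num)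
      (by norm_num)
    let W : Fin K → (X m r → ℝ) := fun κ =>
      if h : ∃ w : X m r → ℝ, IsW f w ∧ L1 w ≤ 2 ^ (s + 1) ∧ code w = κ then h.choose else 0
    let B : Fin K → Finset (X m r) := fun κ => univ.filter fun x => 1 / 16 ≤ nrm (W κ x)
    have hWL : ∀ κ, L1 (W κ) ≤ 2 ^ (s + 1) := by
      intro κ
      by_cases h : ∃ w : X m r → ℝ, IsW f w ∧ L1 w ≤ 2 ^ (s + 1) ∧ code w = κ
      · have e : W κ = h.choose := dif_pos h
        rw [e]
        exact h.choose_spec.2.1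
      · have e : W κ = 0 := dif_neg h
        rw [e]
        have : L1 (0 : X m r → ℝ) = 0 := by
          unfold L1 nrm
          simp
        rw [this]
        positivity
    have hB : ∀ κ, ((B κ).card : ℝ) ≤ 16 * 2 ^ (s + 1) := by
      intro κ
      have h1 := card_le_L1 (W κ) (B κ) fun x hx => (Finset.mem_filter.1 hx).2
      have h2 := hWL κ
      linarith
    have himp : ∀ ω : X m r → Fin (2 ^ lam), BadS m r f J lam s ω → ∃ κ ∈ (univ : Finset (Fin K)),
        8 * ((J : ℝ) / 2 ^ lam) * (16 * 2 ^ (s + 1)) ≤ ((hit J ω (B κ)).card : ℝ) := by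
      rintro ω ⟨_, w, hw, hwL, hwc⟩
      refine ⟨code w, Finset.mem_univ _, hwc.trans ?_⟩
      have hex : ∃ w' : X m r → ℝ, IsW f w' ∧ L1 w' ≤ 2 ^ (s + 1) ∧ code w' = code w :=
        ⟨w, hw, hwL, rfl⟩
      have e : W (code w) = hex.choose := dif_pos hex
      have h3 := hcode w (W (code w)) hw (by rw [e]; exact hex.choose_spec.1) hwL (hWL _)
        (by rw [e]; exact hex.choose_spec.2.2.symm)
      have h4 : big w ⊆ B (code w) := fun x hx =>
        Finset.mem_filter.2 ⟨Finset.mem_univ _, big_subset w _ h3 x hx⟩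
      exact_mod_cast Finset.card_le_card (Finset.filter_subset_filter _ h4)
    have h5 : cnt (BadS m r f J lam s) ≤
        ∑ _κ : Fin K, Real.exp (-(8 * ((J : ℝ) / 2 ^ lam) * (16 * 2 ^ (s + 1)))) * tot m r lam := by
      refine (cnt_mono himp).trans ((cnt_exists _ _).trans (Finset.sum_le_sum fun κ _ => ?_))
      exact tail_exp hJl (B κ) _ (hB κ)
    refine h5.trans ?_
    rw [Finset.sum_const, Finset.card_univ, Fintype.card_fin, nsmul_eq_mul, ← mul_assoc]
    refine mul_le_mul_of_nonneg_right ?_ htot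
    have hB4 : 1 ≤ Ball m r (4 * f) := by
      unfold Ball
      refine Finset.card_pos.2 ⟨0, Finset.mem_filter.2 ⟨Finset.mem_univ _, ?_⟩⟩
      rw [hammingDist_self]
      exact Nat.zero_le _
    have h6 := expo (n := r * m) (J := J) (lam := lam) (D := Dn m r f) (B4 := Ball m r (4 * f))
      hn hJ hB4 ((2 : ℝ) ^ (s + 1)) hD hN1
    have h7 : (K : ℝ) * Real.exp (-(8 * ((J : ℝ) / 2 ^ lam) * (16 * 2 ^ (s + 1)))) ≤
        Real.exp (4 * ((r * m : ℕ) : ℝ) ^ 3 +
          2048 * ((r * m : ℕ) : ℝ) * Th m r f * (2 ^ (s + 1) / (1 / 16)) *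
            (((r * m : ℕ) : ℝ) + Real.log (3 / (1 / 16)))) *
          Real.exp (-(8 * ((J : ℝ) / 2 ^ lam) * (16 * 2 ^ (s + 1)))) :=
      mul_le_mul_of_nonneg_right hK (Real.exp_pos _).le
    refine h7.trans ?_
    rw [← Real.exp_add]
    refine Real.exp_le_exp.2 ?_
    have e : Th m r f = (Dn m r f : ℝ) / 2 ^ (r * m) := rfl
    rw [e]
    linarith
  · have h0 : cnt (BadS m r f J lam s) = 0 := by
      unfold cnt
      rw [Finset.filter_false_of_mem]
      · simp
      · rintro ω _ ⟨h1, _⟩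
        exact hD h1
    rw [h0]
    exact mul_nonneg (Real.exp_pos _).le htot


end Crest.Agent.R63.S3
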