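import Crest.Agent.R63.S3Defs

/-! ROW 63, module S, (iii), piece R63_S3C1: one level (deterministic).
PROOF of `level`: if `hit J ω B = ∅` trivial (RHS `≥ 0`).  Else some `x ∈ B` has
`nrm (v x) = |v x| ≥ 1/8`, so by `sup1 hf v hv (1/8)` (contrapositive) `2^n ≤ 64 D L1 v`, hence
`1 ≤ L1 v` (`hD`), `L1 v < 2^n`.  Take `s` with `2^s ≤ L1 v < 2^(s+1)` (`exists_nat_pow_near`);
`s < n`; `¬ BadS s ω` applied to `w = v` gives
`card (hit J ω (big v)) < 8 p (16 * 2^(s+1)) = 256 p 2^s ≤ 256 p L1 v ≤ 256 p ∑ |v|`, and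
`hit J ω B ⊆ hit J ω (big v)`. -/

set_option autoImplicit false
open Finset

namespace Crest.Agent.R63.S3

theorem isW_smul {m r f : ℕ} (c : ℝ) (w : X m r → ℝ) (hw : IsW f w) : IsW f (fun x => c * w x) := by
  intro I hI x
  rw [← Finset.mul_sum, hw I hI x, mul_zero]

/-- `nrm` of a small number -/
theorem nrm_eq_abs (t : ℝ) (h : |t| ≤ 1 / 4) : nrm t = |t| := by
  have h1 : round t = 0 := by
    rw [round_eq_zero_iff]
    rw [abs_le] at h
    constructor <;> linarith [h.1, h.2]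
  unfold nrm
  rw [h1, Int.cast_zero, sub_zero]

theorem nrm_le_abs (t : ℝ) : nrm t ≤ |t| := by
  have h := round_le t 0
  rw [Int.cast_zero, sub_zero] at h
  exact h

theorem L1_lt {m r : ℕ} (w : X m r → ℝ) : L1 w < 2 ^ (r * m) := by
  have hcard : (Fintype.card (X m r) : ℝ) = 2 ^ (r * m) := by
    have h : Fintype.card (X m r) = 2 ^ (r * m) := by
      simp [X, pow_mul]
    rw [h]; push_cast; rfl
  have h1 : L1 w ≤ ∑ _x : X m r, (1 / 2 : ℝ) :=
    Finset.sum_le_sum fun x _ => abs_sub_round (w x)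
  rw [Finset.sum_const, Finset.card_univ, nsmul_eq_mul, hcard] at h1
  have h2 : (0 : ℝ) < 2 ^ (r * m) := by positivity
  linarith

/-- one level: `v` is the rescaled function, `B` a subset of the level -/
theorem level {m r f J lam : ℕ} (hf : f ≤ m) (hn : 1 ≤ r * m)
    (hD : 64 * (Dn m r f : ℝ) ≤ 2 ^ (r * m))
    (ω : X m r → Fin (2 ^ lam)) (hω : ∀ s < r * m, ¬ BadS m r f J lam s ω)
    (v : X m r → ℝ) (hv : IsW f v) (B : Finset (X m r))
    (hB : ∀ x ∈ B, 1 / 8 ≤ |v x| ∧ |v x| ≤ 1 / 4) :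
    ((hit J ω B).card : ℝ) ≤ 256 * ((J : ℝ) / 2 ^ lam) * ∑ x, |v x| := by
  have hp : (0 : ℝ) ≤ (J : ℝ) / 2 ^ lam := by positivity
  have hs0 : (0 : ℝ) ≤ ∑ x, |v x| := Finset.sum_nonneg fun x _ => abs_nonneg _
  rcases (hit J ω B).eq_empty_or_nonempty with he | ⟨x, hx⟩
  · rw [he, Finset.card_empty, Nat.cast_zero]
    positivity
  · have hxB : x ∈ B := (Finset.mem_filter.1 hx).1
    have hx8 : 1 / 8 ≤ nrm (v x) := by
      rw [nrm_eq_abs _ (hB x hxB).2]; exact (hB x hxB).1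
    have h1 : ¬ (8 * (Dn m r f : ℝ) * L1 v < 1 / 8 * 2 ^ (r * m)) := fun h =>
      absurd (sup1 hf v hv (1 / 8) (by norm_num) h x) (not_lt.2 hx8)
    rw [not_lt] at h1
    have h2 : (2 : ℝ) ^ (r * m) ≤ 64 * (Dn m r f : ℝ) * L1 v := by linarith
    have hpow : (0 : ℝ) < 2 ^ (r * m) := by positivity
    have hD0 : (0 : ℝ) ≤ Dn m r f := Nat.cast_nonneg _
    have hDpos : (0 : ℝ) < Dn m r f := by
      rcases hD0.lt_or_eq with h | h
      · exact h
      · rw [← h] at h2; linarith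
    have hL : 1 ≤ L1 v := by
      by_contra hcon
      rw [not_le] at hcon
      have : 64 * (Dn m r f : ℝ) * L1 v < 64 * (Dn m r f : ℝ) * 1 :=
        mul_lt_mul_of_pos_left hcon (by positivity)
      linarith
    obtain ⟨s, hs1, hs2⟩ := exists_nat_pow_near hL (one_lt_two : (1 : ℝ) < 2)
    have hsn : s < r * m := by
      have h3 : (2 : ℝ) ^ s < 2 ^ (r * m) := lt_of_le_of_lt hs1 (L1_lt v)
      exact (pow_lt_pow_iff_right₀ (one_lt_two : (1 : ℝ) < 2)).1 h3
    have hbad := hω s hsn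
    have h4 : ((hit J ω (big v)).card : ℝ) < 8 * ((J : ℝ) / 2 ^ lam) * (16 * 2 ^ (s + 1)) := by
      by_contra hcon
      rw [not_lt] at hcon
      apply hbad
      refine ⟨?_, v, hv, hs2.le, hcon⟩
      refine h2.trans ?_
      exact mul_le_mul_of_nonneg_left hs2.le (by positivity)
    have hsub : hit J ω B ⊆ hit J ω (big v) := by
      intro y hy
      have hy' := Finset.mem_filter.1 hy
      refine Finset.mem_filter.2 ⟨?_, hy'.2⟩
      refine Finset.mem_filter.2 ⟨Finset.mem_univ _, ?_⟩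
      rw [nrm_eq_abs _ (hB y hy'.1).2]; exact (hB y hy'.1).1
    have h5 : ((hit J ω B).card : ℝ) ≤ ((hit J ω (big v)).card : ℝ) := by
      exact_mod_cast Finset.card_le_card hsub
    have h6 : L1 v ≤ ∑ x, |v x| := Finset.sum_le_sum fun x _ => nrm_le_abs _
    have h7 : (2 : ℝ) ^ s ≤ ∑ x, |v x| := hs1.trans h6
    calc ((hit J ω B).card : ℝ) ≤ 8 * ((J : ℝ) / 2 ^ lam) * (16 * 2 ^ (s + 1)) := (h5.trans_lt h4).le
      _ = 256 * ((J : ℝ) / 2 ^ lam) * 2 ^ s := by ring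
      _ ≤ _ := mul_le_mul_of_nonneg_left h7 (by positivity)

end Crest.Agent.R63.S3
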