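import Crest.Agent.R63.C0

/-! ROW 63, module S, part (iii) (helper53): skeleton interface for `bad3_core`.

Proof.  `p = J / 2^lam`, `U+ = {x : ω x < J}`.  For a level set of values
`M 2^-(k+1) < |w x| ≤ M 2^-k` (`M = sup |w|`) rescale `w' = 2^k w / (4 M)`; on the level
`1/8 < |w' x| ≤ 1/4`, so `nrm (w' x) > 1/8`; by `sup1` `N ≤ 64 D L1 w'`.  With `code1` at
`δ = 1/16` and scale `ℓ = 2^(s+1)` (`2^s ≤ L1 w' < 2^(s+1)`) the level is contained in one of
`≤ K` sets of size `≤ 16 ℓ`; the tail bound with threshold `8 p (16 ℓ)` and a union bound. -/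

set_option autoImplicit false
open Finset

namespace Crest.Agent.R63.S3

open scoped Classical in
/-- number of `ω` with property `P` -/
noncomputable def cnt {m r lam : ℕ} (P : (X m r → Fin (2 ^ lam)) → Prop) : ℝ :=
  ((univ.filter P).card : ℝ)

/-- number of all `ω` -/
noncomputable def tot (m r lam : ℕ) : ℝ := (Fintype.card (X m r → Fin (2 ^ lam)) : ℝ)

/-- the points of `B` with label `< J` -/
def hit {m r lam : ℕ} (J : ℕ) (ω : X m r → Fin (2 ^ lam)) (B : Finset (X m r)) : Finset (X m r) :=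
  B.filter fun x => (ω x).val < J

open scoped Classical in
/-- the set where the nearest-integer norm of `w` is `≥ 1/8` -/
noncomputable def big {m r : ℕ} (w : X m r → ℝ) : Finset (X m r) :=
  univ.filter fun x => 1 / 8 ≤ nrm (w x)

/-- the bad event at scale `s` -/
def BadS (m r f J lam : ℕ) (s : ℕ) (ω : X m r → Fin (2 ^ lam)) : Prop :=
  (2 : ℝ) ^ (r * m) ≤ 64 * (Dn m r f : ℝ) * 2 ^ (s + 1) ∧
    ∃ w : X m r → ℝ, IsW f w ∧ L1 w ≤ 2 ^ (s + 1) ∧
      8 * ((J : ℝ) / 2 ^ lam) * (16 * 2 ^ (s + 1)) ≤ ((hit J ω (big w)).card : ℝ)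

end Crest.Agent.R63.S3
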