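import Crest.Agent.R63.Defs

/-! ROW 63, module W: the Chebyshev kernel R(t) = (T_k(t)/(k t))^4, k odd.  T_k is divisible by X (T_k(0) = 0 for odd k).
With t = cos u = sin v (v = pi/2 - u): T_k(t) = cos(k u) = +- sin(k v) for odd k, |sin(k v)| <= min(1, k |sin v|);
for |t| <= 1/k : |k v| <= pi/2 (sin(pi/(2k)) >= 1/k), so |sin(k v)| >= (2/pi) k |v| >= (2/pi) k |sin v|,
(2/pi)^4 >= 4/25.  (At t = 0 by continuity.) -/

set_option autoImplicit false
open Finset MeasureTheory ProbabilityTheory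

namespace Crest.Agent.R63

theorem abs_sin_nat_mul_le (k : ℕ) (v : ℝ) : |Real.sin (k * v)| ≤ k * |Real.sin v| := by
  induction k with
  | zero => simp
  | succ k ih =>
    have h : ((k + 1 : ℕ) : ℝ) * v = k * v + v := by push_cast; ring
    rw [h, Real.sin_add]
    have h1 : |Real.sin (k * v) * Real.cos v| ≤ k * |Real.sin v| := by
      rw [abs_mul]
      calc |Real.sin (k * v)| * |Real.cos v| ≤ |Real.sin (k * v)| * 1 :=
            mul_le_mul_of_nonneg_left (Real.abs_cos_le_one v) (abs_nonneg _)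
        _ ≤ k * |Real.sin v| := by rw [mul_one]; exact ih
    have h2 : |Real.cos (k * v) * Real.sin v| ≤ |Real.sin v| := by
      rw [abs_mul]
      calc |Real.cos (k * v)| * |Real.sin v| ≤ 1 * |Real.sin v| :=
            mul_le_mul_of_nonneg_right (Real.abs_cos_le_one _) (abs_nonneg _)
        _ = |Real.sin v| := one_mul _
    calc |Real.sin (k * v) * Real.cos v + Real.cos (k * v) * Real.sin v|
        ≤ |Real.sin (k * v) * Real.cos v| + |Real.cos (k * v) * Real.sin v| := abs_add_le _ _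
      _ ≤ k * |Real.sin v| + |Real.sin v| := add_le_add h1 h2
      _ = ((k + 1 : ℕ) : ℝ) * |Real.sin v| := by push_cast; ring

theorem abs_cheb (k : ℕ) (hk : Odd k) (v : ℝ) :
    |(Polynomial.Chebyshev.T ℝ (k : ℤ)).eval (Real.sin v)| = |Real.sin (k * v)| := by
  rw [← Real.cos_pi_div_two_sub v, Polynomial.Chebyshev.T_real_cos]
  obtain ⟨j, rfl⟩ := hk
  have h1 : (((2 * j + 1 : ℕ) : ℤ) : ℝ) * (Real.pi / 2 - v) =
      Real.pi / 2 - ((2 * j + 1 : ℕ) : ℝ) * v + j * Real.pi := by push_cast; ring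
  rw [h1, Real.cos_add_nat_mul_pi, abs_mul, abs_pow, abs_neg, abs_one, one_pow, one_mul,
    Real.cos_pi_div_two_sub]

theorem kernel (k : ℕ) (hk : Odd k) : ∃ R : Polynomial ℝ, R.natDegree ≤ 4 * (k - 1) ∧
    (∀ t : ℝ, |t| ≤ 1 → 0 ≤ R.eval t ∧ R.eval t ≤ 1 ∧ R.eval t * (k * t) ^ 4 ≤ 1) ∧
    (∀ t : ℝ, |t| ≤ 1 / k → 4 / 25 ≤ R.eval t) := by
  have hk0 : 0 < k := hk.pos
  have hkR : (0 : ℝ) < k := by exact_mod_cast hk0
  have hroot : (Polynomial.Chebyshev.T ℝ (k : ℤ)).IsRoot 0 := by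
    exact Polynomial.Chebyshev.T_eval_zero_of_odd ℝ (by exact_mod_cast hk)
  obtain ⟨P, hP⟩ := Polynomial.dvd_iff_isRoot.mpr hroot
  rw [Polynomial.C_0, sub_zero] at hP
  have hT0 : Polynomial.Chebyshev.T ℝ (k : ℤ) ≠ 0 := by
    intro h
    have := Polynomial.Chebyshev.natDegree_T (R := ℝ) (k : ℤ)
    rw [h] at this
    simp at this
    omega
  have hP0 : P ≠ 0 := by
    rintro rfl
    exact hT0 (by rw [hP]; simp)
  have hdeg : P.natDegree = k - 1 := by
    have h := congrArg Polynomial.natDegree hP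
    rw [Polynomial.Chebyshev.natDegree_T, Polynomial.natDegree_X_mul hP0] at h
    simp at h
    omega
  set Q : Polynomial ℝ := Polynomial.C (1 / (k : ℝ)) * P with hQ
  have hev : ∀ t : ℝ, t ≠ 0 → Q.eval t = (Polynomial.Chebyshev.T ℝ (k : ℤ)).eval t / (k * t) := by
    intro t ht
    rw [hP, hQ]
    simp only [Polynomial.eval_mul, Polynomial.eval_C, Polynomial.eval_X]
    field_simp
  have hsin : ∀ t : ℝ, |t| ≤ 1 → Real.sin (Real.arcsin t) = t := fun t ht =>
    Real.sin_arcsin (neg_le_of_abs_le ht) (le_of_abs_le ht)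
  have hT : ∀ t : ℝ, |t| ≤ 1 → |(Polynomial.Chebyshev.T ℝ (k : ℤ)).eval t| =
      |Real.sin (k * Real.arcsin t)| := by
    intro t ht
    have := abs_cheb k hk (Real.arcsin t)
    rwa [hsin t ht] at this
  -- |Q| ≤ 1
  have hQ1 : ∀ t : ℝ, t ≠ 0 → |t| ≤ 1 → |Q.eval t| ≤ 1 := by
    intro t ht0 ht
    rw [hev t ht0, abs_div, hT t ht, abs_mul, abs_of_pos hkR, div_le_one (by positivity)]
    have := abs_sin_nat_mul_le k (Real.arcsin t)
    rwa [hsin t ht] at this
  -- |Q| ≥ 2/π
  have hQ2 : ∀ t : ℝ, t ≠ 0 → |t| ≤ 1 / k → 2 / Real.pi ≤ |Q.eval t| := by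
    intro t ht0 ht
    have hk1 : (1 : ℝ) ≤ k := by exact_mod_cast hk0
    have ht1 : |t| ≤ 1 := ht.trans (by rw [div_le_one hkR]; exact hk1)
    set v := Real.arcsin |t| with hv
    have hv0 : 0 ≤ v := Real.arcsin_nonneg.mpr (abs_nonneg t)
    have hv2 : v ≤ Real.pi / 2 := Real.arcsin_le_pi_div_two _
    have hsv : Real.sin v = |t| := hsin |t| (by rwa [abs_abs])
    have hvs : 2 / Real.pi * v ≤ |t| := by
      rw [← hsv]; exact Real.mul_le_sin hv0 hv2
    have hkv : k * v ≤ Real.pi / 2 := by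
      have h1 : 2 / Real.pi * v ≤ 1 / k := hvs.trans ht
      have hpi := Real.pi_pos
      rw [div_mul_eq_mul_div, div_le_div_iff₀ hpi hkR] at h1
      linarith
    have hkv0 : 0 ≤ k * v := by positivity
    have habs : |Real.sin (k * Real.arcsin t)| = |Real.sin (k * v)| := by
      rcases abs_cases t with ⟨h, -⟩ | ⟨h, -⟩
      · rw [hv, h]
      · rw [hv, h, Real.arcsin_neg, mul_neg, Real.sin_neg, abs_neg]
    have hlow : 2 / Real.pi * (k * v) ≤ |Real.sin (k * v)| :=
      (Real.mul_le_sin hkv0 hkv).trans (le_abs_self _)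
    have htv : |t| ≤ v := by
      rw [← hsv]; exact Real.sin_le hv0
    have htpos : 0 < |t| := abs_pos.mpr ht0
    rw [hev t ht0, abs_div, hT t ht1, abs_mul, abs_of_pos hkR, le_div_iff₀ (by positivity), habs]
    refine le_trans ?_ hlow
    have : 0 ≤ 2 / Real.pi := by positivity
    gcongr
  have hcont : Continuous fun t : ℝ => Q.eval t := Q.continuous
  refine ⟨Q ^ 4, ?_, ?_, ?_⟩
  · refine (Polynomial.natDegree_pow_le).trans ?_
    refine Nat.mul_le_mul_left 4 ?_
    refine (Polynomial.natDegree_C_mul_le _ _).trans hdeg.le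
  · intro t ht
    have hev4 : (Q ^ 4).eval t = (Q.eval t) ^ 4 := by simp
    rw [hev4]
    refine ⟨by positivity, ?_, ?_⟩
    · have hle : |Q.eval t| ≤ 1 := by
        by_cases h0 : t = 0
        · subst h0
          have hcl : IsClosed {t : ℝ | |Q.eval t| ≤ 1} := isClosed_le hcont.abs continuous_const
          have hmem : (0 : ℝ) ∈ closure (Set.Ioo (0 : ℝ) 1) := by
            rw [closure_Ioo (by norm_num)]; exact ⟨le_rfl, zero_le_one⟩
          exact hcl.closure_subset_iff.mpr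
            (fun s hs => hQ1 s hs.1.ne' (by rw [abs_of_pos hs.1]; exact hs.2.le)) hmem
        · exact hQ1 t h0 ht
      calc (Q.eval t) ^ 4 = |Q.eval t| ^ 4 := by rw [← abs_pow]; exact (abs_of_nonneg (by positivity)).symm
        _ ≤ 1 := pow_le_one₀ (abs_nonneg _) hle
    · have h1 : Q.eval t * (k * t) = (Polynomial.Chebyshev.T ℝ (k : ℤ)).eval t := by
        rw [hP, hQ]
        simp only [Polynomial.eval_mul, Polynomial.eval_C, Polynomial.eval_X]
        field_simp
      rw [← mul_pow, h1]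
      calc ((Polynomial.Chebyshev.T ℝ (k : ℤ)).eval t) ^ 4 =
            |(Polynomial.Chebyshev.T ℝ (k : ℤ)).eval t| ^ 4 := by
              rw [← abs_pow]; exact (abs_of_nonneg (by positivity)).symm
        _ ≤ 1 := by
            rw [hT t ht]
            exact pow_le_one₀ (abs_nonneg _) (Real.abs_sin_le_one _)
  · intro t ht
    have hev4 : (Q ^ 4).eval t = (Q.eval t) ^ 4 := by simp
    rw [hev4]
    have hle : 2 / Real.pi ≤ |Q.eval t| := by
      by_cases h0 : t = 0
      · subst h0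
        have hcl : IsClosed {t : ℝ | 2 / Real.pi ≤ |Q.eval t|} := isClosed_le continuous_const hcont.abs
        have hmem : (0 : ℝ) ∈ closure (Set.Ioo (0 : ℝ) (1 / k)) := by
          have hk' : (0 : ℝ) < 1 / k := by positivity
          rw [closure_Ioo hk'.ne]; exact ⟨le_rfl, hk'.le⟩
        exact hcl.closure_subset_iff.mpr
          (fun s hs => hQ2 s hs.1.ne' (by rw [abs_of_pos hs.1]; exact hs.2.le)) hmem
      · exact hQ2 t h0 ht
    have hpi2 : (16 : ℝ) / 25 * (5 / 8) ≤ (2 / Real.pi) ^ 2 := by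
      have h3 : Real.pi < 3.15 := Real.pi_lt_d2
      have h0 := Real.pi_pos
      rw [div_pow, le_div_iff₀ (by positivity)]
      nlinarith
    calc (4 : ℝ) / 25 ≤ ((2 / Real.pi) ^ 2) ^ 2 := by nlinarith [hpi2]
      _ = (2 / Real.pi) ^ 4 := by ring
      _ ≤ |Q.eval t| ^ 4 := by gcongr
      _ = (Q.eval t) ^ 4 := by rw [← abs_pow]; exact abs_of_nonneg (by positivity)

end Crest.Agent.R63
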