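import Crest.Agent.R63.Ch6

/-! ROW 63, module W: polynomials of degree <= m - f in sum nu(x_i) are orthogonal to W.  PROOF: by linearity monomials (sum_i a_i)^d,
d <= m-f, expand as a sum over maps g : Fin d -> Fin m of prod_j a_{g j}, a function of the coordinates in the image of g
(at most d <= m-f of them; enlarge to a set of size m-f), isL_of_dep (Ch6). -/

set_option autoImplicit false
open Finset MeasureTheory ProbabilityTheory

namespace Crest.Agent.R63

private theorem isL_sum_aux {m r f : ℕ} {ι : Type*} (S : Finset ι) (g : ι → X m r → ℝ)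
    (h : ∀ i ∈ S, IsL f (g i)) : IsL f (fun x => ∑ i ∈ S, g i x) := by
  intro w hw
  have : ∑ x, (∑ i ∈ S, g i x) * w x = ∑ i ∈ S, ∑ x, g i x * w x := by
    rw [sum_comm]
    exact sum_congr rfl fun x _ => by rw [sum_mul]
  rw [this]
  exact sum_eq_zero fun i hi => h i hi w hw

private theorem isL_const_mul_aux {m r f : ℕ} (c : ℝ) (g : X m r → ℝ) (h : IsL f g) :
    IsL f (fun x => c * g x) := by
  intro w hw
  have : ∑ x, (c * g x) * w x = c * ∑ x, g x * w x := by
    rw [mul_sum]
    exact sum_congr rfl fun x _ => by ring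
  rw [this, h w hw, mul_zero]

private theorem isL_pow_aux {m r f : ℕ} (hf : f ≤ m) (ν : G r → ℝ) (d : ℕ) (hd : d ≤ m - f) :
    IsL f (fun x : X m r => (∑ i, ν (x i)) ^ d) := by
  have e : (fun x : X m r => (∑ i, ν (x i)) ^ d) =
      fun x => ∑ p : Fin d → Fin m, ∏ j, ν (x (p j)) := by
    funext x
    exact Fintype.sum_pow _ d
  rw [e]
  refine isL_sum_aux univ (fun (p : Fin d → Fin m) (x : X m r) => ∏ j, ν (x (p j))) fun p _ => ?_
  have hc : (univ.image p).card ≤ m - f := by
    refine card_image_le.trans ?_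
    rw [card_univ, Fintype.card_fin]
    exact hd
  obtain ⟨I, hI, hIc⟩ := exists_superset_card_eq hc (by rw [Fintype.card_fin]; omega)
  refine isL_of_dep hf I hIc _ fun x y hxy => ?_
  refine prod_congr rfl fun j _ => ?_
  rw [hxy (p j) (hI (mem_image_of_mem p (mem_univ j)))]

theorem isL_poly {m r f : ℕ} (hf : f ≤ m) (ν : G r → ℝ) (R : Polynomial ℝ)
    (hR : R.natDegree ≤ m - f) (s : ℝ) :
    IsL f (fun x : X m r => R.eval ((∑ i, ν (x i)) / s)) := by
  have e : (fun x : X m r => R.eval ((∑ i, ν (x i)) / s)) =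
      fun x => ∑ d ∈ range (R.natDegree + 1), (R.coeff d / s ^ d) * (∑ i, ν (x i)) ^ d := by
    funext x
    rw [Polynomial.eval_eq_sum_range]
    refine sum_congr rfl fun d _ => ?_
    rw [div_pow]
    ring
  rw [e]
  refine isL_sum_aux _ (fun (d : ℕ) (x : X m r) => (R.coeff d / s ^ d) * (∑ i, ν (x i)) ^ d)
    fun d hd => ?_
  refine isL_const_mul_aux _ _ (isL_pow_aux hf ν d ?_)
  have := mem_range.1 hd
  omega

end Crest.Agent.R63
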