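import Crest.Agent.R63.Defs

/-! ROW 63, module W: Gaussian facts.  gauss_cauchy: density <= 1/sqrt(2 pi m), int dy/(b^2+y^2) = pi/b, sqrt(pi/2) <= 1.3.
gauss_small: density >= exp(-1/2)/sqrt(2 pi m) >= .24/sqrt m on |y| <= sqrt m. -/

set_option autoImplicit false
open Finset MeasureTheory ProbabilityTheory

namespace Crest.Agent.R63

theorem sum_law (m : ℕ) : Measure.map (fun Y : Fin m → ℝ => ∑ i, Y i)
    (Measure.pi fun _ : Fin m => gaussianReal 0 1) = gaussianReal 0 m := by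
  have hm : Measurable (fun Y : Fin m → ℝ => ∑ i, Y i) := by fun_prop
  haveI : IsProbabilityMeasure (Measure.map (fun Y : Fin m → ℝ => ∑ i, Y i)
    (Measure.pi fun _ : Fin m => gaussianReal 0 1)) := Measure.isProbabilityMeasure_map hm.aemeasurable
  refine Measure.ext_of_charFun ?_
  rw [charFun_map_sum_pi_eq_prod]
  funext t
  rw [Finset.prod_apply]
  simp only [charFun_gaussianReal]
  rw [Finset.prod_const, Finset.card_univ, Fintype.card_fin, ← Complex.exp_nat_mul]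
  congr 1
  push_cast
  simp
  ring

private theorem cauchy_int (b : ℝ) (hb : 0 < b) :
    Integrable (fun y : ℝ => 1 / (b ^ 2 + y ^ 2)) ∧ ∫ y : ℝ, 1 / (b ^ 2 + y ^ 2) = Real.pi / b := by
  have h1 : (fun y : ℝ => 1 / (b ^ 2 + y ^ 2)) = fun y => (b ^ 2)⁻¹ * (1 + (y / b) ^ 2)⁻¹ := by
    funext y
    rw [← mul_inv, one_div]
    congr 1
    field_simp
  constructor
  · rw [h1]
    exact (integrable_inv_one_add_sq.comp_div hb.ne').const_mul _
  · rw [h1, integral_const_mul, Measure.integral_comp_div (fun y => (1 + y ^ 2)⁻¹) b,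
      integral_univ_inv_one_add_sq, abs_of_pos hb, smul_eq_mul]
    field_simp

private theorem pdf_le (m : ℕ) (y : ℝ) :
    gaussianPDFReal 0 m y ≤ (Real.sqrt (2 * Real.pi * m))⁻¹ := by
  rw [gaussianPDFReal_def]
  have h : Real.exp (-(y - 0) ^ 2 / (2 * ((m : NNReal) : ℝ))) ≤ 1 := by
    rw [Real.exp_le_one_iff]
    apply div_nonpos_of_nonpos_of_nonneg
    · nlinarith [sq_nonneg (y - 0)]
    · positivity
  have h2 : (0 : ℝ) ≤ (Real.sqrt (2 * Real.pi * ((m : NNReal) : ℝ)))⁻¹ := by positivity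
  have h3 := mul_le_mul_of_nonneg_left h h2
  rw [mul_one] at h3
  exact h3

theorem gauss_cauchy (m : ℕ) (hm : 1 ≤ m) (b : ℝ) (hb : 0 < b) :
    ∫ y, 1 / (b ^ 2 + y ^ 2) ∂(gaussianReal 0 m) ≤ 13 / 10 / (b * Real.sqrt m) := by
  have hm0 : (m : NNReal) ≠ 0 := by exact_mod_cast (by omega : m ≠ 0)
  have hmr : (0 : ℝ) < m := by exact_mod_cast hm
  rw [integral_gaussianReal_eq_integral_smul hm0]
  obtain ⟨i1, i2⟩ := cauchy_int b hb
  have h1 : ∫ y : ℝ, gaussianPDFReal 0 m y • (1 / (b ^ 2 + y ^ 2)) ≤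
      ∫ y : ℝ, (Real.sqrt (2 * Real.pi * m))⁻¹ * (1 / (b ^ 2 + y ^ 2)) := by
    refine integral_mono_of_nonneg (Filter.Eventually.of_forall fun y => ?_) (i1.const_mul _)
      (Filter.Eventually.of_forall fun y => ?_)
    · have := gaussianPDFReal_nonneg 0 m y
      show (0 : ℝ) ≤ gaussianPDFReal 0 m y • (1 / (b ^ 2 + y ^ 2))
      rw [smul_eq_mul]
      positivity
    · show gaussianPDFReal 0 m y • (1 / (b ^ 2 + y ^ 2)) ≤ _
      rw [smul_eq_mul]
      exact mul_le_mul_of_nonneg_right (pdf_le m y) (by positivity)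
  refine h1.trans ?_
  rw [integral_const_mul, i2]
  have hs : Real.sqrt (2 * Real.pi * m) = Real.sqrt (2 * Real.pi) * Real.sqrt m :=
    Real.sqrt_mul (by positivity) _
  have hsm : 0 < Real.sqrt m := Real.sqrt_pos.2 hmr
  have hsp : 0 < Real.sqrt (2 * Real.pi) := Real.sqrt_pos.2 (by positivity)
  have h2 : Real.pi ≤ 13 / 10 * Real.sqrt (2 * Real.pi) := by
    have h3 : Real.pi / (13 / 10) ≤ Real.sqrt (2 * Real.pi) := by
      apply Real.le_sqrt_of_sq_le
      have := Real.pi_lt_d2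
      have := Real.pi_pos
      nlinarith
    linarith
  rw [hs]
  rw [div_eq_mul_inv (13 / 10 : ℝ), mul_inv, mul_inv]
  have h4 : (Real.sqrt (2 * Real.pi))⁻¹ * (Real.sqrt m)⁻¹ * (Real.pi / b) =
      (Real.pi * (Real.sqrt (2 * Real.pi))⁻¹) * (b⁻¹ * (Real.sqrt m)⁻¹) := by
    rw [div_eq_mul_inv]; ring
  rw [h4]
  refine mul_le_mul_of_nonneg_right ?_ (by positivity)
  rw [← div_eq_mul_inv, div_le_iff₀ hsp]
  exact h2

theorem gauss_small (m : ℕ) (hm : 1 ≤ m) (s : ℝ) (hs : 0 < s) (hs1 : s ≤ Real.sqrt m) :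
    12 / 25 * s / Real.sqrt m ≤ (gaussianReal 0 m).real {y | |y| ≤ s} := by
  have hm0 : (m : NNReal) ≠ 0 := by exact_mod_cast (by omega : m ≠ 0)
  have hmr : (0 : ℝ) < m := by exact_mod_cast hm
  have hsm : 0 < Real.sqrt m := Real.sqrt_pos.2 hmr
  have hset : {y : ℝ | |y| ≤ s} = Set.Icc (-s) s := by
    ext y
    simp [abs_le]
  rw [Measure.real, gaussianReal_apply_eq_integral 0 hm0, hset,
    ENNReal.toReal_ofReal (setIntegral_nonneg measurableSet_Icc fun y _ => gaussianPDFReal_nonneg _ _ _)]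
  have hs2 : s ^ 2 ≤ m := by
    have := Real.sq_sqrt hmr.le
    nlinarith
  have hpdf : ∀ y ∈ Set.Icc (-s) s, 6 / 25 / Real.sqrt m ≤ gaussianPDFReal 0 m y := by
    intro y hy
    rw [gaussianPDFReal_def]
    show 6 / 25 / Real.sqrt m ≤ (Real.sqrt (2 * Real.pi * m))⁻¹ * Real.exp (-(y - 0) ^ 2 / (2 * m))
    have hy2 : y ^ 2 ≤ m := by
      have := abs_le.2 ⟨hy.1, hy.2⟩
      have h1 : y ^ 2 ≤ s ^ 2 := by
        rw [← sq_abs y]
        exact pow_le_pow_left₀ (abs_nonneg _) this 2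
      linarith
    have h1 : Real.exp (-(1 / 2)) ≤ Real.exp (-(y - 0) ^ 2 / (2 * m)) := by
      apply Real.exp_le_exp.2
      rw [le_div_iff₀ (by positivity)]
      nlinarith
    have hsq : Real.sqrt (2 * Real.pi * m) = Real.sqrt (2 * Real.pi) * Real.sqrt m :=
      Real.sqrt_mul (by positivity) _
    have hsp : 0 < Real.sqrt (2 * Real.pi) := Real.sqrt_pos.2 (by positivity)
    have h2 : 6 / 25 ≤ (Real.sqrt (2 * Real.pi))⁻¹ * Real.exp (-(1 / 2)) := by
      rw [← div_eq_inv_mul, le_div_iff₀ hsp]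
      refine le_of_pow_le_pow_left₀ (n := 2) (by norm_num) (Real.exp_pos _).le ?_
      rw [mul_pow, Real.sq_sqrt (by positivity), ← Real.exp_nat_mul]
      have e1 : ((2 : ℕ) : ℝ) * -(1 / 2) = -1 := by norm_num
      rw [e1, Real.exp_neg]
      have he := Real.exp_one_lt_d9
      have hp := Real.pi_lt_d4
      have hpp := Real.pi_pos
      have hep := Real.exp_pos 1
      rw [le_inv_comm₀ (by positivity) hep]
      rw [← one_div, le_div_iff₀ (by positivity)]
      nlinarith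
    rw [hsq, mul_inv]
    calc 6 / 25 / Real.sqrt m = 6 / 25 * (Real.sqrt m)⁻¹ := by rw [div_eq_mul_inv (6 / 25 : ℝ)]
      _ ≤ ((Real.sqrt (2 * Real.pi))⁻¹ * Real.exp (-(1 / 2))) * (Real.sqrt m)⁻¹ :=
          mul_le_mul_of_nonneg_right h2 (by positivity)
      _ = (Real.sqrt (2 * Real.pi))⁻¹ * (Real.sqrt m)⁻¹ * Real.exp (-(1 / 2)) := by ring
      _ ≤ _ := mul_le_mul_of_nonneg_left h1 (by positivity)
  have h3 : ∫ y in Set.Icc (-s) s, (6 / 25 / Real.sqrt m : ℝ) ≤
      ∫ y in Set.Icc (-s) s, gaussianPDFReal 0 m y := by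
    refine setIntegral_mono_on ?_ (integrable_gaussianPDFReal 0 m).integrableOn measurableSet_Icc hpdf
    exact integrableOn_const (by simp) (by simp)
  refine le_trans (le_of_eq ?_) h3
  rw [setIntegral_const, Measure.real, Real.volume_Icc, ENNReal.toReal_ofReal (by linarith),
    smul_eq_mul]
  ring

end Crest.Agent.R63
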