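import Crest.Agent.R63.Defs

/-! ROW 63, module W: the quantisation error g(t) = t - nu(Qz t).  err_one: int g^2 <= (2r/2^r)^2 + int_{|t|>r} (|t|-r)^2
<= 4 r^2/4^r + exp(-r^2/2) <= 5 r^2/4^r  (int_{t>r} (t-r)^2 phi(t) dt = int_0^oo u^2 phi(r+u) du <= exp(-r^2/2)/2).
err_mean: g is odd off a finite set.  err_sum: independence, mean zero. -/

set_option autoImplicit false
open Finset MeasureTheory ProbabilityTheory

namespace Crest.Agent.R63

theorem err_one (r : ℕ) (hr : 4 ≤ r) (g : ℝ → ℝ) (hg : Measurable g)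
    (h1 : ∀ t : ℝ, |t| ≤ r → |g t| ≤ 2 * r / 2 ^ r)
    (h2 : ∀ t : ℝ, (r : ℝ) < |t| → |g t| ≤ |t| - r) :
    Integrable (fun t => g t ^ 2) (gaussianReal 0 1) ∧
      ∫ t, g t ^ 2 ∂(gaussianReal 0 1) ≤ 5 * r ^ 2 / 4 ^ r := by
  have hr' : (4 : ℝ) ≤ r := by exact_mod_cast hr
  set C : ℝ := 2 * Real.exp (-(r : ℝ) ^ 2) with hC
  have hb : ∀ t : ℝ, g t ^ 2 ≤ 4 * r ^ 2 / 4 ^ r + (C * Real.exp (r * t) + C * Real.exp (-r * t)) := by
    intro t
    have hE : 0 ≤ C * Real.exp (r * t) + C * Real.exp (-r * t) := by positivity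
    have hF : (0 : ℝ) ≤ 4 * r ^ 2 / 4 ^ r := by positivity
    have hsq : g t ^ 2 = |g t| ^ 2 := (sq_abs _).symm
    rw [hsq]
    rcases le_or_gt |t| r with h | h
    · have h3 : |g t| ^ 2 ≤ (2 * r / 2 ^ r) ^ 2 := pow_le_pow_left₀ (abs_nonneg _) (h1 t h) 2
      have h4 : ((2 * r / 2 ^ r : ℝ)) ^ 2 = 4 * r ^ 2 / 4 ^ r := by
        rw [div_pow, mul_pow, ← pow_mul, mul_comm r 2, pow_mul]; norm_num
      linarith
    · have h3 : |g t| ^ 2 ≤ (|t| - r) ^ 2 := pow_le_pow_left₀ (abs_nonneg _) (h2 t h) 2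
      have hu : 0 ≤ |t| - r := by linarith
      have h4 := Real.quadratic_le_exp_of_nonneg hu
      have h5 : Real.exp (|t| - r) ≤ Real.exp (r * (|t| - r)) := by
        apply Real.exp_le_exp.2; nlinarith
      have h6 : 2 * Real.exp (r * (|t| - r)) = C * Real.exp (r * |t|) := by
        rw [hC, mul_assoc, ← Real.exp_add]; congr 2; ring
      have h7 : Real.exp (r * |t|) ≤ Real.exp (r * t) + Real.exp (-r * t) := by
        rcases abs_cases t with ⟨h, _⟩ | ⟨h, _⟩
        · rw [h]; have := Real.exp_pos (-r * t); linarith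
        · rw [h]; have := Real.exp_pos (r * t)
          have h8 : (r : ℝ) * -t = -r * t := by ring
          rw [h8]; linarith
      have h9 : C * Real.exp (r * |t|) ≤ C * Real.exp (r * t) + C * Real.exp (-r * t) := by
        rw [← mul_add]; exact mul_le_mul_of_nonneg_left h7 (by positivity)
      nlinarith
  have hi : ∀ a : ℝ, Integrable (fun t => Real.exp (a * t)) (gaussianReal 0 1) :=
    fun a => integrable_exp_mul_gaussianReal a
  have hI : ∀ a : ℝ, ∫ t, Real.exp (a * t) ∂(gaussianReal 0 1) = Real.exp (a ^ 2 / 2) := by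
    intro a
    have := congrFun (mgf_id_gaussianReal (μ := 0) (v := 1)) a
    simpa [mgf] using this
  have hint : Integrable (fun t => 4 * r ^ 2 / 4 ^ r + (C * Real.exp (r * t) + C * Real.exp (-r * t)))
      (gaussianReal 0 1) :=
    (integrable_const _).add (((hi r).const_mul C).add ((hi (-r)).const_mul C))
  have hsqi : Integrable (fun t => g t ^ 2) (gaussianReal 0 1) := by
    refine hint.mono' (hg.pow_const 2).aestronglyMeasurable (Filter.Eventually.of_forall fun t => ?_)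
    rw [Real.norm_of_nonneg (sq_nonneg _)]
    exact hb t
  refine ⟨hsqi, ?_⟩
  calc ∫ t, g t ^ 2 ∂(gaussianReal 0 1)
      ≤ ∫ t, (4 * r ^ 2 / 4 ^ r + (C * Real.exp (r * t) + C * Real.exp (-r * t))) ∂(gaussianReal 0 1) :=
        integral_mono hsqi hint hb
    _ = 4 * r ^ 2 / 4 ^ r + 4 * Real.exp (-(r : ℝ) ^ 2 / 2) := by
        have e1 : ∫ t, (4 * (r : ℝ) ^ 2 / 4 ^ r + (C * Real.exp (r * t) + C * Real.exp (-r * t))) ∂(gaussianReal 0 1)
            = (∫ _t : ℝ, (4 * (r : ℝ) ^ 2 / 4 ^ r) ∂(gaussianReal 0 1)) +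
              ∫ t, (C * Real.exp (r * t) + C * Real.exp (-r * t)) ∂(gaussianReal 0 1) :=
          integral_add (integrable_const _) (((hi r).const_mul C).add ((hi (-r)).const_mul C))
        have e2 : ∫ t, (C * Real.exp (r * t) + C * Real.exp (-r * t)) ∂(gaussianReal 0 1)
            = (∫ t, C * Real.exp (r * t) ∂(gaussianReal 0 1)) +
              ∫ t, C * Real.exp (-r * t) ∂(gaussianReal 0 1) :=
          integral_add ((hi r).const_mul C) ((hi (-r)).const_mul C)
        rw [e1, e2, integral_const_mul, integral_const_mul, hI, hI]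
        simp only [integral_const, probReal_univ, smul_eq_mul, one_mul, neg_sq]
        rw [hC]
        have : Real.exp (-(r : ℝ) ^ 2 / 2) = Real.exp (-(r : ℝ) ^ 2) * Real.exp ((r : ℝ) ^ 2 / 2) := by
          rw [← Real.exp_add]; congr 1; ring
        rw [this]; ring
    _ ≤ 5 * r ^ 2 / 4 ^ r := by
        have h4 : (0 : ℝ) < 4 ^ r := by positivity
        have key : 4 * Real.exp (-(r : ℝ) ^ 2 / 2) ≤ r ^ 2 / 4 ^ r := by
          rw [le_div_iff₀ h4]
          have h5 : Real.exp (-(r : ℝ) ^ 2 / 2) ≤ Real.exp (-(2 : ℝ) * r) := by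
            apply Real.exp_le_exp.2; nlinarith
          have h6 : (4 : ℝ) ^ r ≤ Real.exp (2 * r) := by
            have : (4 : ℝ) ≤ Real.exp 2 := by
              have := Real.quadratic_le_exp_of_nonneg (x := 2) (by norm_num)
              linarith
            calc (4 : ℝ) ^ r ≤ (Real.exp 2) ^ r := pow_le_pow_left₀ (by norm_num) this r
              _ = Real.exp (2 * r) := by rw [← Real.exp_nat_mul]; congr 1; ring
          have h7 : Real.exp (-(2 : ℝ) * r) * Real.exp (2 * r) = 1 := by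
            rw [← Real.exp_add]; simp
          calc 4 * Real.exp (-(r : ℝ) ^ 2 / 2) * 4 ^ r ≤ 4 * Real.exp (-(2 : ℝ) * r) * Real.exp (2 * r) := by
                gcongr
            _ = 4 := by rw [mul_assoc, h7]; norm_num
            _ ≤ r ^ 2 := by nlinarith
        have : (5 * r ^ 2 / 4 ^ r : ℝ) = 4 * r ^ 2 / 4 ^ r + r ^ 2 / 4 ^ r := by ring
        linarith

theorem err_mean (g : ℝ → ℝ) (hg : Measurable g) (hi : Integrable g (gaussianReal 0 1))
    (F : Finset ℝ) (h : ∀ t : ℝ, t ∉ F → g (-t) = - g t) :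
    ∫ t, g t ∂(gaussianReal 0 1) = 0 := by
  have hmap : (gaussianReal 0 1).map (fun x : ℝ => -x) = gaussianReal 0 1 := by
    rw [gaussianReal_map_neg]; simp
  have h1 : ∫ t, g t ∂(gaussianReal 0 1) = ∫ t, g (-t) ∂(gaussianReal 0 1) := by
    conv_lhs => rw [← hmap]
    rw [integral_map measurable_neg.aemeasurable hg.aestronglyMeasurable]
  have h2 : ∫ t, g (-t) ∂(gaussianReal 0 1) = ∫ t, - g t ∂(gaussianReal 0 1) := by
    have : NullSingletonClass (gaussianReal 0 1) := nullSingletonClass_gaussianReal (by norm_num)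
    apply integral_congr_ae
    have h3 : (gaussianReal 0 1) (F : Set ℝ) = 0 := F.finite_toSet.measure_zero _
    filter_upwards [compl_mem_ae_iff.2 h3] with t ht
    exact h t (by simpa using ht)
  rw [integral_neg] at h2
  linarith

theorem err_sum (m : ℕ) (g : ℝ → ℝ) (hg : Measurable g)
    (hi : Integrable (fun t => g t ^ 2) (gaussianReal 0 1)) (h0 : ∫ t, g t ∂(gaussianReal 0 1) = 0) :
    Integrable (fun Y : Fin m → ℝ => (∑ i, g (Y i)) ^ 2) (Measure.pi fun _ : Fin m => gaussianReal 0 1) ∧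
    ∫ Y : Fin m → ℝ, (∑ i, g (Y i)) ^ 2 ∂(Measure.pi fun _ : Fin m => gaussianReal 0 1) =
      m * ∫ t, g t ^ 2 ∂(gaussianReal 0 1) := by
  have hL : MemLp g 2 (gaussianReal 0 1) :=
    (memLp_two_iff_integrable_sq hg.aestronglyMeasurable).2 hi
  have hmp : ∀ i : Fin m, MeasurePreserving (fun Y : Fin m → ℝ => Y i)
      (Measure.pi fun _ : Fin m => gaussianReal 0 1) (gaussianReal 0 1) :=
    fun i => measurePreserving_eval (fun _ : Fin m => gaussianReal 0 1) i
  have hLi : ∀ i : Fin m, MemLp (fun Y : Fin m → ℝ => g (Y i)) 2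
      (Measure.pi fun _ : Fin m => gaussianReal 0 1) :=
    fun i => hL.comp_measurePreserving (hmp i)
  have hLs : MemLp (fun Y : Fin m → ℝ => ∑ i, g (Y i)) 2
      (Measure.pi fun _ : Fin m => gaussianReal 0 1) :=
    memLp_finsetSum _ fun i _ => hLi i
  refine ⟨hLs.integrable_sq, ?_⟩
  have hint : ∀ i : Fin m, ∫ Y : Fin m → ℝ, g (Y i) ∂(Measure.pi fun _ : Fin m => gaussianReal 0 1) = 0 := by
    intro i
    have h1 : ∫ t, g t ∂((Measure.pi fun _ : Fin m => gaussianReal 0 1).map fun Y : Fin m → ℝ => Y i)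
        = ∫ Y : Fin m → ℝ, g (Y i) ∂(Measure.pi fun _ : Fin m => gaussianReal 0 1) :=
      integral_map (hmp i).aemeasurable hg.aestronglyMeasurable
    rw [← h1, (hmp i).map_eq, h0]
  have hE : ∫ Y : Fin m → ℝ, (∑ i, g (Y i)) ∂(Measure.pi fun _ : Fin m => gaussianReal 0 1) = 0 := by
    rw [integral_finsetSum _ fun i _ => (hLi i).integrable (by norm_num)]
    exact Finset.sum_eq_zero fun i _ => hint i
  rw [← variance_of_integral_eq_zero hLs.aemeasurable hE]
  have hvar := IndepFun.variance_sum (μ := Measure.pi fun _ : Fin m => gaussianReal 0 1)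
    (X := fun i (Y : Fin m → ℝ) => g (Y i)) (s := Finset.univ) (fun i _ => hLi i)
    (fun i _ j _ hij => (iIndepFun_pi (μ := fun _ : Fin m => gaussianReal 0 1) (X := fun _ => g)
      fun i => hg.aemeasurable).indepFun hij)
  have heq : (fun Y : Fin m → ℝ => ∑ i, g (Y i)) = ∑ i, fun Y : Fin m → ℝ => g (Y i) := by
    ext Y; simp
  rw [heq, hvar]
  have : ∀ i : Fin m, variance (fun Y : Fin m → ℝ => g (Y i)) (Measure.pi fun _ : Fin m => gaussianReal 0 1)
      = ∫ t, g t ^ 2 ∂(gaussianReal 0 1) := by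
    intro i
    rw [variance_of_integral_eq_zero (hLi i).aemeasurable (hint i)]
    have h1 : ∫ t, g t ^ 2 ∂((Measure.pi fun _ : Fin m => gaussianReal 0 1).map fun Y : Fin m → ℝ => Y i)
        = ∫ Y : Fin m → ℝ, g (Y i) ^ 2 ∂(Measure.pi fun _ : Fin m => gaussianReal 0 1) :=
      integral_map (hmp i).aemeasurable (hg.pow_const 2).aestronglyMeasurable
    rw [← h1, (hmp i).map_eq]
  simp [this]

end Crest.Agent.R63
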