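import Crest.Agent.R63.WMass

/-! ROW 63, module W: sum over the cells = expectation (partition of the space by the values of Qz o Y; every piece integrable). -/

set_option autoImplicit false
open Finset MeasureTheory ProbabilityTheory

namespace Crest.Agent.R63

theorem phi_sum {Γ : Type} [Fintype Γ] [DecidableEq Γ] (m f : ℕ) (Qz : ℝ → Γ)
    (hQ : ∀ a, MeasurableSet (Qz ⁻¹' {a})) (P : (Fin m → Γ) → ℝ) :
    ∑ x, phi m f Qz x * P x =
      ∫ Y : Fin m → ℝ, ((f : ℝ) - (∑ i, Y i) ^ 2) * P (fun i => Qz (Y i))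
        ∂(Measure.pi fun _ : Fin m => gaussianReal 0 1) := by
  classical
  set μ : Measure (Fin m → ℝ) := Measure.pi fun _ : Fin m => gaussianReal 0 1 with hμ
  set A : (Fin m → Γ) → Set (Fin m → ℝ) := fun x => {Y | ∀ i, Qz (Y i) = x i} with hA
  have hAm : ∀ x, MeasurableSet (A x) := by
    intro x
    have : A x = ⋂ i, (fun Y : Fin m → ℝ => Y i) ⁻¹' (Qz ⁻¹' {x i}) := by
      ext Y; simp [hA]
    rw [this]
    exact MeasurableSet.iInter fun i => measurable_pi_apply i (hQ (x i))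
  have hAd : Pairwise (Function.onFun Disjoint A) := by
    intro x y hxy
    rw [Function.onFun, Set.disjoint_left]
    intro Y hx hy
    exact hxy (funext fun i => (hx i).symm.trans (hy i))
  have hU : ⋃ x, A x = Set.univ := by
    ext Y; simp only [Set.mem_iUnion, Set.mem_univ, iff_true]
    exact ⟨fun i => Qz (Y i), fun i => rfl⟩
  have hsq : Integrable (fun Y : Fin m → ℝ => (∑ i, Y i) ^ 2) μ := (memLp_sum_gauss m).integrable_sq
  have hg : Integrable (fun Y : Fin m → ℝ => (f : ℝ) - (∑ i, Y i) ^ 2) μ :=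
    (integrable_const _).sub hsq
  have hEq : ∀ x, Set.EqOn (fun Y : Fin m → ℝ => ((f : ℝ) - (∑ i, Y i) ^ 2) * P x)
      (fun Y : Fin m → ℝ => ((f : ℝ) - (∑ i, Y i) ^ 2) * P (fun i => Qz (Y i))) (A x) := by
    intro x Y hY
    have : (fun i => Qz (Y i)) = x := funext hY
    simp only [this]
  have hint : ∀ x, IntegrableOn
      (fun Y : Fin m → ℝ => ((f : ℝ) - (∑ i, Y i) ^ 2) * P (fun i => Qz (Y i))) (A x) μ :=
    fun x => ((hg.mul_const (P x)).integrableOn).congr_fun (hEq x) (hAm x)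
  calc ∑ x, phi m f Qz x * P x
      = ∑ x, ∫ Y in A x, ((f : ℝ) - (∑ i, Y i) ^ 2) * P (fun i => Qz (Y i)) ∂μ := by
        refine Finset.sum_congr rfl fun x _ => ?_
        rw [← setIntegral_congr_fun (hAm x) (hEq x), integral_mul_const]
        rfl
    _ = ∫ Y in ⋃ x, A x, ((f : ℝ) - (∑ i, Y i) ^ 2) * P (fun i => Qz (Y i)) ∂μ := by
        rw [integral_iUnion_fintype hAm hAd hint]
    _ = _ := by rw [hU, Measure.restrict_univ]

end Crest.Agent.R63
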