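import Crest.Agent.R63.Wd

/-! ROW 63, module W: the analytic core.  St ~ N(0,m), eps = St - S, E eps^2 <= de, 0 <= R0 <= 1, R0 S^4 <= b^4, R0 >= 4/25 if |S| <= b.
Pointwise: St^2 R0 <= 2 S^2 R0 + 2 eps^2, S^2 R0 <= 2 b^4/(b^2+S^2) <= 4 b^4/(b^2+St^2) + 4 eps^2
(b^2+St^2 <= 2(b^2+S^2)+2eps^2 and (b^2+S^2)(b^2+St^2) >= b^4), so with gauss_cauchy
E[St^2 R0] <= 10.4 b^3/sqrt m + 10 de;  R0 >= 4/25 (1(|St|<=b/2) - 1(|eps|>b/2)), Markov 4 eps^2/b^2, gauss_small. -/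

set_option autoImplicit false
open Finset MeasureTheory ProbabilityTheory

namespace Crest.Agent.R63

/-- pointwise upper bound -/
private theorem core_up {b St S R0 : ℝ} (hb : 0 < b) (h0 : 0 ≤ R0) (h1 : R0 ≤ 1)
    (h4 : R0 * S ^ 4 ≤ b ^ 4) :
    St ^ 2 * R0 ≤ 8 * b ^ 4 * (1 / (b ^ 2 + St ^ 2)) + 10 * (St - S) ^ 2 := by
  have hb2 : 0 < b ^ 2 := by positivity
  have hb4 : 0 < b ^ 4 := by positivity
  have a1 : 0 < b ^ 2 + S ^ 2 := by positivity
  have a2 : 0 < b ^ 2 + St ^ 2 := by positivity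
  -- St² ≤ 2 S² + 2 ε²
  have e1 : St ^ 2 ≤ 2 * S ^ 2 + 2 * (St - S) ^ 2 := by nlinarith [sq_nonneg (St - 2 * S)]
  -- S² R0 ≤ 2 b⁴ / (b² + S²)
  have e2 : S ^ 2 * R0 ≤ 2 * b ^ 4 / (b ^ 2 + S ^ 2) := by
    rw [le_div_iff₀ a1]
    have k1 : S ^ 2 * b ^ 2 ≤ (S ^ 4 + b ^ 4) / 2 := by nlinarith [sq_nonneg (S ^ 2 - b ^ 2)]
    have k2 : R0 * (S ^ 2 * b ^ 2) ≤ R0 * ((S ^ 4 + b ^ 4) / 2) := mul_le_mul_of_nonneg_left k1 h0
    have k3 : R0 * b ^ 4 ≤ 1 * b ^ 4 := mul_le_mul_of_nonneg_right h1 hb4.le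
    nlinarith
  -- comparison
  have e3 : 1 / (b ^ 2 + S ^ 2) ≤ 2 * (1 / (b ^ 2 + St ^ 2)) + 2 * (St - S) ^ 2 / b ^ 4 := by
    have k1 : 1 / (b ^ 2 + S ^ 2) ≤ 2 * (1 / (b ^ 2 + St ^ 2)) +
        2 * (St - S) ^ 2 / ((b ^ 2 + S ^ 2) * (b ^ 2 + St ^ 2)) := by
      have : 2 * (1 / (b ^ 2 + St ^ 2)) + 2 * (St - S) ^ 2 / ((b ^ 2 + S ^ 2) * (b ^ 2 + St ^ 2)) =
          (2 * (b ^ 2 + S ^ 2) + 2 * (St - S) ^ 2) / ((b ^ 2 + S ^ 2) * (b ^ 2 + St ^ 2)) := by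
        field_simp
      rw [this, div_le_div_iff₀ a1 (mul_pos a1 a2)]
      nlinarith
    have k2 : b ^ 4 ≤ (b ^ 2 + S ^ 2) * (b ^ 2 + St ^ 2) := by
      have := mul_nonneg (sq_nonneg S) (sq_nonneg St)
      nlinarith [mul_nonneg hb2.le (sq_nonneg S), mul_nonneg hb2.le (sq_nonneg St)]
    have k3 : 2 * (St - S) ^ 2 / ((b ^ 2 + S ^ 2) * (b ^ 2 + St ^ 2)) ≤ 2 * (St - S) ^ 2 / b ^ 4 :=
      div_le_div_of_nonneg_left (by positivity) hb4 k2
    linarith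
  have e4 : 2 * b ^ 4 / (b ^ 2 + S ^ 2) ≤ 4 * b ^ 4 * (1 / (b ^ 2 + St ^ 2)) + 4 * (St - S) ^ 2 := by
    have k1 := mul_le_mul_of_nonneg_left e3 (by positivity : (0 : ℝ) ≤ 2 * b ^ 4)
    have k2 : 2 * b ^ 4 * (2 * (1 / (b ^ 2 + St ^ 2)) + 2 * (St - S) ^ 2 / b ^ 4) =
        4 * b ^ 4 * (1 / (b ^ 2 + St ^ 2)) + 4 * (St - S) ^ 2 := by
      field_simp
      ring
    rw [k2, mul_one_div] at k1
    exact k1
  have e5 : St ^ 2 * R0 ≤ (2 * S ^ 2 + 2 * (St - S) ^ 2) * R0 := mul_le_mul_of_nonneg_right e1 h0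
  have e6 : (St - S) ^ 2 * R0 ≤ (St - S) ^ 2 * 1 := mul_le_mul_of_nonneg_left h1 (sq_nonneg _)
  linarith

/-- pointwise lower bound -/
private theorem core_low {b St S R0 : ℝ} (hb : 0 < b) (h0 : 0 ≤ R0)
    (hlow : |S| ≤ b → 4 / 25 ≤ R0) :
    4 / 25 * ((if |St| ≤ b / 2 then 1 else 0) - 4 / b ^ 2 * (St - S) ^ 2) ≤ R0 := by
  have hb2 : 0 < b ^ 2 := by positivity
  have n1 : 0 ≤ 4 / b ^ 2 * (St - S) ^ 2 := by positivity
  split_ifs with h
  · by_cases he : |St - S| ≤ b / 2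
    · have hS : |S| ≤ b := by
        have : S = St - (St - S) := by ring
        rw [this]
        refine (abs_sub _ _).trans ?_
        linarith
      have := hlow hS
      linarith
    · push Not at he
      have h1 : (b / 2) ^ 2 < (St - S) ^ 2 := by
        rw [← sq_abs (St - S)]
        exact pow_lt_pow_left₀ he (by positivity) (by norm_num)
      have h2 : 1 ≤ 4 / b ^ 2 * (St - S) ^ 2 := by
        rw [div_mul_eq_mul_div, le_div_iff₀ hb2]
        nlinarith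
      linarith
  · linarith

theorem core {Ω : Type} [MeasurableSpace Ω] (μ : Measure Ω) [IsProbabilityMeasure μ] (m : ℕ) (hm : 1 ≤ m)
    (St S R0 : Ω → ℝ) (hSt : Measurable St) (hS : Measurable S) (hR0 : Measurable R0)
    (hlaw : Measure.map St μ = gaussianReal 0 m)
    (b de : ℝ) (hb : 0 < b) (hbm : b ≤ 2 * Real.sqrt m)
    (hi : Integrable (fun ω => (St ω - S ω) ^ 2) μ) (hde : ∫ ω, (St ω - S ω) ^ 2 ∂μ ≤ de)
    (h0 : ∀ ω, 0 ≤ R0 ω) (h1 : ∀ ω, R0 ω ≤ 1) (h4 : ∀ ω, R0 ω * S ω ^ 4 ≤ b ^ 4)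
    (hlow : ∀ ω, |S ω| ≤ b → 4 / 25 ≤ R0 ω) (f : ℝ) (hf : 0 ≤ f) :
    f * (4 / 25 * (6 / 25 * b / Real.sqrt m - 4 * de / b ^ 2)) -
        (104 / 10 * b ^ 3 / Real.sqrt m + 10 * de) ≤
      ∫ ω, (f - St ω ^ 2) * R0 ω ∂μ := by
  classical
  have hb2 : 0 < b ^ 2 := by positivity
  have hsm : 0 < Real.sqrt m := by
    rw [Real.sqrt_pos]
    exact_mod_cast hm
  -- integrability
  have iR : Integrable R0 μ := by
    refine Integrable.of_bound hR0.aestronglyMeasurable 1 (Filter.Eventually.of_forall fun ω => ?_)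
    rw [Real.norm_eq_abs, abs_of_nonneg (h0 ω)]
    exact h1 ω
  have iSt : Integrable (fun ω => St ω ^ 2) μ := by
    have h : Integrable (fun y : ℝ => y ^ 2) (Measure.map St μ) := by
      rw [hlaw]
      exact (memLp_id_gaussianReal 2).integrable_sq
    rw [integrable_map_measure (by fun_prop) hSt.aemeasurable] at h
    exact h
  have iStR : Integrable (fun ω => St ω ^ 2 * R0 ω) μ := by
    refine iSt.mono ((hSt.pow_const 2).mul hR0).aestronglyMeasurable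
      (Filter.Eventually.of_forall fun ω => ?_)
    rw [norm_mul, Real.norm_eq_abs (R0 ω), abs_of_nonneg (h0 ω)]
    exact mul_le_of_le_one_right (norm_nonneg _) (h1 ω)
  have mC : Measurable (fun y : ℝ => 1 / (b ^ 2 + y ^ 2)) :=
    measurable_const.div (measurable_const.add (measurable_id.pow_const 2))
  have iC : Integrable (fun ω => 1 / (b ^ 2 + St ω ^ 2)) μ := by
    refine Integrable.of_bound (mC.comp hSt).aestronglyMeasurable (1 / b ^ 2)
      (Filter.Eventually.of_forall fun ω => ?_)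
    have : 0 < b ^ 2 + St ω ^ 2 := by positivity
    rw [Real.norm_eq_abs, abs_of_nonneg (by positivity)]
    exact one_div_le_one_div_of_le hb2 (by nlinarith [sq_nonneg (St ω)])
  -- Cauchy
  have hcau : ∫ ω, 1 / (b ^ 2 + St ω ^ 2) ∂μ ≤ 13 / 10 / (b * Real.sqrt m) := by
    have h := gauss_cauchy m hm b hb
    rw [← hlaw, integral_map hSt.aemeasurable mC.aestronglyMeasurable] at h
    exact h
  -- upper bound
  have hup : ∫ ω, St ω ^ 2 * R0 ω ∂μ ≤ 104 / 10 * b ^ 3 / Real.sqrt m + 10 * de := by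
    calc ∫ ω, St ω ^ 2 * R0 ω ∂μ ≤
        ∫ ω, (8 * b ^ 4 * (1 / (b ^ 2 + St ω ^ 2)) + 10 * (St ω - S ω) ^ 2) ∂μ :=
          integral_mono iStR ((iC.const_mul _).add (hi.const_mul _))
            fun ω => core_up hb (h0 ω) (h1 ω) (h4 ω)
      _ = 8 * b ^ 4 * ∫ ω, 1 / (b ^ 2 + St ω ^ 2) ∂μ + 10 * ∫ ω, (St ω - S ω) ^ 2 ∂μ := by
          rw [integral_add (iC.const_mul _) (hi.const_mul _), integral_const_mul,
            integral_const_mul]
      _ ≤ 8 * b ^ 4 * (13 / 10 / (b * Real.sqrt m)) + 10 * de := by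
          gcongr
      _ = 104 / 10 * b ^ 3 / Real.sqrt m + 10 * de := by
          field_simp
          ring
  -- lower bound
  have mset : MeasurableSet {y : ℝ | |y| ≤ b / 2} := measurableSet_le measurable_norm measurable_const
  have mset' : MeasurableSet {ω | |St ω| ≤ b / 2} := hSt mset
  have hsmall : 6 / 25 * b / Real.sqrt m ≤ μ.real {ω | |St ω| ≤ b / 2} := by
    have h := gauss_small m hm (b / 2) (by positivity) (by linarith)
    rw [← hlaw, map_measureReal_apply hSt mset] at h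
    have e : 12 / 25 * (b / 2) / Real.sqrt m = 6 / 25 * b / Real.sqrt m := by ring
    rw [e] at h
    exact h
  have iI : Integrable (fun ω => if |St ω| ≤ b / 2 then (1 : ℝ) else 0) μ := by
    refine Integrable.of_bound (Measurable.ite mset' measurable_const
      measurable_const).aestronglyMeasurable 1 (Filter.Eventually.of_forall fun ω => ?_)
    split_ifs <;> simp
  have hI : ∫ ω, (if |St ω| ≤ b / 2 then (1 : ℝ) else 0) ∂μ = μ.real {ω | |St ω| ≤ b / 2} := by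
    rw [← integral_indicator_one mset']
    refine integral_congr_ae (Filter.Eventually.of_forall fun ω => ?_)
    simp [Set.indicator]
  have hlo : 4 / 25 * (6 / 25 * b / Real.sqrt m - 4 * de / b ^ 2) ≤ ∫ ω, R0 ω ∂μ := by
    calc 4 / 25 * (6 / 25 * b / Real.sqrt m - 4 * de / b ^ 2) ≤
        4 / 25 * (∫ ω, (if |St ω| ≤ b / 2 then (1 : ℝ) else 0) ∂μ -
          4 / b ^ 2 * ∫ ω, (St ω - S ω) ^ 2 ∂μ) := by
          rw [hI]
          have h2 : 4 / b ^ 2 * ∫ ω, (St ω - S ω) ^ 2 ∂μ ≤ 4 / b ^ 2 * de :=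
            mul_le_mul_of_nonneg_left hde (by positivity)
          have h3 : 4 / b ^ 2 * de = 4 * de / b ^ 2 := by ring
          linarith
      _ = ∫ ω, 4 / 25 * ((if |St ω| ≤ b / 2 then (1 : ℝ) else 0) - 4 / b ^ 2 * (St ω - S ω) ^ 2) ∂μ := by
          rw [integral_const_mul, integral_sub iI (hi.const_mul _), integral_const_mul]
      _ ≤ ∫ ω, R0 ω ∂μ :=
          integral_mono ((iI.sub (hi.const_mul _)).const_mul _) iR
            fun ω => core_low hb (h0 ω) (hlow ω)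
  have hfin : ∫ ω, (f - St ω ^ 2) * R0 ω ∂μ = f * ∫ ω, R0 ω ∂μ - ∫ ω, St ω ^ 2 * R0 ω ∂μ := by
    rw [← integral_const_mul, ← integral_sub (iR.const_mul _) iStR]
    refine integral_congr_ae (Filter.Eventually.of_forall fun ω => ?_)
    simp only
    ring
  rw [hfin]
  have := mul_le_mul_of_nonneg_left hlo hf
  linarith

end Crest.Agent.R63
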