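import Crest.Agent.R63.Defs

/-! ROW 63, module W: final numerics for the window: m = 2^r r^5, kappa = 40000, f = 40000 r^2, k = m/8 + 1 (odd), b = m r/k in [7r, 8r],
de = 5 r^7/2^r = m * (5 r^2/4^r). -/

set_option autoImplicit false
open Finset MeasureTheory ProbabilityTheory

namespace Crest.Agent.R63

private lemma Wh_ev : ∃ r1 : ℕ, ∀ r : ℕ, r1 ≤ r → 25 * r ^ 13 ≤ 2 ^ r := by
  have h := tendsto_pow_const_div_const_pow_of_one_lt 13 (r := (2 : ℝ)) (by norm_num)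
  have h2 := h.eventually (gt_mem_nhds (show (0 : ℝ) < 1 / 25 by norm_num))
  obtain ⟨r1, hr1⟩ := Filter.eventually_atTop.mp h2
  refine ⟨r1, fun r hr => ?_⟩
  have h3 := hr1 r hr
  rw [div_lt_iff₀ (by positivity)] at h3
  have h4 : (25 : ℝ) * (r : ℝ) ^ 13 ≤ 2 ^ r := by linarith
  exact_mod_cast h4

private lemma Wh_main (R M Q k b s de : ℝ) (hR : 100 ≤ R) (hQ : 25 * R ^ 13 ≤ Q) (hM : M = Q * R ^ 5)
    (hk : k = M / 8 + 1) (hb : b = M * R / k) (hs : s = Real.sqrt M) (hde : de = M * (5 * R ^ 2 / Q ^ 2)) :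
    b ≤ 2 * s ∧ 2 / M ^ 3 ≤ 1 / 10 ∧
    1 / M ≤ (2 / M ^ 3) * (40000 * R ^ 2 - M) +
      1 / 2 * ((40000 * R ^ 2) * (4 / 25 * (6 / 25 * b / s - 4 * de / b ^ 2)) -
        (104 / 10 * b ^ 3 / s + 10 * de)) := by
  have hR0 : 0 < R := by linarith
  have hR1 : 1 ≤ R := by linarith
  have hRn : ∀ n : ℕ, 1 ≤ R ^ n := fun n => one_le_pow₀ hR1
  have hQ1 : 1 ≤ Q := by have := hRn 13; linarith
  have hQ0 : 0 < Q := by linarith
  have hMR : 25 * R ^ 18 ≤ M := by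
    rw [hM]
    calc 25 * R ^ 18 = (25 * R ^ 13) * R ^ 5 := by ring
      _ ≤ Q * R ^ 5 := mul_le_mul_of_nonneg_right hQ (by positivity)
  have hR18 : R ^ 2 * 10000 ≤ R ^ 18 := by
    have h1 : (10000 : ℝ) ≤ R ^ 2 := by nlinarith
    calc R ^ 2 * 10000 ≤ R ^ 2 * R ^ 2 := mul_le_mul_of_nonneg_left h1 (by positivity)
      _ = R ^ 4 := by ring
      _ ≤ R ^ 18 := pow_le_pow_right₀ hR1 (by norm_num)
  have hM2 : 250000 * R ^ 2 ≤ M := by nlinarith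
  have hM3 : 250000 ≤ M := by have := hRn 2; nlinarith
  have hM0 : 0 < M := by linarith
  have hs0 : 0 < s := by rw [hs]; exact Real.sqrt_pos.mpr hM0
  have hss : s * s = M := by rw [hs]; exact Real.mul_self_sqrt hM0.le
  have hsR : 500 * R ≤ s := by
    rw [hs]; apply Real.le_sqrt_of_sq_le; nlinarith
  have hk0 : 0 < k := by rw [hk]; linarith
  have hb8 : b ≤ 8 * R := by
    rw [hb, div_le_iff₀ hk0, hk]
    nlinarith
  have hb7 : 7 * R ≤ b := by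
    rw [hb, le_div_iff₀ hk0, hk]
    nlinarith
  have hb0 : 0 < b := by linarith
  have hde0 : 0 ≤ de := by rw [hde]; positivity
  have hdes : de * s ≤ R ^ 3 := by
    have h1 : de = 5 * R ^ 7 / Q := by
      rw [hde, hM]; field_simp
    have h2 : 5 * R ^ 4 * s ≤ Q := by
      refine (pow_le_pow_iff_left₀ (by positivity) hQ0.le (by norm_num : (2 : ℕ) ≠ 0)).mp ?_
      calc (5 * R ^ 4 * s) ^ 2 = 25 * R ^ 8 * (s * s) := by ring
        _ = (25 * R ^ 13) * Q := by rw [hss, hM]; ring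
        _ ≤ Q * Q := mul_le_mul_of_nonneg_right hQ hQ0.le
        _ = Q ^ 2 := by ring
    rw [h1, div_mul_eq_mul_div, div_le_iff₀ hQ0]
    calc 5 * R ^ 7 * s = R ^ 3 * (5 * R ^ 4 * s) := by ring
      _ ≤ R ^ 3 * Q := mul_le_mul_of_nonneg_left h2 (by positivity)
  refine ⟨by linarith, ?_, ?_⟩
  · rw [div_le_div_iff₀ (by positivity) (by norm_num)]
    have : M ≤ M ^ 3 := by
      calc M = M ^ 1 := (pow_one M).symm
        _ ≤ M ^ 3 := pow_le_pow_right₀ (by linarith) (by norm_num)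
    linarith
  · set u := 1 / s with hu
    have hu0 : 0 < u := by rw [hu]; positivity
    have hu1 : u ≤ 1 := by
      rw [hu, div_le_one hs0]; linarith
    have hMu : 1 / M = u ^ 2 := by
      rw [hu, ← hss]; field_simp
    have e1 : (2 / M ^ 3) * (40000 * R ^ 2 - M) ≥ -(2 * u ^ 4) := by
      have h1 : (2 / M ^ 3) * (40000 * R ^ 2 - M) = (2 / M ^ 3) * (40000 * R ^ 2) - 2 * (1 / M) ^ 2 := by
        field_simp
      rw [h1, hMu]
      have : 0 ≤ (2 / M ^ 3) * (40000 * R ^ 2) := by positivity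
      nlinarith
    have e2 : 6 / 25 * b / s = 6 / 25 * b * u := by rw [hu]; ring
    have e3 : 104 / 10 * b ^ 3 / s = 104 / 10 * b ^ 3 * u := by rw [hu]; ring
    have hdeu : de ≤ R ^ 3 * u := by
      rw [hu, mul_one_div, le_div_iff₀ hs0]; exact hdes
    have e4 : 4 * de / b ^ 2 ≤ 4 * (R * u) / 49 := by
      rw [div_le_div_iff₀ (by positivity) (by norm_num)]
      have hb2 : 49 * R ^ 2 ≤ b ^ 2 := by nlinarith
      calc 4 * de * 49 ≤ 4 * (R ^ 3 * u) * 49 := by linarith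
        _ = 4 * (R * u) * (49 * R ^ 2) := by ring
        _ ≤ 4 * (R * u) * b ^ 2 := mul_le_mul_of_nonneg_left hb2 (by positivity)
    have e5 : b ^ 3 ≤ 512 * R ^ 3 := by
      calc b ^ 3 ≤ (8 * R) ^ 3 := pow_le_pow_left₀ hb0.le hb8 3
        _ = 512 * R ^ 3 := by ring
    have e6 : 7 * R * u ≤ b * u := mul_le_mul_of_nonneg_right hb7 hu0.le
    have e7 : b ^ 3 * u ≤ 512 * R ^ 3 * u := mul_le_mul_of_nonneg_right e5 hu0.le
    have e8 : 4 / 25 * (6 / 25 * b * u - 4 * de / b ^ 2) ≥ 4 / 25 * (6 / 25 * (7 * R * u) - 4 * (R * u) / 49) := by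
      linarith
    have e9 : (40000 * R ^ 2) * (4 / 25 * (6 / 25 * b * u - 4 * de / b ^ 2)) ≥
        (40000 * R ^ 2) * (4 / 25 * (6 / 25 * (7 * R * u) - 4 * (R * u) / 49)) :=
      mul_le_mul_of_nonneg_left e8 (by positivity)
    have e10 : (40000 * R ^ 2) * (4 / 25 * (6 / 25 * (7 * R * u) - 4 * (R * u) / 49))
        = (10752 - 25600 / 49) * (R ^ 3 * u) := by ring
    rw [hMu, e2, e3]
    have hu2 : u ^ 2 ≤ u := by nlinarith
    have hu4 : u ^ 4 ≤ u := by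
      calc u ^ 4 ≤ u ^ 1 := pow_le_pow_of_le_one hu0.le hu1 (by norm_num)
        _ = u := pow_one u
    have hRu : u ≤ R ^ 3 * u := by
      have := hRn 3
      nlinarith
    have e11 : 512 * R ^ 3 * u = 512 * (R ^ 3 * u) := by ring
    rw [e10] at e9
    rw [e11] at e7
    nlinarith

theorem numer : ∃ r0 : ℕ, 4 ≤ r0 ∧ ∀ r, r0 ≤ r → ∀ m k : ℕ, m = 2 ^ r * r ^ 5 → k = m / 8 + 1 →
    Odd k ∧ 40000 * r ^ 2 ≤ m ∧ 4 * (k - 1) ≤ m - 40000 * r ^ 2 ∧ 1 ≤ m ∧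
    (m : ℝ) * r / k ≤ 2 * Real.sqrt m ∧ 2 / (m : ℝ) ^ 3 ≤ 1 / 10 ∧
    1 / (m : ℝ) ≤ (2 / (m : ℝ) ^ 3) * ((40000 * r ^ 2 : ℕ) - (m : ℝ)) +
      1 / 2 * (((40000 * r ^ 2 : ℕ) : ℝ) *
          (4 / 25 * (6 / 25 * ((m : ℝ) * r / k) / Real.sqrt m -
            4 * (m * (5 * (r : ℝ) ^ 2 / 4 ^ r)) / ((m : ℝ) * r / k) ^ 2)) -
        (104 / 10 * ((m : ℝ) * r / k) ^ 3 / Real.sqrt m + 10 * (m * (5 * (r : ℝ) ^ 2 / 4 ^ r)))) := by
  obtain ⟨r1, hr1⟩ := Wh_ev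
  refine ⟨max r1 100, by omega, ?_⟩
  intro r hr m k hm hk
  have hrr : r1 ≤ r := le_trans (le_max_left _ _) hr
  have hr100 : 100 ≤ r := le_trans (le_max_right _ _) hr
  have hQ := hr1 r hrr
  obtain ⟨t, ht⟩ : ∃ t, r = t + 4 := ⟨r - 4, by omega⟩
  have h16 : m = 8 * (2 * (2 ^ t * r ^ 5)) := by
    have h1 : 2 ^ r = 2 ^ t * 16 := by rw [ht, pow_add]; norm_num
    rw [hm, h1]; ring
  generalize hA : 2 ^ t * r ^ 5 = A at h16
  have hm8 : m / 8 = 2 * A := by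
    rw [h16]; exact Nat.mul_div_cancel_left _ (by norm_num)
  have hkR : (k : ℝ) = (m : ℝ) / 8 + 1 := by
    have h1 : k * 8 = m + 8 := by rw [hk, hm8, h16]; ring
    have h2 : (k : ℝ) * 8 = m + 8 := by exact_mod_cast h1
    linarith
  have hmain := Wh_main (r : ℝ) (m : ℝ) ((2 : ℝ) ^ r) (k : ℝ) ((m : ℝ) * r / k) (Real.sqrt m)
    ((m : ℝ) * (5 * (r : ℝ) ^ 2 / (2 ^ r) ^ 2)) (by exact_mod_cast hr100) (by exact_mod_cast hQ)
    (by rw [hm]; push_cast; ring) hkR rfl rfl rfl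
  have h4 : (4 : ℝ) ^ r = (2 ^ r) ^ 2 := by
    rw [← pow_mul, mul_comm, pow_mul]; norm_num
  have hm2 : 2 * (40000 * r ^ 2) ≤ m := by
    have h1 : r ^ 2 * 10000 ≤ r ^ 18 := by
      calc r ^ 2 * 10000 = r ^ 2 * (100 ^ 2) := by norm_num
        _ ≤ r ^ 2 * r ^ 2 := Nat.mul_le_mul_left _ (Nat.pow_le_pow_left hr100 2)
        _ = r ^ 4 := by ring
        _ ≤ r ^ 18 := Nat.pow_le_pow_right (by omega) (by norm_num)
    have h2 : 25 * r ^ 18 ≤ m := by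
      rw [hm]
      calc 25 * r ^ 18 = (25 * r ^ 13) * r ^ 5 := by ring
        _ ≤ 2 ^ r * r ^ 5 := Nat.mul_le_mul_right _ hQ
    linarith
  have hr2 : 1 ≤ r ^ 2 := Nat.one_le_pow _ _ (by omega)
  clear hQ hr1
  generalize hB : r ^ 2 = B at hm2 hr2
  have hmpos : 1 ≤ m := by omega
  refine ⟨?_, by omega, ?_, hmpos, hmain.1, hmain.2.1, ?_⟩
  · rw [hk, hm8]
    exact ⟨A, rfl⟩
  · rw [hk, Nat.add_sub_cancel]
    omega
  · have := hmain.2.2
    rw [h4]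
    rw [← hB]
    push_cast
    exact this

end Crest.Agent.R63
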