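import Crest.Agent.R63.Wa
import Crest.Agent.R63.Wb
import Crest.Agent.R63.Wc
import Crest.Agent.R63.Wd
import Crest.Agent.R63.We
import Crest.Agent.R63.Wf
import Crest.Agent.R63.Wg
import Crest.Agent.R63.Wh

/-! ROW 63, module W: the window theorem, assembly.  kappa = 40000; quantizer gives Qz, nu; kernel with k = m/8+1 gives R;
S x = sum nu (x i), P1 x = 2/m^3 + (R.eval (S x/(m r)))/2  (|S x| <= m r).  IsL: isL_poly + constants (isL_poly with R = C c).
phi_sum, then integral of (f - St^2) * const = f - m (sum_law, variance) and `core` with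
Omega = Fin m -> R, St Y = sum Y_i, S Y = sum nu(Qz (Y i)), R0 = R.eval (S/(m r)), b = m r/k, de = m * (5 r^2/4^r)
(err_one, err_mean, err_sum with g t = t - nu (Qz t)); numer. -/

set_option autoImplicit false
open Finset MeasureTheory ProbabilityTheory

namespace Crest.Agent.R63

lemma W1_meas_comp {r : ℕ} (Qz : ℝ → G r) (ν : G r → ℝ)
    (hQ : ∀ a, MeasurableSet (Qz ⁻¹' {a})) : Measurable (fun t => ν (Qz t)) := by
  intro s _
  have h : (fun t => ν (Qz t)) ⁻¹' s = ⋃ a ∈ {a : G r | ν a ∈ s}, Qz ⁻¹' {a} := by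
    ext t
    simp
  rw [h]
  exact MeasurableSet.biUnion (Set.to_countable _) fun a _ => hQ a

lemma W1_var (m : ℕ) :
    Integrable (fun Y : Fin m → ℝ => (∑ i, Y i) ^ 2)
      (Measure.pi fun _ : Fin m => gaussianReal 0 1) ∧
    ∫ Y : Fin m → ℝ, (∑ i, Y i) ^ 2 ∂(Measure.pi fun _ : Fin m => gaussianReal 0 1) = m := by
  have hSt : Measurable (fun Y : Fin m → ℝ => ∑ i, Y i) := by fun_prop
  have h : Integrable (fun y : ℝ => y ^ 2) (gaussianReal 0 m) :=
    (memLp_id_gaussianReal 2).integrable_sq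
  constructor
  · rw [← sum_law m] at h
    rw [integrable_map_measure (by fun_prop) hSt.aemeasurable] at h
    exact h
  · have h2 : ∫ y, y ^ 2 ∂(gaussianReal 0 (m : NNReal)) = m := by
      have h3 := variance_id_gaussianReal (μ := 0) (v := (m : NNReal))
      rw [variance_of_integral_eq_zero (by fun_prop) (by simp)] at h3
      simpa using h3
    rw [← sum_law m, integral_map hSt.aemeasurable (by fun_prop)] at h2
    exact h2

/-- the window function -/
theorem window : ∃ κ : ℕ, 1 ≤ κ ∧ ∃ r0 : ℕ, ∀ r, r0 ≤ r →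
    ∃ Qz : ℝ → G r, (∀ a, MeasurableSet (Qz ⁻¹' {a}) ∧ (frontier (Qz ⁻¹' {a})).Finite) ∧
      ∃ P1 : X (2 ^ r * r ^ 5) r → ℝ, IsL (κ * r ^ 2) P1 ∧
        (∀ x, 2 / (((2 ^ r * r ^ 5 : ℕ) : ℝ)) ^ 3 ≤ P1 x ∧ P1 x ≤ 6 / 10) ∧
        1 / ((2 ^ r * r ^ 5 : ℕ) : ℝ) ≤ ∑ x, phi (2 ^ r * r ^ 5) (κ * r ^ 2) Qz x * P1 x := by
  classical
  obtain ⟨r0, hr04, hnum⟩ := numer
  refine ⟨40000, by norm_num, r0, fun r hr => ?_⟩
  obtain ⟨Qz, ν, hQ, hν, he1, he2, F, hF⟩ := quantizer r (by omega)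
  refine ⟨Qz, hQ, ?_⟩
  have hn := hnum r hr (2 ^ r * r ^ 5) ((2 ^ r * r ^ 5) / 8 + 1) rfl rfl
  clear hnum
  generalize hm : 2 ^ r * r ^ 5 = m at hn ⊢
  clear hm
  obtain ⟨k, hk⟩ : ∃ k, k = m / 8 + 1 := ⟨_, rfl⟩
  rw [← hk] at hn
  obtain ⟨hodd, hfm, hdeg, hm1, hb2, h10, hfin⟩ := hn
  obtain ⟨R, hRdeg, hR, hRlow⟩ := kernel k hodd
  have hk0 : 0 < k := by omega
  have hkR : (0 : ℝ) < k := by exact_mod_cast hk0
  have hmR : (0 : ℝ) < m := by exact_mod_cast hm1
  have hr4 : 4 ≤ r := by omega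
  have hrR : (0 : ℝ) < r := by
    have : 0 < r := by omega
    exact_mod_cast this
  have hmr : (0 : ℝ) < m * r := mul_pos hmR hrR
  -- bound on S
  have hS : ∀ x : X m r, |∑ i, ν (x i)| ≤ m * r := by
    intro x
    calc |∑ i, ν (x i)| ≤ ∑ i : Fin m, |ν (x i)| := Finset.abs_sum_le_sum_abs _ _
      _ ≤ ∑ i : Fin m, (r : ℝ) := Finset.sum_le_sum fun i _ => hν _
      _ = m * r := by simp
  have hS1 : ∀ x : X m r, |(∑ i, ν (x i)) / (m * r)| ≤ 1 := by
    intro x
    rw [abs_div, abs_of_pos hmr, div_le_one hmr]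
    exact hS x
  refine ⟨fun x => 2 / (m : ℝ) ^ 3 + (R.eval ((∑ i, ν (x i)) / (m * r))) / 2, ?_, ?_, ?_⟩
  · have h1 := isL_poly (r := r) hfm ν (Polynomial.C (2 / (m : ℝ) ^ 3) + Polynomial.C (1 / 2) * R) ?_
      (m * r)
    · have h2 : (fun x : X m r => 2 / (m : ℝ) ^ 3 + (R.eval ((∑ i, ν (x i)) / (m * r))) / 2) =
          fun x : X m r => (Polynomial.C (2 / (m : ℝ) ^ 3) + Polynomial.C (1 / 2) * R).eval
            ((∑ i, ν (x i)) / (m * r)) := by
        funext x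
        rw [Polynomial.eval_add, Polynomial.eval_mul, Polynomial.eval_C, Polynomial.eval_C]
        ring
      rw [h2]
      exact h1
    · refine (Polynomial.natDegree_add_le _ _).trans (max_le ?_ ?_)
      · rw [Polynomial.natDegree_C]
        exact Nat.zero_le _
      · exact (Polynomial.natDegree_C_mul_le _ _).trans (hRdeg.trans hdeg)
  · intro x
    obtain ⟨a1, a2, -⟩ := hR _ (hS1 x)
    constructor
    · show 2 / (m : ℝ) ^ 3 ≤ 2 / (m : ℝ) ^ 3 + (R.eval ((∑ i, ν (x i)) / (m * r))) / 2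
      linarith
    · show 2 / (m : ℝ) ^ 3 + (R.eval ((∑ i, ν (x i)) / (m * r))) / 2 ≤ 6 / 10
      linarith
  · rw [phi_sum m (40000 * r ^ 2) Qz (fun a => (hQ a).1)]
    have hmeasν : Measurable (fun t => ν (Qz t)) := W1_meas_comp Qz ν fun a => (hQ a).1
    obtain ⟨g, hg⟩ : ∃ g : ℝ → ℝ, g = fun t => t - ν (Qz t) := ⟨_, rfl⟩
    have hgm : Measurable g := by
      rw [hg]
      exact measurable_id.sub hmeasν
    have hg1 : ∀ t : ℝ, |t| ≤ r → |g t| ≤ 2 * r / 2 ^ r := by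
      intro t ht
      rw [hg]
      exact he1 t ht
    have hg2 : ∀ t : ℝ, (r : ℝ) < |t| → |g t| ≤ |t| - r := by
      intro t ht
      rw [hg]
      exact he2 t ht
    obtain ⟨hgi, hgb⟩ := err_one r hr4 g hgm hg1 hg2
    have hgint : Integrable g (gaussianReal 0 1) :=
      ((memLp_two_iff_integrable_sq hgm.aestronglyMeasurable).2 hgi).integrable (by norm_num)
    have hg0 : ∫ t, g t ∂(gaussianReal 0 1) = 0 := by
      refine err_mean g hgm hgint F fun t ht => ?_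
      rw [hg]
      show -t - ν (Qz (-t)) = -(t - ν (Qz t))
      rw [hF t ht]
      ring
    obtain ⟨hsi, hsv⟩ := err_sum m g hgm hgi hg0
    have hStm : Measurable (fun Y : Fin m → ℝ => ∑ i, Y i) := by fun_prop
    have hSm : Measurable (fun Y : Fin m → ℝ => ∑ i, ν (Qz (Y i))) :=
      Finset.measurable_sum _ fun i _ => hmeasν.comp (measurable_pi_apply i)
    have hRm : Measurable (fun Y : Fin m → ℝ => R.eval ((∑ i, ν (Qz (Y i))) / (m * r))) :=
      R.continuous.measurable.comp (hSm.div_const _)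
    have hdiff : ∀ Y : Fin m → ℝ, (∑ i, Y i) - ∑ i, ν (Qz (Y i)) = ∑ i, g (Y i) := by
      intro Y
      rw [← Finset.sum_sub_distrib, hg]
    have hc := core (Measure.pi fun _ : Fin m => gaussianReal 0 1) m hm1
      (fun Y => ∑ i, Y i) (fun Y => ∑ i, ν (Qz (Y i)))
      (fun Y => R.eval ((∑ i, ν (Qz (Y i))) / (m * r))) hStm hSm hRm (sum_law m)
      (m * r / k) (m * (5 * (r : ℝ) ^ 2 / 4 ^ r)) (div_pos hmr hkR) hb2
      (by
        have h1 : (fun Y : Fin m → ℝ => ((∑ i, Y i) - ∑ i, ν (Qz (Y i))) ^ 2) =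
            fun Y => (∑ i, g (Y i)) ^ 2 := by
          funext Y
          rw [hdiff Y]
        rw [h1]
        exact hsi)
      (by
        have h1 : (fun Y : Fin m → ℝ => ((∑ i, Y i) - ∑ i, ν (Qz (Y i))) ^ 2) =
            fun Y => (∑ i, g (Y i)) ^ 2 := by
          funext Y
          rw [hdiff Y]
        rw [h1, hsv]
        exact mul_le_mul_of_nonneg_left hgb hmR.le)
      (fun Y => (hR _ (hS1 fun i => Qz (Y i))).1)
      (fun Y => (hR _ (hS1 fun i => Qz (Y i))).2.1)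
      (by
        intro Y
        have h1 := (hR _ (hS1 fun i => Qz (Y i))).2.2
        show R.eval ((∑ i, ν (Qz (Y i))) / (m * r)) * (∑ i, ν (Qz (Y i))) ^ 4 ≤ (m * r / k) ^ 4
        generalize R.eval ((∑ i, ν (Qz (Y i))) / (m * r)) = A at h1 ⊢
        generalize (∑ i, ν (Qz (Y i))) = B at h1 ⊢
        have h2 : ((k : ℝ) * (B / (m * r))) ^ 4 = B ^ 4 / (m * r / k) ^ 4 := by
          field_simp
        rw [h2, mul_div_assoc', div_le_one (by positivity)] at h1
        exact h1)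
      (by
        intro Y hY
        refine hRlow _ ?_
        rw [abs_div, abs_of_pos hmr, div_le_div_iff₀ hmr hkR, one_mul]
        rw [le_div_iff₀ hkR] at hY
        exact hY)
      ((40000 * r ^ 2 : ℕ) : ℝ) (Nat.cast_nonneg _)
    -- integrability
    obtain ⟨hv1, hv2⟩ := W1_var m
    have hfi : Integrable (fun Y : Fin m → ℝ => ((40000 * r ^ 2 : ℕ) : ℝ) - (∑ i, Y i) ^ 2)
        (Measure.pi fun _ : Fin m => gaussianReal 0 1) := (integrable_const _).sub hv1
    have hfR : Integrable (fun Y : Fin m → ℝ => (((40000 * r ^ 2 : ℕ) : ℝ) - (∑ i, Y i) ^ 2) *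
        R.eval ((∑ i, ν (Qz (Y i))) / (m * r)))
        (Measure.pi fun _ : Fin m => gaussianReal 0 1) := by
      refine hfi.mono (hfi.aestronglyMeasurable.mul hRm.aestronglyMeasurable)
        (Filter.Eventually.of_forall fun Y => ?_)
      rw [norm_mul]
      refine mul_le_of_le_one_right (norm_nonneg _) ?_
      obtain ⟨a1, a2, -⟩ := hR _ (hS1 fun i => Qz (Y i))
      rw [Real.norm_eq_abs, abs_of_nonneg a1]
      exact a2
    have hint : ∫ Y : Fin m → ℝ, (((40000 * r ^ 2 : ℕ) : ℝ) - (∑ i, Y i) ^ 2) *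
        (2 / (m : ℝ) ^ 3 + (R.eval ((∑ i, ν (Qz (Y i))) / (m * r))) / 2)
        ∂(Measure.pi fun _ : Fin m => gaussianReal 0 1) =
        (2 / (m : ℝ) ^ 3) * (((40000 * r ^ 2 : ℕ) : ℝ) - m) +
        1 / 2 * ∫ Y : Fin m → ℝ, (((40000 * r ^ 2 : ℕ) : ℝ) - (∑ i, Y i) ^ 2) *
          R.eval ((∑ i, ν (Qz (Y i))) / (m * r))
          ∂(Measure.pi fun _ : Fin m => gaussianReal 0 1) := by
      have e1 : ∫ Y : Fin m → ℝ, (((40000 * r ^ 2 : ℕ) : ℝ) - (∑ i, Y i) ^ 2)
          ∂(Measure.pi fun _ : Fin m => gaussianReal 0 1) = ((40000 * r ^ 2 : ℕ) : ℝ) - m := by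
        rw [integral_sub (integrable_const _) hv1, hv2, integral_const]
        simp
      rw [← e1, ← integral_const_mul, ← integral_const_mul,
        ← integral_add (hfi.const_mul _) (hfR.const_mul _)]
      refine integral_congr_ae (Filter.Eventually.of_forall fun Y => ?_)
      show (((40000 * r ^ 2 : ℕ) : ℝ) - (∑ i, Y i) ^ 2) *
        (2 / (m : ℝ) ^ 3 + (R.eval ((∑ i, ν (Qz (Y i))) / (m * r))) / 2) = _
      ring
    rw [hint]
    refine hfin.trans ?_
    linarith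

end Crest.Agent.R63
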