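import Mathlib

/-! ROW 63: module W, Chebyshev kernel `R(t) = (T_k(t)/(k t))^4`, `k` odd (helper10). -/

set_option autoImplicit false
open Finset

namespace Crest.Agent.R63

/-- the kernel polynomial -/
noncomputable def RkP (k : ℕ) : Polynomial ℝ :=
  (Polynomial.C ((k : ℝ)⁻¹) * (Polynomial.Chebyshev.T ℝ (k : ℤ)).divX) ^ 4

lemma RkP_natDegree (k : ℕ) : (RkP k).natDegree ≤ 4 * (k - 1) := by
  unfold RkP
  refine (Polynomial.natDegree_pow_le).trans ?_
  refine Nat.mul_le_mul_left 4 ?_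
  refine (Polynomial.natDegree_C_mul_le _ _).trans ?_
  rw [Polynomial.natDegree_divX_eq_natDegree_tsub_one, Polynomial.Chebyshev.natDegree_T]
  simp

lemma RkP_nonneg (k : ℕ) (t : ℝ) : 0 ≤ (RkP k).eval t := by
  unfold RkP
  rw [Polynomial.eval_pow]
  positivity

/-- `T_k(0) = 0` for odd `k` -/
lemma chebT_zero_odd {k : ℕ} (hk : Odd k) : (Polynomial.Chebyshev.T ℝ (k : ℤ)).eval 0 = 0 := by
  obtain ⟨j, rfl⟩ := hk
  have h := Polynomial.Chebyshev.T_real_cos (Real.pi / 2) (((2 * j + 1 : ℕ) : ℤ))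
  rw [Real.cos_pi_div_two] at h
  rw [h]
  have : (((2 * j + 1 : ℕ) : ℤ) : ℝ) * (Real.pi / 2) = Real.pi / 2 + (j : ℕ) * Real.pi := by
    push_cast; ring
  rw [this, Real.cos_add_nat_mul_pi, Real.cos_pi_div_two, mul_zero]

/-- `|T_k(sin φ)| = |sin (k φ)|` for odd `k` -/
lemma chebT_abs_sin {k : ℕ} (hk : Odd k) (φ : ℝ) :
    |(Polynomial.Chebyshev.T ℝ (k : ℤ)).eval (Real.sin φ)| = |Real.sin (k * φ)| := by
  obtain ⟨j, rfl⟩ := hk
  rw [← Real.cos_pi_div_two_sub, Polynomial.Chebyshev.T_real_cos]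
  have : (((2 * j + 1 : ℕ) : ℤ) : ℝ) * (Real.pi / 2 - φ) =
      (Real.pi / 2 - ((2 * j + 1 : ℕ) : ℝ) * φ) + (j : ℕ) * Real.pi := by
    push_cast; ring
  rw [this, Real.cos_add_nat_mul_pi, Real.cos_pi_div_two_sub, abs_mul]
  simp

lemma chebT_eval_eq {k : ℕ} (hk : Odd k) (t : ℝ) :
    (Polynomial.Chebyshev.T ℝ (k : ℤ)).eval t =
      (Polynomial.Chebyshev.T ℝ (k : ℤ)).divX.eval t * t := by
  conv_lhs => rw [← Polynomial.divX_mul_X_add (Polynomial.Chebyshev.T ℝ (k : ℤ))]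
  have h0 : (Polynomial.Chebyshev.T ℝ (k : ℤ)).coeff 0 = 0 := by
    rw [Polynomial.coeff_zero_eq_eval_zero]; exact chebT_zero_odd hk
  rw [h0]
  simp

/-- `R(t) (k t)^4 = T_k(t)^4` -/
lemma RkP_mul {k : ℕ} (hk : Odd k) (t : ℝ) :
    (RkP k).eval t * (k * t) ^ 4 = (Polynomial.Chebyshev.T ℝ (k : ℤ)).eval t ^ 4 := by
  have hk0 : (k : ℝ) ≠ 0 := by
    obtain ⟨j, rfl⟩ := hk
    positivity
  rw [chebT_eval_eq hk t]
  unfold RkP
  rw [Polynomial.eval_pow, Polynomial.eval_mul, Polynomial.eval_C, ← mul_pow]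
  congr 1
  field_simp

/-- `R(t) ≤ (k t)^{-4}` -/
lemma RkP_mul_le {k : ℕ} (hk : Odd k) {t : ℝ} (ht : |t| ≤ 1) :
    (RkP k).eval t * (k * t) ^ 4 ≤ 1 := by
  rw [RkP_mul hk t]
  have h := Polynomial.Chebyshev.abs_eval_T_real_le_one (k : ℤ) ht
  have : (Polynomial.Chebyshev.T ℝ (k : ℤ)).eval t ^ 4 =
      |(Polynomial.Chebyshev.T ℝ (k : ℤ)).eval t| ^ 4 := by
    rw [← abs_pow, abs_of_nonneg (by positivity)]
  rw [this]
  exact pow_le_one₀ (abs_nonneg _) h

lemma abs_sin_nat_mul_le_w (k : ℕ) (φ : ℝ) : |Real.sin (k * φ)| ≤ k * |Real.sin φ| := by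
  induction k with
  | zero => simp
  | succ k ih =>
    push_cast
    rw [add_mul, one_mul, Real.sin_add]
    calc |Real.sin (k * φ) * Real.cos φ + Real.cos (k * φ) * Real.sin φ|
        ≤ |Real.sin (k * φ) * Real.cos φ| + |Real.cos (k * φ) * Real.sin φ| := abs_add_le _ _
      _ ≤ |Real.sin (k * φ)| * 1 + 1 * |Real.sin φ| := by
          rw [abs_mul, abs_mul]
          gcongr
          · exact Real.abs_cos_le_one _
          · exact Real.abs_cos_le_one _
      _ ≤ (k + 1) * |Real.sin φ| := by linarith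

/-- `R(t) ≤ 1` on `[-1,1]` -/
lemma RkP_le_one {k : ℕ} (hk : Odd k) {t : ℝ} (ht : |t| ≤ 1) : (RkP k).eval t ≤ 1 := by
  have hk0 : (0 : ℝ) < (k : ℝ) := by
    obtain ⟨j, rfl⟩ := hk
    positivity
  have key : ∀ s : ℝ, s ≠ 0 → |s| ≤ 1 → (RkP k).eval s ≤ 1 := by
    intro s hs hs1
    have h1 : |(Polynomial.Chebyshev.T ℝ (k : ℤ)).eval s| ≤ k * |s| := by
      have hsin : Real.sin (Real.arcsin s) = s :=
        Real.sin_arcsin (neg_le_of_abs_le hs1) (le_of_abs_le hs1)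
      have h2 := chebT_abs_sin hk (Real.arcsin s)
      rw [hsin] at h2
      rw [h2]
      have h3 := abs_sin_nat_mul_le_w k (Real.arcsin s)
      rw [hsin] at h3
      exact h3
    have h4 := RkP_mul hk s
    have h5 : (Polynomial.Chebyshev.T ℝ (k : ℤ)).eval s ^ 4 ≤ (k * s) ^ 4 := by
      have e1 : (Polynomial.Chebyshev.T ℝ (k : ℤ)).eval s ^ 4 =
          |(Polynomial.Chebyshev.T ℝ (k : ℤ)).eval s| ^ 4 := by
        rw [← abs_pow, abs_of_nonneg (by positivity)]
      have e2 : (k * s) ^ 4 = (k * |s|) ^ 4 := by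
        rw [mul_pow, mul_pow, ← abs_pow s, abs_of_nonneg (show 0 ≤ s ^ 4 by positivity)]
      rw [e1, e2]
      exact pow_le_pow_left₀ (abs_nonneg _) h1 4
    have h6 : 0 < (k * s) ^ 4 := by positivity
    by_contra hcon
    push Not at hcon
    have : (k * s) ^ 4 < (RkP k).eval s * (k * s) ^ 4 := by
      nlinarith
    linarith
  rcases eq_or_ne t 0 with rfl | h0
  · -- continuity at zero
    have hc : Continuous fun s : ℝ => (RkP k).eval s := (RkP k).continuous
    have hmem : (0 : ℝ) ∈ closure ({s : ℝ | s ≠ 0 ∧ |s| ≤ 1}) := by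
      rw [Metric.mem_closure_iff]
      intro ε hε
      refine ⟨min (ε / 2) 1, ⟨by positivity, ?_⟩, ?_⟩
      · rw [abs_of_pos (by positivity)]; exact min_le_right _ _
      · rw [dist_comm, Real.dist_eq, sub_zero, abs_of_pos (by positivity)]
        exact lt_of_le_of_lt (min_le_left _ _) (by linarith)
    have hcl : IsClosed {s : ℝ | (RkP k).eval s ≤ 1} := isClosed_le hc continuous_const
    exact (closure_minimal (fun s hs => key s hs.1 hs.2) hcl) hmem
  · exact key t h0 ht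

/-- `R(t) ≥ 0.16` for `|t| ≤ 1/k` -/
lemma RkP_ge {k : ℕ} (hk : Odd k) {t : ℝ} (ht : k * |t| ≤ 1) : 16 / 100 ≤ (RkP k).eval t := by
  have hk1 : (1 : ℝ) ≤ (k : ℝ) := by
    obtain ⟨j, rfl⟩ := hk
    push_cast
    have : (0 : ℝ) ≤ j := Nat.cast_nonneg j
    linarith
  have hk0 : (0 : ℝ) < (k : ℝ) := by linarith
  have key : ∀ s : ℝ, s ≠ 0 → k * |s| ≤ 1 → 16 / 100 ≤ (RkP k).eval s := by
    intro s hs hs1
    have habs : 0 < |s| := abs_pos.2 hs
    have hs2 : |s| ≤ 1 := by nlinarith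
    -- reduce to `|s|`
    have hpos : |(Polynomial.Chebyshev.T ℝ (k : ℤ)).eval s| =
        |(Polynomial.Chebyshev.T ℝ (k : ℤ)).eval (|s|)| := by
      rcases abs_choice s with h | h
      · rw [h]
      · rw [h, Polynomial.Chebyshev.T_eval_neg, abs_mul]
        simp
    have hsin : Real.sin (Real.arcsin |s|) = |s| :=
      Real.sin_arcsin (by linarith) hs2
    have h2 := chebT_abs_sin hk (Real.arcsin |s|)
    rw [hsin] at h2
    set φ := Real.arcsin |s| with hφ
    have hφ0 : 0 ≤ φ := Real.arcsin_nonneg.2 habs.le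
    have hφ1 : φ ≤ Real.pi / 2 := Real.arcsin_le_pi_div_two _
    have hφs : |s| ≤ φ := by
      rw [← hsin]; exact Real.sin_le hφ0
    have hφ2 : 2 / Real.pi * φ ≤ |s| := by
      have := Real.mul_le_sin hφ0 hφ1
      rw [hsin] at this
      exact this
    have hπ := Real.pi_pos
    have hkφ : k * φ ≤ Real.pi / 2 := by
      have h3 : 2 / Real.pi * (k * φ) ≤ 1 := by
        calc 2 / Real.pi * (k * φ) = k * (2 / Real.pi * φ) := by ring
          _ ≤ k * |s| := mul_le_mul_of_nonneg_left hφ2 hk0.le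
          _ ≤ 1 := hs1
      have h4 : 2 / Real.pi * (k * φ) = (k * φ) / (Real.pi / 2) := by
        field_simp
      rw [h4, div_le_one (by positivity)] at h3
      exact h3
    have h5 : 2 / Real.pi * (k * φ) ≤ Real.sin (k * φ) := Real.mul_le_sin (by positivity) hkφ
    have h6 : 2 / Real.pi * (k * |s|) ≤ |(Polynomial.Chebyshev.T ℝ (k : ℤ)).eval s| := by
      rw [hpos, h2]
      calc 2 / Real.pi * (k * |s|) ≤ 2 / Real.pi * (k * φ) := by gcongr
        _ ≤ Real.sin (k * φ) := h5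
        _ ≤ |Real.sin (k * φ)| := le_abs_self _
    have h7 : (2 / Real.pi) ^ 4 * (k * s) ^ 4 ≤ (RkP k).eval s * (k * s) ^ 4 := by
      rw [RkP_mul hk s]
      have e1 : (Polynomial.Chebyshev.T ℝ (k : ℤ)).eval s ^ 4 =
          |(Polynomial.Chebyshev.T ℝ (k : ℤ)).eval s| ^ 4 := by
        rw [← abs_pow, abs_of_nonneg (by positivity)]
      have e2 : (k * s) ^ 4 = (k * |s|) ^ 4 := by
        rw [mul_pow, mul_pow, ← abs_pow s, abs_of_nonneg (show 0 ≤ s ^ 4 by positivity)]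
      rw [e1, e2, ← mul_pow]
      exact pow_le_pow_left₀ (by positivity) h6 4
    have h8 : 0 < (k * s) ^ 4 := by positivity
    have h9 : (2 / Real.pi) ^ 4 ≤ (RkP k).eval s := le_of_mul_le_mul_right h7 h8
    have h10 : (16 : ℝ) / 100 ≤ (2 / Real.pi) ^ 4 := by
      have hpi := Real.pi_lt_d2
      have : (2 / 3.15 : ℝ) ≤ 2 / Real.pi := by
        apply div_le_div_of_nonneg_left (by norm_num) hπ hpi.le
      calc (16 : ℝ) / 100 ≤ (2 / 3.15) ^ 4 := by norm_num
        _ ≤ (2 / Real.pi) ^ 4 := pow_le_pow_left₀ (by norm_num) this 4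
    linarith
  rcases eq_or_ne t 0 with rfl | h0
  · have hc : Continuous fun s : ℝ => (RkP k).eval s := (RkP k).continuous
    have hmem : (0 : ℝ) ∈ closure ({s : ℝ | s ≠ 0 ∧ k * |s| ≤ 1}) := by
      rw [Metric.mem_closure_iff]
      intro ε hε
      refine ⟨min (ε / 2) (1 / k), ⟨by positivity, ?_⟩, ?_⟩
      · rw [abs_of_pos (by positivity)]
        calc (k : ℝ) * min (ε / 2) (1 / k) ≤ k * (1 / k) := by
              gcongr; exact min_le_right _ _
          _ = 1 := by field_simp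
      · rw [dist_comm, Real.dist_eq, sub_zero, abs_of_pos (by positivity)]
        exact lt_of_le_of_lt (min_le_left _ _) (by linarith)
    have hcl : IsClosed {s : ℝ | 16 / 100 ≤ (RkP k).eval s} := isClosed_le continuous_const hc
    exact (closure_minimal (fun s hs => key s hs.1 hs.2) hcl) hmem
  · exact key t h0 ht

end Crest.Agent.R63
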