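import Crest.Agent.R63.Ch6

/-! ROW 63: module W, polynomials in `∑ ν(x_i)` are orthogonal to `W` (helper10). -/

set_option autoImplicit false
open Finset

namespace Crest.Agent.R63

variable {m r f : ℕ}

lemma IsL.zero_w : IsL f (fun _ : X m r => (0 : ℝ)) := by
  intro w _; simp

lemma IsL.add_w {g h : X m r → ℝ} (hg : IsL f g) (hh : IsL f h) : IsL f (fun x => g x + h x) := by
  intro w hw
  simp only [add_mul, Finset.sum_add_distrib, hg w hw, hh w hw, add_zero]

lemma IsL.const_mul_w {g : X m r → ℝ} (c : ℝ) (hg : IsL f g) : IsL f (fun x => c * g x) := by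
  intro w hw
  simp only [mul_assoc, ← Finset.mul_sum, hg w hw, mul_zero]

lemma IsL.sum_w {ι : Type*} (s : Finset ι) (g : ι → X m r → ℝ) (hg : ∀ i ∈ s, IsL f (g i)) :
    IsL f (fun x => ∑ i ∈ s, g i x) := by
  classical
  induction s using Finset.induction_on with
  | empty => simpa using IsL.zero_w
  | insert a s ha ih =>
    simp only [Finset.sum_insert ha]
    exact (hg a (Finset.mem_insert_self _ _)).add_w
      (ih fun i hi => hg i (Finset.mem_insert_of_mem hi))

/-- a function of at most `m - f` coordinates is orthogonal to `W` -/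
lemma isL_of_dep_le_w (hf : f ≤ m) (I : Finset (Fin m)) (hI : I.card ≤ m - f)
    (g : X m r → ℝ) (hg : ∀ x y, (∀ i ∈ I, x i = y i) → g x = g y) : IsL f g := by
  obtain ⟨J, hIJ, hJ⟩ := Finset.exists_superset_card_eq (s := I) (n := m - f) hI
    (by rw [Fintype.card_fin]; omega)
  exact isL_of_dep hf J hJ g fun x y h => hg x y fun i hi => h i (hIJ hi)

/-- powers of `∑ ν(x_i)` -/
lemma isL_pow_w (hf : f ≤ m) (ν : G r → ℝ) (j : ℕ) (hj : j ≤ m - f) :
    IsL f (fun x : X m r => (∑ i, ν (x i)) ^ j) := by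
  classical
  have h : ∀ x : X m r, (∑ i, ν (x i)) ^ j = ∑ p : Fin j → Fin m, ∏ i, ν (x (p i)) := by
    intro x
    exact Fintype.sum_pow (fun i => ν (x i)) j
  simp only [h]
  refine IsL.sum_w _ _ fun p _ => ?_
  refine isL_of_dep_le_w hf (univ.image p) ?_ _ ?_
  · calc (univ.image p).card ≤ (univ : Finset (Fin j)).card := Finset.card_image_le
      _ = j := by simp
      _ ≤ m - f := hj
  · intro x y hxy
    refine Finset.prod_congr rfl fun i _ => ?_
    rw [hxy (p i) (Finset.mem_image_of_mem p (Finset.mem_univ i))]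

/-- a polynomial of degree `≤ m - f` in `∑ ν(x_i)` is orthogonal to `W` -/
lemma isL_poly_alt (hf : f ≤ m) (ν : G r → ℝ) (P : Polynomial ℝ) (hP : P.natDegree ≤ m - f) :
    IsL f (fun x : X m r => P.eval (∑ i, ν (x i))) := by
  have h : ∀ x : X m r, P.eval (∑ i, ν (x i)) =
      ∑ j ∈ Finset.range (P.natDegree + 1), P.coeff j * (∑ i, ν (x i)) ^ j :=
    fun x => Polynomial.eval_eq_sum_range _
  simp only [h]
  refine IsL.sum_w _ _ fun j hj => ?_
  refine IsL.const_mul_w _ (isL_pow_w hf ν j ?_)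
  have := Finset.mem_range.1 hj
  omega

/-- affine/scaled form used for the window: `c₀ + c₁ P((∑ ν(x_i)) / a)` -/
lemma isL_poly_scaled (hf : f ≤ m) (ν : G r → ℝ) (P : Polynomial ℝ) (hP : P.natDegree ≤ m - f)
    (a c0 c1 : ℝ) :
    IsL f (fun x : X m r => c0 + c1 * P.eval ((∑ i, ν (x i)) / a)) := by
  have h := isL_poly_alt (m := m) (r := r) (f := f) hf ν
    (Polynomial.C c0 + Polynomial.C c1 * P.comp (Polynomial.C a⁻¹ * Polynomial.X)) ?_
  · have e : (fun x : X m r => c0 + c1 * P.eval ((∑ i, ν (x i)) / a)) =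
        (fun x : X m r => (Polynomial.C c0 + Polynomial.C c1 *
          P.comp (Polynomial.C a⁻¹ * Polynomial.X)).eval (∑ i, ν (x i))) := by
      funext x
      simp only [Polynomial.eval_add, Polynomial.eval_C, Polynomial.eval_mul, Polynomial.eval_comp,
        Polynomial.eval_X]
      rw [div_eq_inv_mul]
    rw [e]; exact h
  · refine (Polynomial.natDegree_add_le _ _).trans ?_
    rw [Polynomial.natDegree_C]
    refine max_le (Nat.zero_le _) ?_
    refine (Polynomial.natDegree_C_mul_le _ _).trans ?_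
    refine Polynomial.natDegree_comp_le.trans ?_
    have h1 : (Polynomial.C a⁻¹ * Polynomial.X : Polynomial ℝ).natDegree ≤ 1 :=
      (Polynomial.natDegree_C_mul_le _ _).trans Polynomial.natDegree_X_le
    calc P.natDegree * (Polynomial.C a⁻¹ * Polynomial.X : Polynomial ℝ).natDegree
        ≤ P.natDegree * 1 := Nat.mul_le_mul_left _ h1
      _ ≤ m - f := by rw [mul_one]; exact hP

end Crest.Agent.R63
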