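import Crest.Agent.R63.Defs

/-! ROW 63: `phi_mass` (helper22). -/

set_option autoImplicit false
open Finset MeasureTheory ProbabilityTheory

namespace Crest.Agent.R63

theorem memLp_sum_gauss (m : ℕ) :
    MemLp (fun Y : Fin m → ℝ => ∑ i, Y i) 2 (Measure.pi fun _ : Fin m => gaussianReal 0 1) := by
  refine memLp_finsetSum _ (fun i _ => ?_)
  exact (memLp_id_gaussianReal (μ := 0) (v := 1) 2).comp_measurePreserving
    (measurePreserving_eval (fun _ : Fin m => gaussianReal 0 1) i)

/-- second moment of the Gaussian sum -/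
theorem integral_sq_sum_gauss (m : ℕ) :
    ∫ Y : Fin m → ℝ, (∑ i, Y i) ^ 2 ∂(Measure.pi fun _ : Fin m => gaussianReal 0 1) = m := by
  have hv := variance_sum_pi (ι := Fin m) (Ω := fun _ => ℝ) (μ := fun _ : Fin m => gaussianReal 0 1)
    (X := fun _ => id) (fun _ => memLp_id_gaussianReal (μ := 0) (v := 1) 2)
  have h0 : ∫ Y : Fin m → ℝ, (∑ i, Y i) ∂(Measure.pi fun _ : Fin m => gaussianReal 0 1) = 0 := by
    rw [integral_finsetSum]
    · refine Finset.sum_eq_zero fun i _ => ?_
      have := integral_comp_eval (μ := fun _ : Fin m => gaussianReal 0 1) (i := i)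
        (f := fun y : ℝ => y) (by fun_prop)
      rw [this, integral_id_gaussianReal]
    · intro i _
      exact ((memLp_id_gaussianReal (μ := 0) (v := 1) 2).comp_measurePreserving
        (measurePreserving_eval (fun _ : Fin m => gaussianReal 0 1) i)).integrable (by norm_num)
  have hfun : (∑ i : Fin m, fun ω : Fin m → ℝ => id (ω i)) = fun Y : Fin m → ℝ => ∑ i, Y i := by
    ext Y; simp
  rw [hfun, variance_of_integral_eq_zero (memLp_sum_gauss m).aemeasurable h0] at hv
  rw [hv]
  simp [variance_id_gaussianReal]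

/-- total mass of `|phi|` -/
theorem phi_mass_pf {Γ : Type} [Fintype Γ] [DecidableEq Γ] (m f : ℕ) (Qz : ℝ → Γ)
    (hQ : ∀ a, MeasurableSet (Qz ⁻¹' {a})) :
    ∑ x, |phi m f Qz x| ≤ (f : ℝ) + m := by
  classical
  set μ : Measure (Fin m → ℝ) := Measure.pi fun _ : Fin m => gaussianReal 0 1 with hμ
  set A : (Fin m → Γ) → Set (Fin m → ℝ) := fun x => {Y | ∀ i, Qz (Y i) = x i} with hA
  have hAm : ∀ x, MeasurableSet (A x) := by
    intro x
    have : A x = ⋂ i, (fun Y : Fin m → ℝ => Y i) ⁻¹' (Qz ⁻¹' {x i}) := by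
      ext Y; simp [hA]
    rw [this]
    exact MeasurableSet.iInter fun i => measurable_pi_apply i (hQ (x i))
  have hAd : Pairwise (Function.onFun Disjoint A) := by
    intro x y hxy
    rw [Function.onFun, Set.disjoint_left]
    intro Y hx hy
    exact hxy (funext fun i => (hx i).symm.trans (hy i))
  have hU : ⋃ x, A x = Set.univ := by
    ext Y; simp only [Set.mem_iUnion, Set.mem_univ, iff_true]
    exact ⟨fun i => Qz (Y i), fun i => rfl⟩
  have hsq : Integrable (fun Y : Fin m → ℝ => (∑ i, Y i) ^ 2) μ := (memLp_sum_gauss m).integrable_sq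
  have hg : Integrable (fun Y : Fin m → ℝ => (f : ℝ) - (∑ i, Y i) ^ 2) μ :=
    (integrable_const _).sub hsq
  calc ∑ x, |phi m f Qz x| ≤ ∑ x, ∫ Y in A x, |(f : ℝ) - (∑ i, Y i) ^ 2| ∂μ := by
        refine Finset.sum_le_sum fun x _ => ?_
        exact abs_integral_le_integral_abs
    _ = ∫ Y in ⋃ x, A x, |(f : ℝ) - (∑ i, Y i) ^ 2| ∂μ := by
        rw [integral_iUnion_fintype hAm hAd (fun x => hg.abs.integrableOn)]
    _ = ∫ Y, |(f : ℝ) - (∑ i, Y i) ^ 2| ∂μ := by rw [hU, Measure.restrict_univ]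
    _ ≤ ∫ Y, ((f : ℝ) + (∑ i, Y i) ^ 2) ∂μ := by
        refine integral_mono hg.abs ((integrable_const _).add hsq) fun Y => ?_
        refine (abs_sub _ _).trans ?_
        simp [abs_of_nonneg (sq_nonneg (∑ i, Y i))]
    _ = (f : ℝ) + m := by
        rw [integral_add (integrable_const _) hsq, integral_sq_sum_gauss]
        simp

end Crest.Agent.R63
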