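import Crest.Agent.R63.Defs

/-! ROW 63, module W: the quantiser.  CONSTRUCTION: K = 2^r - 2 intervals Ico(-r + j h, -r + (j+1) h), h = 2r/K, of [-r, r), tails
Iio (-r), Ici r; index j(t) in Fin (2^r), Qz = e o j with e : Fin (2^r) ≃ G r; nu = midpoints, -r and r on the tails.
h/2 = r/(2^r-2) <= 2r/2^r.  Symmetric grid: nu(Qz(-t)) = -nu(Qz t) unless t is a grid point. -/

set_option autoImplicit false
open Finset MeasureTheory ProbabilityTheory

namespace Crest.Agent.R63

theorem quantizer (r : ℕ) (hr : 2 ≤ r) : ∃ (Qz : ℝ → G r) (ν : G r → ℝ),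
    (∀ a, MeasurableSet (Qz ⁻¹' {a}) ∧ (frontier (Qz ⁻¹' {a})).Finite) ∧
    (∀ a, |ν a| ≤ r) ∧
    (∀ t : ℝ, |t| ≤ r → |t - ν (Qz t)| ≤ 2 * r / 2 ^ r) ∧
    (∀ t : ℝ, (r : ℝ) < |t| → |t - ν (Qz t)| ≤ |t| - r) ∧
    ∃ F : Finset ℝ, ∀ t : ℝ, t ∉ F → ν (Qz (-t)) = - ν (Qz t) := by
  classical
  obtain ⟨K, hK⟩ : ∃ K : ℕ, K + 2 = 2 ^ r := ⟨2 ^ r - 2, by
    have := Nat.pow_le_pow_right (show 0 < 2 by norm_num) hr
    omega⟩
  have hK2 : 2 ≤ K := by
    have := Nat.pow_le_pow_right (show 0 < 2 by norm_num) hr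
    omega
  have hKr : (2 : ℝ) ≤ K := by exact_mod_cast hK2
  have hr0 : (2 : ℝ) ≤ r := by exact_mod_cast hr
  obtain ⟨h, hh⟩ : ∃ h : ℝ, h = 2 * r / K := ⟨_, rfl⟩
  have hpos : 0 < h := by
    rw [hh]
    exact div_pos (by linarith) (by linarith)
  have hKh : K * h = 2 * r := by
    rw [hh]
    field_simp
  let Jn : ℝ → ℕ := fun t => if t < -(r : ℝ) then K else if (r : ℝ) ≤ t then K + 1 else
    ⌊(t + r) / h⌋₊
  have hfl : ∀ t : ℝ, ¬ t < -(r : ℝ) → ¬ (r : ℝ) ≤ t → ⌊(t + r) / h⌋₊ < K := by
    intro t h1 h2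
    have h3 : 0 ≤ (t + r) / h := div_nonneg (by linarith) hpos.le
    rw [Nat.floor_lt h3, div_lt_iff₀ hpos, hKh]
    linarith
  have hJ : ∀ t, Jn t < 2 ^ r := by
    intro t
    simp only [Jn]
    split_ifs with h1 h2
    · omega
    · omega
    · have := hfl t h1 h2
      omega
  have hcard : Fintype.card (G r) = 2 ^ r := by
    simp [G]
  let e : Fin (2 ^ r) ≃ G r := (Fintype.equivFinOfCardEq hcard).symm
  let val : ℕ → ℝ := fun i => if i = K then -(r : ℝ) else if i = K + 1 then (r : ℝ) else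
    -(r : ℝ) + (i + 1 / 2) * h
  let cell : ℕ → Set ℝ := fun i => if i = K then Set.Iio (-(r : ℝ)) else if i = K + 1 then
    Set.Ici (r : ℝ) else Set.Ico (-(r : ℝ) + i * h) (-(r : ℝ) + (i + 1) * h)
  have hcell : ∀ (t : ℝ) (i : ℕ), i < 2 ^ r → (Jn t = i ↔ t ∈ cell i) := by
    intro t i hi
    simp only [Jn, cell]
    by_cases hiK : i = K
    · rw [if_pos hiK]
      subst hiK
      split_ifs with h1 h2
      · simp [h1]
      · simp only [Set.mem_Iio]
        exact ⟨fun h => by omega, fun h => absurd h h1⟩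
      · have h3 := hfl t h1 h2
        simp only [Set.mem_Iio]
        exact ⟨fun h => by omega, fun h => absurd h h1⟩
    rw [if_neg hiK]
    by_cases hiK1 : i = K + 1
    · rw [if_pos hiK1]
      subst hiK1
      split_ifs with h1 h2
      · simp only [Set.mem_Ici]
        exact ⟨fun h => by omega, fun h => by linarith⟩
      · simp [h2]
      · have h3 := hfl t h1 h2
        simp only [Set.mem_Ici]
        exact ⟨fun h => by omega, fun h => absurd h h2⟩
    rw [if_neg hiK1]
    have hiK' : i < K := by omega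
    have hi1 : (i : ℝ) + 1 ≤ K := by exact_mod_cast hiK'
    have hi0 : (0 : ℝ) ≤ i := Nat.cast_nonneg i
    have hub : -(r : ℝ) + (i + 1) * h ≤ r := by
      have := mul_le_mul_of_nonneg_right hi1 hpos.le
      linarith
    have hlb : -(r : ℝ) ≤ -(r : ℝ) + i * h := by
      have := mul_nonneg hi0 hpos.le
      linarith
    simp only [Set.mem_Ico]
    split_ifs with h1 h2
    · exact ⟨fun h => by omega, fun h => by linarith [h.1]⟩
    · exact ⟨fun h => by omega, fun h => by linarith [h.2]⟩
    · have h3 : 0 ≤ (t + r) / h := div_nonneg (by linarith) hpos.le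
      rw [Nat.floor_eq_iff h3, le_div_iff₀ hpos, div_lt_iff₀ hpos]
      constructor
      · rintro ⟨h4, h5⟩
        constructor <;> linarith
      · rintro ⟨h4, h5⟩
        constructor <;> linarith
  have hval : ∀ t i, i < 2 ^ r → t ∈ cell i → val (Jn t) = val i := by
    intro t i hi ht
    rw [(hcell t i hi).2 ht]
  have hJc : ∀ t, t ∈ cell (Jn t) := fun t => (hcell t (Jn t) (hJ t)).1 rfl
  have hmid : ∀ i : ℕ, i < K → val i = -(r : ℝ) + (i + 1 / 2) * h := by
    intro i hi
    simp only [val]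
    rw [if_neg (by omega), if_neg (by omega)]
  have hh2 : h / 2 ≤ 2 * r / 2 ^ r := by
    have e1 : (2 : ℝ) ^ r = K + 2 := by
      have : ((K + 2 : ℕ) : ℝ) = ((2 ^ r : ℕ) : ℝ) := by rw [hK]
      push_cast at this
      exact this.symm
    rw [e1, hh, le_div_iff₀ (by linarith)]
    have e2 : 2 * (r : ℝ) / K / 2 * (K + 2) = r + 2 * r / K := by
      field_simp
    rw [e2]
    have e3 : 2 * (r : ℝ) / K ≤ r := by
      rw [div_le_iff₀ (by linarith)]
      nlinarith
    linarith
  refine ⟨fun t => e ⟨Jn t, hJ t⟩, fun a => val ((e.symm a : Fin (2 ^ r)) : ℕ), ?_, ?_, ?_, ?_, ?_⟩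
  · intro a
    have hpre : (fun t => e ⟨Jn t, hJ t⟩) ⁻¹' {a} = cell ((e.symm a : Fin (2 ^ r)) : ℕ) := by
      ext t
      rw [Set.mem_preimage, Set.mem_singleton_iff, ← hcell t _ (e.symm a).2,
        ← Equiv.eq_symm_apply]
      exact Fin.ext_iff
    rw [hpre]
    simp only [cell]
    split_ifs with h1 h2
    · refine ⟨measurableSet_Iio, ?_⟩
      rw [frontier_Iio]
      exact Set.finite_singleton _
    · refine ⟨measurableSet_Ici, ?_⟩
      rw [frontier_Ici]
      exact Set.finite_singleton _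
    · refine ⟨measurableSet_Ico, ?_⟩
      rw [frontier_Ico (by nlinarith)]
      exact Set.toFinite _
  · intro a
    have hi := (e.symm a).2
    show |val ((e.symm a : Fin (2 ^ r)) : ℕ)| ≤ r
    generalize ((e.symm a : Fin (2 ^ r)) : ℕ) = i at hi
    by_cases h1 : i = K
    · have e1 : val i = -(r : ℝ) := if_pos h1
      rw [e1, abs_neg, abs_of_nonneg (by linarith)]
    by_cases h2 : i = K + 1
    · have e1 : val i = (r : ℝ) := by
        simp only [val]
        rw [if_neg h1, if_pos h2]
      rw [e1, abs_of_nonneg (by linarith)]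
    have hiK : i < K := by omega
    rw [hmid i hiK, abs_le]
    have hi1 : (i : ℝ) + 1 ≤ K := by exact_mod_cast hiK
    have hi0 : (0 : ℝ) ≤ i := Nat.cast_nonneg i
    have h3 := mul_le_mul_of_nonneg_right hi1 hpos.le
    have h4 := mul_nonneg hi0 hpos.le
    constructor <;> nlinarith
  · intro t ht
    show |t - val ((e.symm (e ⟨Jn t, hJ t⟩) : Fin (2 ^ r)) : ℕ)| ≤ _
    rw [Equiv.symm_apply_apply]
    show |t - val (Jn t)| ≤ _
    have hc := hJc t
    rw [abs_le] at ht
    by_cases h1 : t < -(r : ℝ)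
    · linarith
    by_cases h2 : (r : ℝ) ≤ t
    · have e1 : Jn t = K + 1 := by
        simp only [Jn]
        rw [if_neg h1, if_pos h2]
      have e2 : val (Jn t) = r := by
        rw [e1]
        simp only [val]
        rw [if_neg (by omega), if_pos trivial]
      rw [e2]
      have e3 : t = r := by linarith
      rw [e3, sub_self, abs_zero]
      positivity
    · have e1 : Jn t = ⌊(t + r) / h⌋₊ := by
        simp only [Jn]
        rw [if_neg h1, if_neg h2]
      have h3 := hfl t h1 h2
      rw [← e1] at h3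
      generalize Jn t = i at *
      have hcc : cell i = Set.Ico (-(r : ℝ) + i * h) (-(r : ℝ) + (i + 1) * h) := by
        simp only [cell]
        rw [if_neg (by omega), if_neg (by omega)]
      rw [hcc, Set.mem_Ico] at hc
      rw [hmid i h3]
      refine le_trans ?_ hh2
      rw [abs_le]
      constructor <;> linarith [hc.1, hc.2]
  · intro t ht
    show |t - val ((e.symm (e ⟨Jn t, hJ t⟩) : Fin (2 ^ r)) : ℕ)| ≤ _
    rw [Equiv.symm_apply_apply]
    show |t - val (Jn t)| ≤ _
    rcases le_total 0 t with h0 | h0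
    · rw [abs_of_nonneg h0] at ht ⊢
      have e1 : Jn t = K + 1 := by
        simp only [Jn]
        rw [if_neg (by linarith), if_pos (by linarith)]
      have e2 : val (Jn t) = r := by
        rw [e1]
        simp only [val]
        rw [if_neg (by omega), if_pos trivial]
      rw [e2, abs_of_nonneg (by linarith)]
    · rw [abs_of_nonpos h0] at ht ⊢
      have e1 : Jn t = K := by
        simp only [Jn]
        rw [if_pos (by linarith)]
      have e2 : val (Jn t) = -r := by
        rw [e1]
        simp only [val]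
        rw [if_pos trivial]
      rw [e2, abs_of_nonpos (by linarith)]
      linarith
  · refine ⟨(range (K + 1)).image fun i : ℕ => -(r : ℝ) + i * h, fun t ht => ?_⟩
    show val ((e.symm (e ⟨Jn (-t), hJ (-t)⟩) : Fin (2 ^ r)) : ℕ) =
      - val ((e.symm (e ⟨Jn t, hJ t⟩) : Fin (2 ^ r)) : ℕ)
    rw [Equiv.symm_apply_apply, Equiv.symm_apply_apply]
    show val (Jn (-t)) = - val (Jn t)
    have hgrid : ∀ i : ℕ, i ≤ K → t ≠ -(r : ℝ) + i * h := by
      intro i hi he
      exact ht (Finset.mem_image.2 ⟨i, Finset.mem_range.2 (by omega), he.symm⟩)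
    have hvK : val K = -(r : ℝ) := if_pos rfl
    have hvK1 : val (K + 1) = (r : ℝ) := by
      simp only [val]
      rw [if_neg (by omega), if_pos trivial]
    by_cases h1 : t < -(r : ℝ)
    · have e1 : Jn t = K := by
        simp only [Jn]
        rw [if_pos h1]
      have e2 : Jn (-t) = K + 1 := by
        simp only [Jn]
        rw [if_neg (by linarith), if_pos (by linarith)]
      rw [e1, e2, hvK, hvK1, neg_neg]
    by_cases h2 : (r : ℝ) ≤ t
    · have h3 : t ≠ r := by
        have := hgrid K le_rfl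
        rw [hKh] at this
        intro h4
        apply this
        linarith
      have h4 : (r : ℝ) < t := lt_of_le_of_ne h2 (Ne.symm h3)
      have e1 : Jn t = K + 1 := by
        simp only [Jn]
        rw [if_neg h1, if_pos h2]
      have e2 : Jn (-t) = K := by
        simp only [Jn]
        rw [if_pos (by linarith)]
      rw [e1, e2, hvK, hvK1]
    · have e1 : Jn t = ⌊(t + r) / h⌋₊ := by
        simp only [Jn]
        rw [if_neg h1, if_neg h2]
      have h3 := hfl t h1 h2
      rw [← e1] at h3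
      have hc := hJc t
      obtain ⟨i, hi⟩ : ∃ i, i = Jn t := ⟨_, rfl⟩
      rw [← hi] at h3 hc ⊢
      have hcc : cell i = Set.Ico (-(r : ℝ) + i * h) (-(r : ℝ) + (i + 1) * h) := by
        simp only [cell]
        rw [if_neg (by omega), if_neg (by omega)]
      rw [hcc, Set.mem_Ico] at hc
      have h4 : -(r : ℝ) + i * h < t := lt_of_le_of_ne hc.1 (Ne.symm (hgrid i h3.le))
      have hj : ((K - 1 - i : ℕ) : ℝ) = K - 1 - i := by
        rw [Nat.cast_sub (by omega), Nat.cast_sub (by omega), Nat.cast_one]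
      have hjK : K - 1 - i < K := by omega
      have hcj : cell (K - 1 - i) = Set.Ico (-(r : ℝ) + ((K - 1 - i : ℕ) : ℝ) * h)
          (-(r : ℝ) + (((K - 1 - i : ℕ) : ℝ) + 1) * h) := by
        simp only [cell]
        rw [if_neg (by omega), if_neg (by omega)]
      have h5 : -t ∈ cell (K - 1 - i) := by
        rw [hcj, hj, Set.mem_Ico]
        constructor
        · nlinarith [hc.2]
        · nlinarith
      have h6 := (hcell (-t) (K - 1 - i) (by omega)).2 h5
      rw [h6, hmid _ hjK, hmid i h3, hj]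
      linarith


end Crest.Agent.R63
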